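import Mathlib
import Vale.Agent.P230.Gauss

/-! Tail and cap estimates for the standard Gaussian vector. -/

namespace Vale.Agent.P230.Lower

open MeasureTheory ProbabilityTheory Set Vale.Agent.P230
open scoped ENNReal NNReal

/-- Squared Euclidean norm. -/
noncomputable def nsq {n : ℕ} (x : Fin n → ℝ) : ℝ := ∑ i, x i ^ 2

/-- Scalar product. -/
noncomputable def dotp {n : ℕ} (g y : Fin n → ℝ) : ℝ := ∑ i, g i * y i

lemma nsq_nonneg {n : ℕ} (x : Fin n → ℝ) : 0 ≤ nsq x :=
  Finset.sum_nonneg fun _ _ => sq_nonneg _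

/-- Gaussian tail. -/
noncomputable def tailP (s : ℝ) : ℝ := γ1.real (Ioi s)

lemma tailP_shift (s δ : ℝ) :
    tailP (s + δ) = ∫ t in Ioi s, gaussianPDFReal 0 1 t * Real.exp (-(t * δ) - δ ^ 2 / 2) := by
  have h : γ1.map (fun t => t + (-δ)) = gaussianReal (-δ) 1 := by
    rw [gaussianReal_map_add_const, zero_add]
  have e : (fun t => t + -δ) ⁻¹' Ioi s = Ioi (s + δ) := by
    ext t; simp only [mem_preimage, mem_Ioi]; constructor <;> intro h <;> linarith
  rw [tailP, ← e, ← map_measureReal_apply (by fun_prop) measurableSet_Ioi, h, measureReal_def,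
    gaussianReal_apply_eq_integral _ one_ne_zero, ENNReal.toReal_ofReal
      (setIntegral_nonneg measurableSet_Ioi fun x _ => gaussianPDFReal_nonneg _ _ _)]
  refine setIntegral_congr_fun measurableSet_Ioi fun t _ => ?_
  simp only [gaussianPDFReal, NNReal.coe_one, mul_one]
  rw [mul_assoc, ← Real.exp_add]
  ring_nf

lemma γ1_real_eq_integral {A : Set ℝ} (hA : MeasurableSet A) :
    γ1.real A = ∫ t in A, gaussianPDFReal 0 1 t := by
  rw [measureReal_def, gaussianReal_apply_eq_integral _ one_ne_zero, ENNReal.toReal_ofReal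
    (setIntegral_nonneg hA fun x _ => gaussianPDFReal_nonneg _ _ _)]

lemma integrableOn_pdf_exp (s δ : ℝ) :
    IntegrableOn (fun t => gaussianPDFReal 0 1 t * Real.exp (-(t * δ) - δ ^ 2 / 2)) (Ioi s) := by
  refine ((integrable_gaussianPDFReal (-δ) 1).congr
    (Filter.Eventually.of_forall fun t => ?_)).integrableOn
  simp only [gaussianPDFReal, NNReal.coe_one, mul_one]
  rw [mul_assoc, ← Real.exp_add]
  ring_nf

lemma tailP_nonneg (s : ℝ) : 0 ≤ tailP s := measureReal_nonneg

lemma tailP_le_one (s : ℝ) : tailP s ≤ 1 := measureReal_le_one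

lemma tailP_pos (s : ℝ) : 0 < tailP s := by
  have h := γ1_Ico_lower (a := s + 1) (b := s + 2) (M := |s| + 2) (by linarith)
    ((abs_add_le s 1).trans (by norm_num)) ((abs_add_le s 2).trans (by norm_num))
  refine lt_of_lt_of_le ?_ (h.trans (measureReal_mono fun t ht => ?_))
  · have : (0:ℝ) < s + 2 - (s + 1) := by linarith
    positivity
  · exact lt_of_lt_of_le (by linarith) ht.1

lemma tailP_antitone {s t : ℝ} (h : s ≤ t) : tailP t ≤ tailP s :=
  measureReal_mono (Ioi_subset_Ioi h)

lemma tailP_add_le {s δ : ℝ} (hδ : 0 ≤ δ) : tailP (s + δ) ≤ Real.exp (-(s * δ)) * tailP s := by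
  have e : tailP s = ∫ t in Ioi s, gaussianPDFReal 0 1 t := γ1_real_eq_integral measurableSet_Ioi
  rw [e, tailP_shift, ← integral_const_mul]
  refine setIntegral_mono_on (integrableOn_pdf_exp s δ)
    ((integrable_gaussianPDFReal 0 1).integrableOn.const_mul _) measurableSet_Ioi fun t ht => ?_
  rw [mul_comm (Real.exp _)]
  refine mul_le_mul_of_nonneg_left (Real.exp_le_exp.2 ?_) (gaussianPDFReal_nonneg _ _ _)
  have := mul_le_mul_of_nonneg_right (le_of_lt ht) hδ
  nlinarith [sq_nonneg δ]

lemma tailP_le_exp {s : ℝ} (hs : 0 ≤ s) : tailP s ≤ Real.exp (-(s ^ 2 / 2)) := by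
  have e : tailP 0 = ∫ t in Ioi 0, gaussianPDFReal 0 1 t := γ1_real_eq_integral measurableSet_Ioi
  calc tailP s = tailP (0 + s) := by rw [zero_add]
    _ ≤ Real.exp (-(s ^ 2 / 2)) * tailP 0 := by
        rw [e, tailP_shift, ← integral_const_mul]
        refine setIntegral_mono_on (integrableOn_pdf_exp 0 s)
          ((integrable_gaussianPDFReal 0 1).integrableOn.const_mul _) measurableSet_Ioi fun t ht => ?_
        rw [mul_comm (Real.exp _)]
        refine mul_le_mul_of_nonneg_left (Real.exp_le_exp.2 ?_) (gaussianPDFReal_nonneg _ _ _)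
        have := mul_nonneg (le_of_lt ht) hs
        linarith
    _ ≤ _ := mul_le_of_le_one_right (Real.exp_pos _).le (tailP_le_one _)

lemma tailP_add_ge {s δ : ℝ} (hs : 1 ≤ s) (hδ : 0 ≤ δ) :
    Real.exp (-((s + 1) * δ) - δ ^ 2 / 2) / 2 * tailP s ≤ tailP (s + δ) := by
  have h1 : tailP (s + 1) ≤ tailP s / 2 := by
    refine (tailP_add_le zero_le_one).trans ?_
    have : Real.exp (-(s * 1)) ≤ 1 / 2 := by
      rw [Real.exp_neg, one_div]
      exact inv_anti₀ (by norm_num) (by linarith [Real.add_one_le_exp (s * 1)])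
    nlinarith [tailP_nonneg s, Real.exp_pos (-(s * 1))]
  have hu : Ioi s = Ioc s (s + 1) ∪ Ioi (s + 1) := (Ioc_union_Ioi_eq_Ioi (by linarith)).symm
  have h2 : γ1.real (Ioc s (s + 1)) = tailP s - tailP (s + 1) := by
    unfold tailP
    rw [hu, measureReal_union (Ioc_disjoint_Ioi le_rfl) measurableSet_Ioi]
    ring
  rw [γ1_real_eq_integral measurableSet_Ioc] at h2
  calc Real.exp (-((s + 1) * δ) - δ ^ 2 / 2) / 2 * tailP s
      ≤ Real.exp (-((s + 1) * δ) - δ ^ 2 / 2) * (tailP s - tailP (s + 1)) := by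
        have h3 := mul_le_mul_of_nonneg_left h1 (Real.exp_pos (-((s + 1) * δ) - δ ^ 2 / 2)).le
        linarith
    _ = ∫ t in Ioc s (s + 1), Real.exp (-((s + 1) * δ) - δ ^ 2 / 2) * gaussianPDFReal 0 1 t := by
        rw [integral_const_mul, h2]
    _ ≤ ∫ t in Ioc s (s + 1),
          gaussianPDFReal 0 1 t * Real.exp (-(t * δ) - δ ^ 2 / 2) := by
        refine setIntegral_mono_on ((integrable_gaussianPDFReal 0 1).integrableOn.const_mul _)
          ((integrableOn_pdf_exp s δ).mono_set Ioc_subset_Ioi_self) measurableSet_Ioc fun t ht => ?_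
        rw [mul_comm]
        refine mul_le_mul_of_nonneg_left (Real.exp_le_exp.2 ?_) (gaussianPDFReal_nonneg _ _ _)
        have := mul_le_mul_of_nonneg_right ht.2 hδ
        linarith
    _ ≤ _ := by
        rw [tailP_shift]
        exact setIntegral_mono_set (integrableOn_pdf_exp s δ)
          (Filter.Eventually.of_forall fun t =>
            mul_nonneg (gaussianPDFReal_nonneg _ _ _) (Real.exp_pos _).le)
          (Filter.Eventually.of_forall Ioc_subset_Ioi_self)

lemma measurable_dotp {n : ℕ} (y : Fin n → ℝ) : Measurable fun g : Fin n → ℝ => dotp g y := by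
  unfold dotp; fun_prop

lemma measurableSet_cap {n : ℕ} (y : Fin n → ℝ) (τ : ℝ) :
    MeasurableSet {g : Fin n → ℝ | τ < dotp g y} :=
  measurableSet_lt measurable_const (measurable_dotp y)

lemma cap_prob {n : ℕ} (y : Fin n → ℝ) (hy : 0 < nsq y) (τ : ℝ) :
    (γn n).real {g | τ < dotp g y} = tailP (τ / Real.sqrt (nsq y)) := by
  set r := Real.sqrt (nsq y) with hr
  have hrp : 0 < r := Real.sqrt_pos.2 hy
  have hu : ∑ i, (y i / r) ^ 2 = 1 := by
    simp_rw [div_pow, hr, Real.sq_sqrt hy.le]
    rw [← Finset.sum_div]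
    exact div_self hy.ne'
  rw [tailP, ← map_dot_γn _ hu, map_measureReal_apply (by fun_prop) measurableSet_Ioi]
  congr 1
  ext g
  simp only [mem_ofPred_eq, mem_preimage, mem_Ioi, dotCLM_apply, dotp]
  rw [div_lt_iff₀ hrp, Finset.sum_mul]
  simp_rw [mul_assoc, div_mul_cancel₀ _ hrp.ne']

lemma cap_le {n : ℕ} (y : Fin n → ℝ) {r τ : ℝ} (hr : 0 < r) (hy : nsq y ≤ r ^ 2) (hτ : 0 ≤ τ) :
    (γn n).real {g | τ < dotp g y} ≤ tailP (τ / r) := by
  rcases (nsq_nonneg y).eq_or_lt with h0 | h0
  · have hy0 : ∀ i, y i = 0 := fun i => by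
      have := (Finset.sum_eq_zero_iff_of_nonneg fun j _ => sq_nonneg (y j)).1 h0.symm i
        (Finset.mem_univ i)
      simpa using this
    have : {g : Fin n → ℝ | τ < dotp g y} = ∅ := by
      ext g; simp [dotp, hy0, not_lt.2 hτ]
    rw [this, measureReal_empty]
    exact tailP_nonneg _
  · rw [cap_prob y h0]
    refine tailP_antitone (div_le_div_of_nonneg_left hτ (Real.sqrt_pos.2 h0) ?_)
    exact Real.sqrt_le_iff.2 ⟨hr.le, hy⟩

/-- Two caps at distance `d` share little. -/
lemma joint_le {n : ℕ} (y y' : Fin n → ℝ) {r τ : ℝ} (hr : 0 < r) (hy : nsq y ≤ r ^ 2)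
    (hy' : nsq y' ≤ r ^ 2) (hτ : 0 < τ) :
    (γn n).real {g | τ < dotp g y ∧ τ < dotp g y'} ≤
      tailP (τ / r) * Real.exp (-(τ ^ 2 * nsq (y - y') / (8 * r ^ 4))) := by
  set s := τ / r with hs
  have hs0 : 0 < s := by positivity
  set e := nsq (y - y') with he
  have he0 : 0 ≤ e := nsq_nonneg _
  have hpar : nsq (y + y') + e = 2 * nsq y + 2 * nsq y' := by
    simp only [he, nsq, Pi.add_apply, Pi.sub_apply, Finset.mul_sum, ← Finset.sum_add_distrib]
    exact Finset.sum_congr rfl fun i _ => by ring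
  have hsub : {g : Fin n → ℝ | τ < dotp g y ∧ τ < dotp g y'} ⊆ {g | 2 * τ < dotp g (y + y')} := by
    intro g hg
    simp only [mem_ofPred_eq] at hg ⊢
    have : dotp g (y + y') = dotp g y + dotp g y' := by
      simp [dotp, mul_add, Finset.sum_add_distrib]
    linarith [hg.1, hg.2]
  refine (measureReal_mono hsub).trans ?_
  have hee : e ≤ 4 * r ^ 2 := by linarith [nsq_nonneg (y + y')]
  -- radius of the midpoint
  set t := e / (8 * r ^ 2) with ht
  have ht0 : 0 ≤ t := by positivity
  have hmid : nsq (y + y') ≤ (2 * r / (1 + t)) ^ 2 := by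
    have h1 : nsq (y + y') ≤ 4 * r ^ 2 - e := by linarith
    refine h1.trans ?_
    rw [div_pow, le_div_iff₀ (by positivity)]
    have e1 : 4 * r ^ 2 - e = 4 * r ^ 2 * (1 - 2 * t) := by rw [ht]; field_simp; ring
    rw [e1]
    have e2 : (1 - 2 * t) * (1 + t) ^ 2 = 1 - 3 * t ^ 2 - 2 * t ^ 3 := by ring
    have e3 : (1 - 2 * t) * (1 + t) ^ 2 ≤ 1 := by
      rw [e2]; nlinarith [pow_nonneg ht0 3, sq_nonneg t]
    nlinarith [mul_le_mul_of_nonneg_left e3 (by positivity : (0:ℝ) ≤ 4 * r ^ 2)]
  refine (cap_le _ (by positivity) hmid (by linarith)).trans ?_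
  have e4 : 2 * τ / (2 * r / (1 + t)) = s + s * t := by rw [hs]; field_simp
  rw [e4]
  refine (tailP_add_le (by positivity)).trans (le_of_eq ?_)
  rw [mul_comm, hs, ht]
  congr 2
  field_simp

/-- A common cap for a clump around the direction `u`. -/
lemma clump_lower {n : ℕ} {ι : Type*} (M : Finset ι) (y : ι → Fin n → ℝ) (u : Fin n → ℝ)
    (hu : nsq u = 1) {τ T Δ R2 : ℝ} (hΔ : 0 ≤ Δ)
    (hpos : ∀ j ∈ M, 0 < dotp u (y j)) (hTj : ∀ j ∈ M, τ + Δ ≤ T * dotp u (y j))
    (horth : ∀ j ∈ M, nsq (fun i => y j i - dotp u (y j) * u i) ≤ R2) :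
    tailP T * (1 - M.card * Real.exp (-(Δ ^ 2 / (2 * R2)))) ≤
      (γn n).real {g | ∀ j ∈ M, τ < dotp g (y j)} := by
  classical
  set w : ι → Fin n → ℝ := fun j i => y j i - dotp u (y j) * u i
  set bad : ι → Set (Fin n → ℝ) := fun j => {g | T < dotp g u ∧ dotp g (w j) < -Δ}
  set E := (Real.exp (-(Δ ^ 2 / (2 * R2))))
  have hbad : ∀ j ∈ M, (γn n).real (bad j) ≤ tailP T * E := by
    intro j hj
    rcases (nsq_nonneg (w j)).eq_or_lt with h0 | h0
    · have hw0 : ∀ i, w j i = 0 := fun i => by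
        have := (Finset.sum_eq_zero_iff_of_nonneg fun l _ => sq_nonneg (w j l)).1 h0.symm i
          (Finset.mem_univ i)
        simpa using this
      have : bad j = ∅ := by
        ext g; simp [bad, dotp, hw0, hΔ]
      rw [this, measureReal_empty]
      exact mul_nonneg (tailP_nonneg _) (Real.exp_pos _).le
    set q := Real.sqrt (nsq (w j)) with hq
    have hqp : 0 < q := Real.sqrt_pos.2 h0
    set v : Fin n → ℝ := fun i => -(w j i / q) with hv
    have hvn : ∑ i, v i ^ 2 = 1 := by
      simp_rw [hv, neg_sq, div_pow, hq, Real.sq_sqrt h0.le]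
      rw [← Finset.sum_div]
      exact div_self h0.ne'
    have huv : ∑ i, u i * v i = 0 := by
      have e : ∑ i, u i * w j i = 0 := by
        have e1 : ∑ i, u i * w j i = dotp u (y j) - dotp u (y j) * nsq u := by
          simp only [w, nsq, Finset.mul_sum]
          rw [dotp, ← Finset.sum_sub_distrib]
          exact Finset.sum_congr rfl fun i _ => by ring
        rw [e1, hu]; ring
      have : ∑ i, u i * v i = -(1/q) * ∑ i, u i * w j i := by
        rw [Finset.mul_sum]
        exact Finset.sum_congr rfl fun i _ => by simp only [hv]; ring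
      rw [this, e, mul_zero]
    have hmap := map_dot₂_γn u v (show ∑ i, u i ^ 2 = 1 from hu) hvn (σ := 1) (by rw [huv]; ring)
    have hb : bad j = ((dotCLM u).prod (dotCLM v)) ⁻¹' (Ioi T ×ˢ Ioi (Δ / q)) := by
      ext g
      simp only [bad, mem_ofPred_eq, mem_preimage, ContinuousLinearMap.prod_apply, mem_prod,
        mem_Ioi, dotCLM_apply, dotp]
      refine and_congr_right fun _ => ?_
      have e : ∑ i, g i * v i = -(∑ i, g i * w j i) / q := by
        rw [← Finset.sum_neg_distrib, Finset.sum_div]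
        exact Finset.sum_congr rfl fun i _ => by simp only [hv]; ring
      rw [e, div_lt_div_iff_of_pos_right hqp]
      exact ⟨fun h => by linarith, fun h => by linarith⟩
    rw [hb, ← map_measureReal_apply (by fun_prop) (measurableSet_Ioi.prod measurableSet_Ioi),
      hmap, huv, map_measureReal_apply (by fun_prop) (measurableSet_Ioi.prod measurableSet_Ioi)]
    have e : shearCLM 0 1 ⁻¹' (Ioi T ×ˢ Ioi (Δ / q)) = Ioi T ×ˢ Ioi (Δ / q) := by
      ext z; simp [shearCLM_apply]
    rw [e, measureReal_prod_prod]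
    refine mul_le_mul_of_nonneg_left ((tailP_le_exp (by positivity)).trans ?_) (tailP_nonneg _)
    refine Real.exp_le_exp.2 (neg_le_neg ?_)
    rw [div_pow, hq, Real.sq_sqrt h0.le, div_div, mul_comm (nsq _)]
    gcongr
    exact horth j hj
  set good := {g : Fin n → ℝ | ∀ j ∈ M, τ < dotp g (y j)}
  have hsub : {g : Fin n → ℝ | T < dotp g u} ⊆ good ∪ ⋃ j ∈ M, bad j := by
    intro g hg
    by_cases hb : ∃ j ∈ M, g ∈ bad j
    · obtain ⟨j, hj, hjb⟩ := hb
      exact Or.inr (mem_iUnion₂.2 ⟨j, hj, hjb⟩)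
    push Not at hb
    refine Or.inl fun j hj => ?_
    have hw : -Δ ≤ dotp g (w j) := by
      by_contra h
      exact hb j hj ⟨hg, not_le.1 h⟩
    have e : dotp g (y j) = dotp u (y j) * dotp g u + dotp g (w j) := by
      simp only [w, dotp, Finset.mul_sum, ← Finset.sum_add_distrib]
      exact Finset.sum_congr rfl fun i _ => by ring
    have h1 : T * dotp u (y j) < dotp g u * dotp u (y j) :=
      mul_lt_mul_of_pos_right hg (hpos j hj)
    rw [e]
    linarith [hTj j hj]
  have h1 : (γn n).real {g | T < dotp g u} = tailP T := by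
    rw [cap_prob u (by rw [hu]; exact one_pos), hu, Real.sqrt_one, div_one]
  have h2 := (measureReal_mono (μ := γn n) hsub (measure_ne_top _ _)).trans
    ((measureReal_union_le _ _).trans (add_le_add le_rfl (measureReal_biUnion_finset_le M bad)))
  have h3 : ∑ j ∈ M, (γn n).real (bad j) ≤ M.card * (tailP T * E) :=
    (Finset.sum_le_sum hbad).trans (le_of_eq (by rw [Finset.sum_const, nsmul_eq_mul]))
  rw [h1] at h2
  nlinarith

lemma integral_exp_sq : ∫ t, Real.exp (t ^ 2 / 4) ∂γ1 = Real.sqrt 2 := by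
  rw [integral_gaussianReal_eq_integral_smul one_ne_zero]
  have e : (fun t : ℝ => gaussianPDFReal 0 1 t • Real.exp (t ^ 2 / 4)) =
      fun t => (Real.sqrt (2 * Real.pi))⁻¹ * Real.exp (-(1/4) * t ^ 2) := by
    funext t
    simp only [gaussianPDFReal, NNReal.coe_one, mul_one, sub_zero, smul_eq_mul, mul_assoc,
      ← Real.exp_add]
    ring_nf
  rw [e, integral_const_mul, integral_gaussian, ← Real.sqrt_inv, ← Real.sqrt_mul (by positivity)]
  congr 1
  field_simp
  ring

lemma big_norm_le {n : ℕ} (B : ℝ) :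
    (γn n).real {g | B < nsq g} ≤ Real.sqrt 2 ^ n * Real.exp (-(B / 4)) := by
  have hint1 : Integrable (fun t : ℝ => Real.exp (t ^ 2 / 4)) γ1 := by
    by_contra h
    have := integral_exp_sq
    rw [integral_undef h] at this
    exact (Real.sqrt_pos.2 (by norm_num : (0:ℝ) < 2)).ne this
  have hint : Integrable (fun g : Fin n → ℝ => ∏ i, Real.exp (g i ^ 2 / 4)) (γn n) :=
    Integrable.fintype_prod fun _ => hint1
  have hm : MeasurableSet {g : Fin n → ℝ | B < nsq g} :=
    measurableSet_lt measurable_const (by unfold nsq; fun_prop)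
  have h : Real.exp (B / 4) * (γn n).real {g | B < nsq g} ≤ Real.sqrt 2 ^ n := by
    calc Real.exp (B / 4) * (γn n).real {g | B < nsq g}
        = ∫ g, {g : Fin n → ℝ | B < nsq g}.indicator (fun _ => Real.exp (B / 4)) g ∂γn n := by
          rw [integral_indicator_const _ hm, smul_eq_mul, mul_comm]
      _ ≤ ∫ g, ∏ i, Real.exp (g i ^ 2 / 4) ∂γn n := by
          refine integral_mono ((integrable_const _).indicator hm) hint fun g => ?_
          simp only [← Real.exp_sum, ← Finset.sum_div]
          by_cases hg : B < nsq g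
          · rw [indicator_of_mem (show g ∈ {g | B < nsq g} from hg)]
            unfold nsq at hg
            exact Real.exp_le_exp.2 (by linarith)
          · rw [indicator_of_notMem (show g ∉ {g | B < nsq g} from hg)]
            positivity
      _ = Real.sqrt 2 ^ n := by
          rw [integral_fintype_prod_eq_prod (f := fun _ t => Real.exp (t ^ 2 / 4))]
          simp [integral_exp_sq]
  rw [Real.exp_neg, ← div_eq_mul_inv, le_div_iff₀ (Real.exp_pos _), mul_comm]
  exact h

/-- Volume of a Euclidean ball. -/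
lemma ball_volume_le {n : ℕ} (hn : 0 < n) (z : Fin n → ℝ) {d : ℝ} (hd : 0 < d) :
    volume.real {x : Fin n → ℝ | nsq (x - z) ≤ d ^ 2} ≤ (5 * d / Real.sqrt n) ^ n := by
  have hn' : (0:ℝ) < n := by exact_mod_cast hn
  have e : {x : Fin n → ℝ | nsq (x - z) ≤ d ^ 2} =
      (fun x => x + -z) ⁻¹' {x | nsq x ≤ d ^ 2} := by
    ext x; simp [sub_eq_add_neg]
  rw [measureReal_def, e, measure_preimage_add_right, ← measureReal_def]
  set b : ℝ := n / (2 * d ^ 2) with hb
  have hb0 : 0 < b := by positivity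
  set Bl := {x : Fin n → ℝ | nsq x ≤ d ^ 2}
  have hm : MeasurableSet Bl := measurableSet_le (by unfold nsq; fun_prop) measurable_const
  have hint : Integrable (fun x : Fin n → ℝ => ∏ i, Real.exp (-b * x i ^ 2)) :=
    Integrable.fintype_prod fun _ => integrable_exp_neg_mul_sq hb0
  have hfin : volume Bl ≠ ∞ := by
    refine ((measure_mono (t := Metric.closedBall 0 d) fun x hx => ?_).trans_lt
      measure_closedBall_lt_top).ne
    rw [Metric.mem_closedBall, dist_zero_right, pi_norm_le_iff_of_nonneg hd.le]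
    intro i
    rw [Real.norm_eq_abs]
    refine abs_le_of_sq_le_sq ?_ hd.le
    exact (Finset.single_le_sum (f := fun i => x i ^ 2) (fun j _ => sq_nonneg _)
      (Finset.mem_univ i)).trans hx
  have h : Real.exp (-(n / 2 : ℝ)) * volume.real Bl ≤ Real.sqrt (Real.pi / b) ^ n := by
    calc Real.exp (-(n / 2 : ℝ)) * volume.real Bl = ∫ _x in Bl, Real.exp (-(n / 2 : ℝ)) := by
          rw [setIntegral_const, smul_eq_mul, mul_comm]
      _ ≤ ∫ x in Bl, ∏ i, Real.exp (-b * x i ^ 2) := by
          refine setIntegral_mono_on (integrableOn_const hfin) hint.integrableOn hm fun x hx => ?_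
          rw [← Real.exp_sum, ← Finset.mul_sum]
          refine Real.exp_le_exp.2 ?_
          have h1 : b * nsq x ≤ b * d ^ 2 := mul_le_mul_of_nonneg_left hx hb0.le
          have h2 : b * d ^ 2 = n / 2 := by rw [hb]; field_simp
          unfold nsq at h1
          linarith
      _ ≤ ∫ x : Fin n → ℝ, ∏ i, Real.exp (-b * x i ^ 2) :=
          setIntegral_le_integral hint
            (Filter.Eventually.of_forall fun x => Finset.prod_nonneg fun i _ => (Real.exp_pos _).le)
      _ = _ := by
          rw [integral_fintype_prod_volume_eq_prod (fun _ t => Real.exp (-b * t ^ 2))]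
          rw [Finset.prod_const, integral_gaussian, Finset.card_univ, Fintype.card_fin]
  have h2 : volume.real Bl ≤ (Real.exp (1 / 2) * Real.sqrt (Real.pi / b)) ^ n := by
    rw [mul_pow, ← Real.exp_nat_mul]
    rw [Real.exp_neg, inv_mul_le_iff₀ (Real.exp_pos _)] at h
    rw [mul_one_div]
    exact h
  refine h2.trans (pow_le_pow_left₀ (by positivity) ?_ n)
  have e1 : Real.pi / b = (2 * Real.pi) * (d / Real.sqrt n) ^ 2 := by
    rw [hb, div_pow, Real.sq_sqrt hn'.le]; field_simp
  rw [e1, Real.sqrt_mul (by positivity), Real.sqrt_sq (by positivity), mul_div_assoc 5]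
  rw [← mul_assoc]
  refine mul_le_mul_of_nonneg_right ?_ (by positivity)
  have h3 : Real.exp (1/2) ≤ 1.7 := by
    refine le_of_pow_le_pow_left₀ two_ne_zero (by norm_num) ?_
    rw [← Real.exp_nat_mul]
    refine le_trans (le_of_eq (by norm_num)) ((Real.exp_one_lt_d9).le.trans (by norm_num))
  have h4 : Real.sqrt (2 * Real.pi) ≤ 2.6 := Real.sqrt_le_iff.2
    ⟨by norm_num, by nlinarith [Real.pi_lt_d2]⟩
  calc Real.exp (1/2) * Real.sqrt (2 * Real.pi) ≤ 1.7 * 2.6 :=
        mul_le_mul h3 h4 (by positivity) (by norm_num)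
    _ ≤ 5 := by norm_num

end Vale.Agent.P230.Lower
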