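import Mathlib
import Vale.Agent.P230.Lower.Gauss

/-! Parameters and Euclidean bookkeeping for the covering-density lower bound. -/

namespace Vale.Agent.P230.Lower

open MeasureTheory

/-- The cap constant. -/
noncomputable def sg : ℝ := 16384

/-- Enlarged radius. -/
noncomputable def rad (n : ℕ) : ℝ := Real.sqrt n + 1 / (n:ℝ) ^ 2

/-- Enlarged threshold. -/
noncomputable def tau (n : ℕ) : ℝ := sg * n + 1

/-- Expected pool selection. -/
noncomputable def Nw (n : ℕ) : ℝ := 1 / tailP (tau n / rad n)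

/-- Depth cutoff `n^{1/4}`. -/
noncomputable def qq (n : ℕ) : ℝ := Real.sqrt (Real.sqrt n)

/-- Euclidean norm. -/
noncomputable def nrm {n : ℕ} (y : Fin n → ℝ) : ℝ := Real.sqrt (nsq y)

lemma nrm_eq_norm {n : ℕ} (y : Fin n → ℝ) :
    nrm y = ‖(WithLp.toLp 2 y : EuclideanSpace ℝ (Fin n))‖ := by
  simp [nrm, nsq, EuclideanSpace.norm_eq, sq_abs]

lemma nrm_nonneg {n : ℕ} (y : Fin n → ℝ) : 0 ≤ nrm y := Real.sqrt_nonneg _

lemma sq_nrm {n : ℕ} (y : Fin n → ℝ) : nrm y ^ 2 = nsq y := Real.sq_sqrt (nsq_nonneg y)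

lemma nrm_add_le {n : ℕ} (y z : Fin n → ℝ) : nrm (y + z) ≤ nrm y + nrm z := by
  simp only [nrm_eq_norm, WithLp.toLp_add]
  exact norm_add_le _ _

lemma nrm_neg {n : ℕ} (y : Fin n → ℝ) : nrm (-y) = nrm y := by
  simp [nrm, nsq]

lemma nrm_sub_comm {n : ℕ} (y z : Fin n → ℝ) : nrm (y - z) = nrm (z - y) := by
  rw [← nrm_neg, neg_sub]

lemma nrm_le_iff {n : ℕ} (y : Fin n → ℝ) {d : ℝ} (hd : 0 ≤ d) : nrm y ≤ d ↔ nsq y ≤ d ^ 2 := by
  rw [nrm, Real.sqrt_le_left hd]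

lemma nrm_le_of_coord {n : ℕ} (y : Fin n → ℝ) {a : ℝ} (ha : 0 ≤ a) (h : ∀ i, |y i| ≤ a) :
    nrm y ≤ a * Real.sqrt n := by
  have h1 : nsq y ≤ a ^ 2 * n := by
    calc nsq y ≤ ∑ _i : Fin n, a ^ 2 :=
          Finset.sum_le_sum fun i _ => sq_le_sq' (abs_le.1 (h i)).1 (abs_le.1 (h i)).2
      _ = a ^ 2 * n := by simp [mul_comm]
  calc nrm y ≤ Real.sqrt (a ^ 2 * n) := Real.sqrt_le_sqrt h1
    _ = a * Real.sqrt n := by rw [Real.sqrt_mul (sq_nonneg a), Real.sqrt_sq ha]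

lemma abs_coord_le_nrm {n : ℕ} (y : Fin n → ℝ) (i : Fin n) : |y i| ≤ nrm y := by
  rw [← Real.sqrt_sq_eq_abs]
  exact Real.sqrt_le_sqrt (Finset.single_le_sum (f := fun j => y j ^ 2)
    (fun j _ => sq_nonneg _) (Finset.mem_univ i))

lemma abs_dotp_le {n : ℕ} (g y : Fin n → ℝ) : |dotp g y| ≤ nrm g * nrm y := by
  refine abs_le.2 ⟨?_, Real.sum_mul_le_sqrt_mul_sqrt _ _ _⟩
  have h := Real.sum_mul_le_sqrt_mul_sqrt Finset.univ g (fun i => -(y i))
  simp only [neg_sq, mul_neg, Finset.sum_neg_distrib] at h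
  simp only [dotp, nrm, nsq]
  linarith

/-- Lattice point with integer coordinates `k` and mesh `h`. -/
def latPt {n : ℕ} (h : ℝ) (k : Fin n → ℤ) : Fin n → ℝ := fun i => h * k i

/-- Trial point. -/
noncomputable def xpt {n : ℕ} (k : Fin n → ℤ) : Fin n → ℝ := latPt (1 / (n:ℝ)) k

/-- Rounded centre. -/
noncomputable def ppt {n : ℕ} (p : Fin n → ℤ) : Fin n → ℝ := latPt (1 / (n:ℝ) ^ 3) p

/-- Position of a trial relative to a centre. -/
noncomputable def vec {n : ℕ} (k p : Fin n → ℤ) : Fin n → ℝ := xpt k - ppt p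

/-- The trials. -/
noncomputable def Xi (n : ℕ) : Finset (Fin n → ℤ) :=
  Fintype.piFinset fun _ : Fin n => Finset.Ico (-(n:ℤ)) n

/-- Possible rounded centres. -/
noncomputable def pbox (n : ℕ) : Finset (Fin n → ℤ) :=
  Fintype.piFinset fun _ : Fin n => Finset.Icc (-((n:ℤ) ^ 4)) ((n:ℤ) ^ 4)

/-- Scaled depth below the cap sphere. -/
noncomputable def dep {n : ℕ} (y : Fin n → ℝ) : ℝ := n * (1 - nrm y / rad n)

open Classical in
/-- Centres relevant to a trial. -/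
noncomputable def Sset {n : ℕ} (P : Finset (Fin n → ℤ)) (k : Fin n → ℤ) : Finset (Fin n → ℤ) :=
  P.filter fun p => nrm (vec k p) ≤ rad n

open Classical in
/-- Usable trials. -/
noncomputable def goodX {n : ℕ} (K0 : ℝ) (P : Finset (Fin n → ℤ)) : Finset (Fin n → ℤ) :=
  (Xi n).filter fun k => ((Sset P k).card : ℝ) ≤ K0 ∧ ∑ p ∈ Sset P k, dep (vec k p) ≤ K0 ∧
    ∀ p ∈ Sset P k, dep (vec k p) ≤ qq n

open Classical in
/-- Configurations to defeat. -/
noncomputable def cfgs (n : ℕ) (K0 : ℝ) : Finset (Finset (Fin n → ℤ)) :=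
  (pbox n).powerset.filter fun P => (P.card : ℝ) ≤ Real.exp (1.2 * n) ∧
    (2 * n) ^ n ≤ 2 * (goodX K0 P).card

/-- Euclidean ball of radius `√n`. -/
def ballB (n : ℕ) : Set (Fin n → ℝ) := {y | nsq y ≤ n}

/-- Its volume. -/
noncomputable def VB (n : ℕ) : ℝ := volume.real (ballB n)

lemma rad_pos {n : ℕ} (hn : 0 < n) : 0 < rad n := by unfold rad; positivity

lemma tau_pos (n : ℕ) : 0 < tau n := by unfold tau sg; positivity

lemma qq_nonneg (n : ℕ) : 0 ≤ qq n := Real.sqrt_nonneg _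

lemma qq_sq (n : ℕ) : qq n ^ 2 = Real.sqrt n := Real.sq_sqrt (Real.sqrt_nonneg _)

lemma Xi_card (n : ℕ) : (Xi n).card = (2 * n) ^ n := by
  rw [Xi, Fintype.card_piFinset, Finset.prod_const, Int.card_Ico, Finset.card_univ,
    Fintype.card_fin]
  congr 1
  omega

end Vale.Agent.P230.Lower
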