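import Mathlib
import Vale.Agent.P230.Lower.Defs

/-! Counting lattice points in balls. -/

namespace Vale.Agent.P230.Lower

open MeasureTheory Set
open scoped Pointwise

lemma measurableSet_nrm_le {n : ℕ} (z : Fin n → ℝ) (d : ℝ) :
    MeasurableSet {y : Fin n → ℝ | nrm (y - z) ≤ d} :=
  measurableSet_le (by unfold nrm nsq; fun_prop) measurable_const

lemma nrm_ball_finite {n : ℕ} (d : ℝ) : volume {y : Fin n → ℝ | nrm y ≤ d} ≠ ⊤ := by
  refine ((measure_mono (t := Metric.closedBall 0 d) fun y hy => ?_).trans_lt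
    measure_closedBall_lt_top).ne
  have hd : 0 ≤ d := (nrm_nonneg y).trans hy
  rw [Metric.mem_closedBall, dist_zero_right, pi_norm_le_iff_of_nonneg hd]
  exact fun i => (abs_coord_le_nrm y i).trans hy

open Classical in
/-- Points of a translated scaled integer lattice in a ball. -/
lemma count_le {n : ℕ} {h : ℝ} (hh : 0 < h) (s : Finset (Fin n → ℤ)) (o : Fin n → ℝ) (d : ℝ) :
    ((s.filter fun k => nrm (latPt h k + o) ≤ d).card : ℝ) * h ^ n ≤
      volume.real {y : Fin n → ℝ | nrm y ≤ d + h * Real.sqrt n} := by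
  set T := s.filter fun k => nrm (latPt h k + o) ≤ d
  set C : (Fin n → ℤ) → Set (Fin n → ℝ) := fun k =>
    Set.univ.pi fun i => Ico (h * k i + o i) (h * k i + o i + h)
  have hC : ∀ k, volume.real (C k) = h ^ n := fun k => by
    simp [C, measureReal_def, volume_pi_pi, hh.le]
  have hdis : Set.PairwiseDisjoint (T : Set (Fin n → ℤ)) C := by
    intro a _ b _ hab
    refine Set.disjoint_left.2 fun y hya hyb => hab (funext fun i => ?_)
    obtain ⟨a1, a2⟩ := hya i (mem_univ i)
    obtain ⟨b1, b2⟩ := hyb i (mem_univ i)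
    have h1 : h * ((a i : ℝ) - b i) < h * 1 := by linarith
    have h2 : h * ((b i : ℝ) - a i) < h * 1 := by linarith
    have h3 := lt_of_mul_lt_mul_left h1 hh.le
    have h4 := lt_of_mul_lt_mul_left h2 hh.le
    have h5 : a i - b i < 1 := by exact_mod_cast h3
    have h6 : b i - a i < 1 := by exact_mod_cast h4
    omega
  have hm : ∀ k ∈ T, MeasurableSet (C k) := fun k _ =>
    MeasurableSet.univ_pi fun i => measurableSet_Ico
  calc (T.card : ℝ) * h ^ n = ∑ k ∈ T, volume.real (C k) := by simp [hC]
    _ = volume.real (⋃ k ∈ T, C k) :=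
        (measureReal_biUnion_finset hdis hm fun k _ => by
          simp [C, volume_pi_pi, ENNReal.prod_ne_top]).symm
    _ ≤ _ := by
        refine measureReal_mono (fun y hy => ?_) (nrm_ball_finite _)
        obtain ⟨k, hk, hyk⟩ := mem_iUnion₂.1 hy
        have hk2 := (Finset.mem_filter.1 hk).2
        have e : y = (latPt h k + o) + (y - (latPt h k + o)) := by abel
        show nrm y ≤ _
        rw [e]
        refine (nrm_add_le _ _).trans (add_le_add hk2 (nrm_le_of_coord _ hh.le fun i => ?_))
        obtain ⟨a1, a2⟩ := hyk i (mem_univ i)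
        simp only [Pi.sub_apply, Pi.add_apply, latPt]
        exact abs_le.2 ⟨by linarith, by linarith⟩

lemma ball_scale_le {n : ℕ} {a d : ℝ} (ha : 0 < a) (hd : d ≤ a * Real.sqrt n) :
    volume.real {y : Fin n → ℝ | nrm y ≤ d} ≤ a ^ n * VB n := by
  have e : a • ballB n = {y : Fin n → ℝ | nrm y ≤ a * Real.sqrt n} := by
    ext y
    rw [mem_smul_set_iff_inv_smul_mem₀ ha.ne']
    simp only [ballB, mem_ofPred_eq]
    rw [nrm_le_iff y (by positivity), mul_pow, Real.sq_sqrt (Nat.cast_nonneg n)]
    have : nsq (a⁻¹ • y) = (a ^ 2)⁻¹ * nsq y := by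
      simp [nsq, mul_pow, Finset.mul_sum, inv_pow]
    rw [this, inv_mul_le_iff₀ (by positivity)]
  calc volume.real {y : Fin n → ℝ | nrm y ≤ d} ≤ volume.real (a • ballB n) := by
        rw [e]
        exact measureReal_mono (fun y hy => le_trans (show nrm y ≤ d from hy) hd) (nrm_ball_finite _)
    _ = a ^ n * VB n := by
        rw [VB, measureReal_def, Measure.addHaar_smul_of_nonneg _ ha.le, Module.finrank_fin_fun,
          ENNReal.toReal_mul, ENNReal.toReal_ofReal (by positivity), measureReal_def]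

lemma VB_pos {n : ℕ} (hn : 0 < n) : 0 < VB n := by
  have hsub : Metric.ball (0 : Fin n → ℝ) 1 ⊆ ballB n := by
    intro y hy
    rw [Metric.mem_ball, dist_zero_right, pi_norm_lt_iff one_pos] at hy
    show nsq y ≤ n
    calc nsq y ≤ ∑ _i : Fin n, (1:ℝ) := Finset.sum_le_sum fun i _ => by
          have h1 : |y i| ≤ 1 := (hy i).le
          nlinarith [abs_nonneg (y i), sq_abs (y i)]
      _ = n := by simp
  have hfin : volume (ballB n) ≠ ⊤ := by
    refine ne_top_of_le_ne_top (nrm_ball_finite (n := n) (Real.sqrt n)) (measure_mono ?_)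
    exact fun y hy => Real.sqrt_le_sqrt hy
  exact ENNReal.toReal_pos ((measure_mono hsub).trans_lt'
    (Metric.measure_ball_pos volume 0 one_pos)).ne' hfin

end Vale.Agent.P230.Lower
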