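import Mathlib

/-! A lower-tail inequality for weighted monomials of independent Bernoulli variables. -/

namespace Vale.Agent.P230.Lower

open Finset

variable {α : Type*} [Fintype α] [DecidableEq α]

set_option linter.unusedSectionVars false

/-- Bernoulli weight of a set. -/
noncomputable def bern (q : ℝ) (T : Finset α) : ℝ :=
  q ^ T.card * (1 - q) ^ (Fintype.card α - T.card)

lemma bern_nonneg {q : ℝ} (h0 : 0 ≤ q) (h1 : q ≤ 1) (T : Finset α) : 0 ≤ bern q T :=
  mul_nonneg (pow_nonneg h0 _) (pow_nonneg (sub_nonneg.2 h1) _)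

lemma sum_bern (q : ℝ) : ∑ T : Finset α, bern q T = 1 := by
  rw [← Finset.powerset_univ]
  unfold bern
  rw [← Finset.card_univ, Finset.sum_pow_mul_eq_add_pow]
  simp

lemma bern_lattice (q : ℝ) (A B : Finset α) : bern q A * bern q B = bern q (A ⊓ B) * bern q (A ⊔ B) := by
  have h := Finset.card_inter_add_card_union A B
  have h1 := Finset.card_le_univ A
  have h2 := Finset.card_le_univ B
  have h3 := Finset.card_le_univ (A ∪ B)
  have h4 := Finset.card_le_univ (A ∩ B)
  simp only [Finset.inf_eq_inter, Finset.sup_eq_union, bern]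
  rw [mul_mul_mul_comm, mul_mul_mul_comm (q ^ (A ∩ B).card), ← pow_add, ← pow_add, ← pow_add,
    ← pow_add]
  congr 2 <;> omega

/-- Harris: decreasing `[0,1]`-valued functions are positively correlated. -/
lemma harris {q : ℝ} (h0 : 0 ≤ q) (h1 : q ≤ 1) {F G : Finset α → ℝ} (hF : Antitone F)
    (hG : Antitone G) (hF1 : ∀ T, F T ≤ 1) (hG1 : ∀ T, G T ≤ 1) :
    (∑ T, bern q T * F T) * (∑ T, bern q T * G T) ≤ ∑ T, bern q T * (F T * G T) := by
  have h := fkg (μ := fun T => bern q T) (f := fun T => 1 - F T) (g := fun T => 1 - G T)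
    (bern_nonneg h0 h1) (fun T => sub_nonneg.2 (hF1 T)) (fun T => sub_nonneg.2 (hG1 T))
    (fun a b hab => sub_le_sub_left (hF hab) 1) (fun a b hab => sub_le_sub_left (hG hab) 1)
    (fun a b => (bern_lattice q a b).le)
  rw [sum_bern] at h
  have e1 : ∀ F : Finset α → ℝ, ∑ T, bern q T * (1 - F T) = 1 - ∑ T, bern q T * F T := by
    intro F
    simp [mul_sub, Finset.sum_sub_distrib, sum_bern]
  have e2 : ∑ T, bern q T * ((1 - F T) * (1 - G T)) =
      1 - (∑ T, bern q T * F T) - (∑ T, bern q T * G T) + ∑ T, bern q T * (F T * G T) := by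
    have : ∀ T, bern q T * ((1 - F T) * (1 - G T)) =
        bern q T - bern q T * F T - bern q T * G T + bern q T * (F T * G T) := fun T => by ring
    simp [this, Finset.sum_add_distrib, Finset.sum_sub_distrib, sum_bern]
  rw [e1 F, e1 G, e2, one_mul] at h
  nlinarith

/-- Conditioning on one element. -/
lemma bern_shift_one (q : ℝ) (a : α) (G : Finset α → ℝ) :
    ∑ T, (if a ∈ T then bern q T * G T else 0) = q * ∑ T, bern q T * G (insert a T) := by
  have hu : (univ : Finset α) = insert a (univ.erase a) := (Finset.insert_erase (mem_univ a)).symm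
  have hn : a ∉ univ.erase a := Finset.notMem_erase _ _
  rw [← Finset.powerset_univ, hu, Finset.sum_powerset_insert hn, Finset.sum_powerset_insert hn,
    ← Finset.sum_add_distrib, ← Finset.sum_add_distrib, Finset.mul_sum]
  refine Finset.sum_congr rfl fun T hT => ?_
  have haT : a ∉ T := fun h => hn (Finset.mem_powerset.1 hT h)
  have hc : T.card + 1 ≤ Fintype.card α := by
    have := Finset.card_le_univ (insert a T)
    rwa [Finset.card_insert_of_notMem haT] at this
  obtain ⟨r, hr⟩ := Nat.exists_eq_add_of_le hc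
  rw [if_neg haT, if_pos (mem_insert_self _ _), insert_idem]
  simp only [bern, Finset.card_insert_of_notMem haT, hr]
  rw [show T.card + 1 + r - (T.card + 1) = r by omega, show T.card + 1 + r - T.card = r + 1 by omega]
  ring

/-- Conditioning on a set. -/
lemma bern_shift (q : ℝ) (A : Finset α) : ∀ G : Finset α → ℝ,
    ∑ T, (if A ⊆ T then bern q T * G T else 0) = q ^ A.card * ∑ T, bern q T * G (T ∪ A) := by
  induction A using Finset.induction_on with
  | empty => intro G; simp
  | insert a A ha ih =>
    intro G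
    have e : ∀ T, (if insert a A ⊆ T then bern q T * G T else 0) =
        if A ⊆ T then bern q T * (if a ∈ T then G T else 0) else 0 := by
      intro T
      by_cases h1 : a ∈ T <;> by_cases h2 : A ⊆ T <;> simp [Finset.insert_subset_iff, h1, h2]
    rw [Finset.sum_congr rfl fun T _ => e T, ih (fun T => if a ∈ T then G T else 0),
      Finset.card_insert_of_notMem ha, pow_succ, mul_assoc]
    congr 1
    have e2 : ∀ T, bern q T * (if a ∈ T ∪ A then G (T ∪ A) else 0) =
        if a ∈ T then bern q T * G (T ∪ A) else 0 := fun T => by simp [ha]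
    rw [Finset.sum_congr rfl fun T _ => e2 T, bern_shift_one q a (fun T => G (T ∪ A))]
    refine congrArg _ (Finset.sum_congr rfl fun T _ => ?_)
    rw [Finset.insert_union, Finset.union_insert]

/-- Weighted count of the monomials that are present. -/
noncomputable def monoZ (w : Finset α → ℝ) (T : Finset α) : ℝ :=
  ∑ A, if A ⊆ T then w A else 0

/-- Mean. -/
noncomputable def monoMu (q : ℝ) (w : Finset α → ℝ) : ℝ := ∑ A, w A * q ^ A.card

/-- Correlation of intersecting pairs. -/
noncomputable def monoDelta (q : ℝ) (w : Finset α → ℝ) : ℝ :=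
  ∑ A, ∑ B, if Disjoint A B then 0 else w A * w B * q ^ (A ∪ B).card

lemma monoZ_nonneg {w : Finset α → ℝ} (hw : ∀ A, 0 ≤ w A) (T : Finset α) : 0 ≤ monoZ w T :=
  Finset.sum_nonneg fun A _ => by split_ifs <;> simp [hw A]

lemma monoZ_mono {w : Finset α → ℝ} (hw : ∀ A, 0 ≤ w A) : Monotone (monoZ w) := by
  intro S T hST
  refine Finset.sum_le_sum fun A _ => ?_
  split_ifs with h1 h2 h2
  · exact le_rfl
  · exact absurd (h1.trans hST) h2
  · exact hw A
  · exact le_rfl

lemma janson_deriv_bound {q : ℝ} (h0 : 0 ≤ q) (h1 : q ≤ 1) {w : Finset α → ℝ}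
    (hw : ∀ A, 0 ≤ w A) {t : ℝ} (ht : 0 ≤ t) :
    (monoMu q w - t * monoDelta q w) * (∑ T, bern q T * Real.exp (-(t * monoZ w T))) ≤
      ∑ T, bern q T * (monoZ w T * Real.exp (-(t * monoZ w T))) := by
  set L := ∑ T, bern q T * Real.exp (-(t * monoZ w T)) with hL
  have hL0 : 0 ≤ L := Finset.sum_nonneg fun T _ =>
    mul_nonneg (bern_nonneg h0 h1 T) (Real.exp_pos _).le
  have e : ∑ T, bern q T * (monoZ w T * Real.exp (-(t * monoZ w T))) =
      ∑ A, w A * q ^ A.card * ∑ T, bern q T * Real.exp (-(t * monoZ w (T ∪ A))) := by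
    simp_rw [mul_assoc, ← bern_shift q _ (fun T => Real.exp (-(t * monoZ w T)))]
    simp_rw [Finset.mul_sum, monoZ, Finset.sum_mul, Finset.mul_sum, mul_ite, mul_zero, ite_mul,
      zero_mul, mul_ite, mul_zero]
    rw [Finset.sum_comm]
    refine Finset.sum_congr rfl fun A _ => Finset.sum_congr rfl fun T _ => ?_
    split_ifs <;> ring
  have hA : ∀ A, (1 - t * ∑ B, (if Disjoint A B then 0 else w B * q ^ (B \ A).card)) * L ≤
      ∑ T, bern q T * Real.exp (-(t * monoZ w (T ∪ A))) := by
    intro A
    set Y : Finset α → ℝ := fun T => ∑ B, if Disjoint A B then 0 else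
      (if B \ A ⊆ T then w B else 0) with hY
    have hY0 : ∀ T, 0 ≤ Y T := fun T => Finset.sum_nonneg fun B _ => by
      split_ifs <;> simp [hw B]
    have hYm : Monotone Y := by
      intro S T hST
      refine Finset.sum_le_sum fun B _ => ?_
      by_cases hd : Disjoint A B
      · simp [hd]
      · simp only [hd, if_false]
        by_cases h2 : B \ A ⊆ S
        · rw [if_pos h2, if_pos (h2.trans hST)]
        · rw [if_neg h2]; split_ifs <;> simp [hw B]
    have hZ : ∀ T, monoZ w (T ∪ A) ≤ monoZ w T + Y T := by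
      intro T
      rw [monoZ, monoZ, hY, ← Finset.sum_add_distrib]
      refine Finset.sum_le_sum fun B _ => ?_
      by_cases hB : B ⊆ T ∪ A
      · rw [if_pos hB]
        by_cases hd : Disjoint A B
        · have : B ⊆ T := fun b hb => by
            rcases Finset.mem_union.1 (hB hb) with h | h
            · exact h
            · exact absurd hb (Finset.disjoint_left.1 hd h)
          simp [this, hd]
        · have : B \ A ⊆ T := fun b hb => by
            rw [Finset.mem_sdiff] at hb
            exact (Finset.mem_union.1 (hB hb.1)).resolve_right hb.2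
          simp only [hd, if_false, this, if_true]
          split_ifs <;> linarith [hw B]
      · rw [if_neg hB]
        exact add_nonneg (by split_ifs <;> simp [hw B]) (by split_ifs <;> simp [hw B])
    have hh := harris h0 h1 (F := fun T => Real.exp (-(t * monoZ w T)))
      (G := fun T => Real.exp (-(t * Y T)))
      (fun S T hST => Real.exp_le_exp.2 (neg_le_neg (mul_le_mul_of_nonneg_left (monoZ_mono hw hST) ht)))
      (fun S T hST => Real.exp_le_exp.2 (neg_le_neg (mul_le_mul_of_nonneg_left (hYm hST) ht)))
      (fun T => Real.exp_le_one_iff.2 (by have := mul_nonneg ht (monoZ_nonneg hw T); linarith))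
      (fun T => Real.exp_le_one_iff.2 (by have := mul_nonneg ht (hY0 T); linarith))
    have hG : 1 - t * ∑ B, (if Disjoint A B then 0 else w B * q ^ (B \ A).card) ≤
        ∑ T, bern q T * Real.exp (-(t * Y T)) := by
      have e1 : ∑ T, bern q T * Y T = ∑ B, (if Disjoint A B then 0 else w B * q ^ (B \ A).card) := by
        simp only [hY, Finset.mul_sum]
        rw [Finset.sum_comm]
        refine Finset.sum_congr rfl fun B _ => ?_
        by_cases hd : Disjoint A B
        · simp [hd]
        · simp only [hd, if_false, mul_ite, mul_zero]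
          rw [bern_shift q (B \ A) (fun _ => w B), ← Finset.sum_mul, sum_bern]
          ring
      calc 1 - t * ∑ B, (if Disjoint A B then 0 else w B * q ^ (B \ A).card)
          = ∑ T, bern q T * (1 - t * Y T) := by
            simp only [mul_sub, mul_one, Finset.sum_sub_distrib, sum_bern, ← e1, Finset.mul_sum]
            congr 1
            exact Finset.sum_congr rfl fun T _ => by ring
        _ ≤ _ := Finset.sum_le_sum fun T _ =>
            mul_le_mul_of_nonneg_left (by linarith [Real.add_one_le_exp (-(t * Y T))])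
              (bern_nonneg h0 h1 T)
    calc (1 - t * ∑ B, (if Disjoint A B then 0 else w B * q ^ (B \ A).card)) * L
        ≤ (∑ T, bern q T * Real.exp (-(t * Y T))) * L := mul_le_mul_of_nonneg_right hG hL0
      _ ≤ ∑ T, bern q T * (Real.exp (-(t * monoZ w T)) * Real.exp (-(t * Y T))) := by
          rw [mul_comm]; exact hh
      _ ≤ _ := Finset.sum_le_sum fun T _ => mul_le_mul_of_nonneg_left (by
            rw [← Real.exp_add]
            refine Real.exp_le_exp.2 ?_
            have := mul_le_mul_of_nonneg_left (hZ T) ht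
            linarith) (bern_nonneg h0 h1 T)
  rw [e]
  refine le_trans (le_of_eq ?_) (Finset.sum_le_sum fun A _ =>
    mul_le_mul_of_nonneg_left (hA A) (mul_nonneg (hw A) (pow_nonneg h0 _)))
  rw [monoMu, monoDelta, Finset.mul_sum (a := t), sub_mul, Finset.sum_mul, Finset.sum_mul,
    ← Finset.sum_sub_distrib]
  refine Finset.sum_congr rfl fun A _ => ?_
  have e3 : ∑ B, (if Disjoint A B then 0 else w A * w B * q ^ (A ∪ B).card) =
      (w A * q ^ A.card) * ∑ B, (if Disjoint A B then 0 else w B * q ^ (B \ A).card) := by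
    rw [Finset.mul_sum]
    refine Finset.sum_congr rfl fun B _ => ?_
    by_cases hd : Disjoint A B
    · simp [hd]
    · rw [if_neg hd, if_neg hd, Finset.union_comm, ← Finset.card_sdiff_add_card, pow_add]
      ring
  rw [e3]
  ring

/-- The probability that no monomial is present. -/
theorem janson {q : ℝ} (h0 : 0 ≤ q) (h1 : q ≤ 1) {w : Finset α → ℝ} (hw : ∀ A, 0 ≤ w A)
    {m D : ℝ} (hm : m ≤ monoMu q w) (hm0 : 0 ≤ m) (hD : monoDelta q w ≤ D) (hD0 : 0 < D) :
    ∑ T, (if monoZ w T = 0 then bern q T else 0) ≤ Real.exp (-(m ^ 2 / (2 * D))) := by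
  rcases Finset.univ.eq_empty_or_nonempty (α := Finset α) with he | _
  · simp [he] at *
    positivity
  set L : ℝ → ℝ := fun t => ∑ T, bern q T * Real.exp (-(t * monoZ w T)) with hL
  have hLpos : ∀ t, 0 < L t := by
    intro t
    obtain ⟨T, -, hT⟩ := Finset.exists_ne_zero_of_sum_ne_zero
      (show ∑ T : Finset α, bern q T ≠ 0 by rw [sum_bern]; exact one_ne_zero)
    exact Finset.sum_pos' (fun S _ => mul_nonneg (bern_nonneg h0 h1 S) (Real.exp_pos _).le)
      ⟨T, Finset.mem_univ T, mul_pos ((bern_nonneg h0 h1 T).lt_of_ne hT.symm) (Real.exp_pos _)⟩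
  have hd : ∀ t, HasDerivAt L (∑ T, bern q T * (-monoZ w T * Real.exp (-(t * monoZ w T)))) t := by
    intro t
    refine HasDerivAt.fun_sum fun T _ => ?_
    have := ((hasDerivAt_id t).mul_const (monoZ w T)).neg.exp.const_mul (bern q T)
    simpa [mul_comm] using this
  set φ : ℝ → ℝ := fun t => Real.log (L t) + m * t - D * t ^ 2 / 2 with hφ
  have hdφ : ∀ t, HasDerivAt φ ((∑ T, bern q T * (-monoZ w T * Real.exp (-(t * monoZ w T)))) / L t
      + m - D * t) t := by
    intro t
    have h2 := (((hd t).log (hLpos t).ne').add ((hasDerivAt_id t).const_mul m)).sub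
      (((hasDerivAt_pow 2 t).const_mul D).div_const 2)
    refine h2.congr_deriv ?_
    simp only [Nat.cast_ofNat, mul_one]
    ring
  have hanti : AntitoneOn φ (Set.Ici 0) := by
    refine antitoneOn_of_deriv_nonpos (convex_Ici 0)
      (fun t _ => (hdφ t).continuousAt.continuousWithinAt)
      (fun t _ => (hdφ t).differentiableAt.differentiableWithinAt) fun t ht => ?_
    rw [interior_Ici] at ht
    have ht0 : 0 ≤ t := le_of_lt ht
    rw [(hdφ t).deriv]
    have e : ∑ T, bern q T * (-monoZ w T * Real.exp (-(t * monoZ w T))) =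
        -∑ T, bern q T * (monoZ w T * Real.exp (-(t * monoZ w T))) := by
      rw [← Finset.sum_neg_distrib]; exact Finset.sum_congr rfl fun T _ => by ring
    have h2 := janson_deriv_bound h0 h1 hw ht0
    have h3 : m - t * D ≤ monoMu q w - t * monoDelta q w := by
      have := mul_le_mul_of_nonneg_left hD ht0; linarith
    have h4 : (m - t * D) ≤ (∑ T, bern q T * (monoZ w T * Real.exp (-(t * monoZ w T)))) / L t := by
      rw [le_div_iff₀ (hLpos t)]
      exact (mul_le_mul_of_nonneg_right h3 (hLpos t).le).trans h2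
    rw [e, neg_div]
    linarith
  have hstar : 0 ≤ m / D := by positivity
  have h5 := hanti Set.self_mem_Ici (Set.mem_Ici.2 hstar) hstar
  have hL0 : L 0 = 1 := by simp [hL, sum_bern]
  simp only [hφ, hL0, Real.log_one] at h5
  have h6 : Real.log (L (m / D)) ≤ -(m ^ 2 / (2 * D)) := by
    have e1 : m * (m / D) - D * (m / D) ^ 2 / 2 = m ^ 2 / (2 * D) := by field_simp; ring
    linarith
  rw [Real.log_le_iff_le_exp (hLpos _)] at h6
  refine le_trans (Finset.sum_le_sum fun T _ => ?_) h6
  split_ifs with h
  · rw [h, mul_zero, neg_zero, Real.exp_zero, mul_one]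
  · exact mul_nonneg (bern_nonneg h0 h1 T) (Real.exp_pos _).le

end Vale.Agent.P230.Lower
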