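import Mathlib

/-! The combinatorial sum over two injective labellings with a common label. -/

namespace Vale.Agent.P230.Lower

open Finset MeasureTheory

/-- Bound for a pair: all labellings minus the label-disjoint ones. -/
noncomputable def pairTerm {k k' : ℕ} (u : Fin k → ℝ) (u' : Fin k' → ℝ)
    (s : Fin k → Fin k' → ℝ) : ℝ :=
  (∏ a, u a) * ((∏ b, (u' b + ∑ a, s a b / u a)) - ∏ b, u' b)

lemma prod_sub_nonneg {ι : Type*} (S : Finset ι) (x y : ι → ℝ) (hx : ∀ i ∈ S, 0 ≤ x i)
    (hy : ∀ i ∈ S, 0 ≤ y i) : 0 ≤ (∏ i ∈ S, (x i + y i)) - ∏ i ∈ S, x i :=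
  sub_nonneg.2 (Finset.prod_le_prod hx fun i hi => le_add_of_nonneg_right (hy i hi))

/-- Monotonicity of the difference in the fresh part. -/
lemma prod_sub_mono {ι : Type*} (S : Finset ι) (x x' y : ι → ℝ) (hx : ∀ i ∈ S, 0 ≤ x i)
    (hxx : ∀ i ∈ S, x i ≤ x' i) (hy : ∀ i ∈ S, 0 ≤ y i) :
    (∏ i ∈ S, (x i + y i)) - ∏ i ∈ S, x i ≤ (∏ i ∈ S, (x' i + y i)) - ∏ i ∈ S, x' i := by
  classical
  induction S using Finset.induction_on with
  | empty => simp
  | insert a S ha ih =>
    obtain ⟨hxa, hx'⟩ := (Finset.forall_mem_insert _ _ _).1 hx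
    obtain ⟨hxxa, hxx'⟩ := (Finset.forall_mem_insert _ _ _).1 hxx
    obtain ⟨hya, hy'⟩ := (Finset.forall_mem_insert _ _ _).1 hy
    simp only [Finset.prod_insert ha]
    have h := ih hx' hxx' hy'
    have h1 : ∏ i ∈ S, x i ≤ ∏ i ∈ S, x' i := Finset.prod_le_prod hx' hxx'
    have h0 := prod_sub_nonneg S x y hx' hy'
    have e : ∀ (t : ℝ) (A B : ℝ), (t + y a) * A - t * B = (t + y a) * (A - B) + y a * B := by
      intros; ring
    rw [e, e]
    exact add_le_add (mul_le_mul (by linarith) h h0 (by linarith))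
      (mul_le_mul_of_nonneg_left h1 hya)

set_option linter.unusedSectionVars false

variable {Ω : Type*} [MeasurableSpace Ω] {Q : ℕ}

/-- The event that the labelled pool points fall into the prescribed regions. -/
def hitSet {k : ℕ} (I : Fin k → Set Ω) (f : Fin k → Fin Q) : Set (Fin Q → Ω) :=
  {G | ∀ a, G (f a) ∈ I a}

lemma hitSet_eq_pi {k : ℕ} (I : Fin k → Set Ω) (f : Fin k → Fin Q) :
    hitSet I f = Set.pi Set.univ fun q => ⋂ a, ⋂ (_ : f a = q), I a := by
  ext G
  simp only [hitSet, Set.mem_ofPred_eq, Set.mem_pi, Set.mem_univ, true_implies, Set.mem_iInter]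
  exact ⟨fun h q a e => e ▸ h a, fun h a => h _ a rfl⟩

lemma measurableSet_hitSet {k : ℕ} {I : Fin k → Set Ω} (hI : ∀ a, MeasurableSet (I a))
    (f : Fin k → Fin Q) : MeasurableSet (hitSet I f) := by
  rw [hitSet_eq_pi]
  exact MeasurableSet.univ_pi fun q => MeasurableSet.iInter fun a => MeasurableSet.iInter fun _ => hI a

variable (ν : Measure Ω) [IsProbabilityMeasure ν]

lemma measure_hitSet {k : ℕ} (I : Fin k → Set Ω) {f : Fin k → Fin Q} (hf : Function.Injective f) :
    (Measure.pi fun _ : Fin Q => ν).real (hitSet I f) = ∏ a, ν.real (I a) := by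
  classical
  rw [hitSet_eq_pi, measureReal_def, Measure.pi_pi, ENNReal.toReal_prod]
  rw [← Finset.prod_subset (Finset.subset_univ (univ.image f)) ?_,
    Finset.prod_image fun a _ b _ h => hf h]
  · refine Finset.prod_congr rfl fun a _ => ?_
    rw [measureReal_def]
    congr 2
    ext ω
    simp only [Set.mem_iInter]
    exact ⟨fun h => h a rfl, fun h b hb => (hf hb) ▸ h⟩
  · intro q _ hq
    have : (⋂ a, ⋂ (_ : f a = q), I a) = Set.univ := by
      ext ω
      simp only [Set.mem_iInter, Set.mem_univ, iff_true]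
      intro a ha
      exact absurd (Finset.mem_image.2 ⟨a, mem_univ a, ha⟩) hq
    rw [this, measure_univ, ENNReal.toReal_one]

/-- The pair bound for fixed labellings. -/
lemma pair_fixed_le {k k' : ℕ} (I : Fin k → Set Ω) (I' : Fin k' → Set Ω) {N : ℝ} (hN : 0 < N)
    (hQ : 0 < Q) {u : Fin k → ℝ} {u' : Fin k' → ℝ} {s : Fin k → Fin k' → ℝ}
    (hu : ∀ a, N * ν.real (I a) ≤ u a) (hu' : ∀ b, N * ν.real (I' b) ≤ u' b)
    (hu0 : ∀ a, 0 < u a) (hs : ∀ a b, N * ν.real (I a ∩ I' b) ≤ s a b)
    {f : Fin k → Fin Q} (hf : Function.Injective f) {f' : Fin k' → Fin Q}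
    (hf' : Function.Injective f') :
    (N / Q) ^ (univ.image f ∪ univ.image f').card *
        (Measure.pi fun _ : Fin Q => ν).real (hitSet I f ∩ hitSet I' f') ≤
      (∏ a, u a) * (1 / (Q:ℝ)) ^ k *
        ∏ b, (if f' b ∈ univ.image f then ∑ a, (if f a = f' b then s a b / u a else 0)
          else u' b / Q) := by
  classical
  set A := univ.image f
  set B := univ.image f'
  set R : Fin Q → Set Ω := fun q =>
    (⋂ a, ⋂ (_ : f a = q), I a) ∩ (⋂ b, ⋂ (_ : f' b = q), I' b)
  have hQR : (0:ℝ) < Q := by exact_mod_cast hQ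
  have e1 : (Measure.pi fun _ : Fin Q => ν).real (hitSet I f ∩ hitSet I' f') =
      ∏ q ∈ A ∪ B, ν.real (R q) := by
    rw [hitSet_eq_pi, hitSet_eq_pi, ← Set.pi_inter_distrib, measureReal_def, Measure.pi_pi,
      ENNReal.toReal_prod, ← Finset.prod_subset (Finset.subset_univ (A ∪ B)) ?_]
    · rfl
    intro q _ hq
    rw [Finset.mem_union, not_or] at hq
    have : R q = Set.univ := by
      ext ω
      simp only [R, Set.mem_inter_iff, Set.mem_iInter, Set.mem_univ, iff_true]
      exact ⟨fun a ha => absurd (Finset.mem_image.2 ⟨a, mem_univ a, ha⟩) hq.1,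
        fun b hb => absurd (Finset.mem_image.2 ⟨b, mem_univ b, hb⟩) hq.2⟩
    show (ν (R q)).toReal = 1
    rw [this, measure_univ, ENNReal.toReal_one]
  set φ : Fin k' → ℝ := fun b => if f' b ∈ A then ∑ a, (if f a = f' b then s a b / u a else 0)
          else u' b / Q
  set F : Fin Q → ℝ := fun q => (if q ∈ A then ∑ a, (if f a = q then u a * (1/(Q:ℝ)) else 0) else 1) *
    (if q ∈ B then ∑ b, (if f' b = q then φ b else 0) else 1)
  have sumf : ∀ (g : Fin k → ℝ) a, ∑ a', (if f a' = f a then g a' else 0) = g a := by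
    intro g a
    rw [Finset.sum_eq_single a (fun a' _ h => if_neg fun e => h (hf e))
      (fun h => absurd (mem_univ a) h), if_pos rfl]
  have sumf' : ∀ (g : Fin k' → ℝ) b, ∑ b', (if f' b' = f' b then g b' else 0) = g b := by
    intro g b
    rw [Finset.sum_eq_single b (fun b' _ h => if_neg fun e => h (hf' e))
      (fun h => absurd (mem_univ b) h), if_pos rfl]
  have hkey : ∀ q ∈ A ∪ B, N / Q * ν.real (R q) ≤ F q := by
    intro q hq
    by_cases hqA : q ∈ A
    · obtain ⟨a, -, rfl⟩ := Finset.mem_image.1 hqA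
      simp only [F, if_pos hqA, sumf]
      by_cases hqB : f a ∈ B
      · obtain ⟨b, -, hb⟩ := Finset.mem_image.1 hqB
        rw [if_pos hqB, ← hb, sumf']
        simp only [φ, hb, if_pos hqA, sumf (fun a' => s a' b / u a') a]
        have hsub : R (f a) ⊆ I a ∩ I' b := by
          intro ω hω
          simp only [R, Set.mem_inter_iff, Set.mem_iInter] at hω
          exact ⟨hω.1 a rfl, hω.2 b hb⟩
        calc N / Q * ν.real (R (f a)) ≤ N / Q * ν.real (I a ∩ I' b) :=
              mul_le_mul_of_nonneg_left (measureReal_mono hsub) (by positivity)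
          _ = (N * ν.real (I a ∩ I' b)) * (1 / (Q:ℝ)) := by ring
          _ ≤ s a b * (1 / (Q:ℝ)) := mul_le_mul_of_nonneg_right (hs a b) (by positivity)
          _ = _ := by have := (hu0 a).ne'; field_simp
      · rw [if_neg hqB, mul_one]
        have hsub : R (f a) ⊆ I a := by
          intro ω hω
          simp only [R, Set.mem_inter_iff, Set.mem_iInter] at hω
          exact hω.1 a rfl
        calc N / Q * ν.real (R (f a)) ≤ N / Q * ν.real (I a) :=
              mul_le_mul_of_nonneg_left (measureReal_mono hsub) (by positivity)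
          _ = (N * ν.real (I a)) * (1 / (Q:ℝ)) := by ring
          _ ≤ _ := mul_le_mul_of_nonneg_right (hu a) (by positivity)
    · have hqB : q ∈ B := (Finset.mem_union.1 hq).resolve_left hqA
      obtain ⟨b, -, rfl⟩ := Finset.mem_image.1 hqB
      simp only [F, if_neg hqA, one_mul, if_pos hqB, sumf', φ]
      have hsub : R (f' b) ⊆ I' b := by
        intro ω hω
        simp only [R, Set.mem_inter_iff, Set.mem_iInter] at hω
        exact hω.2 b rfl
      calc N / Q * ν.real (R (f' b)) ≤ N / Q * ν.real (I' b) :=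
            mul_le_mul_of_nonneg_left (measureReal_mono hsub) (by positivity)
        _ = (N * ν.real (I' b)) / (Q:ℝ) := by ring
        _ ≤ _ := div_le_div_of_nonneg_right (hu' b) hQR.le
  rw [e1, ← Finset.prod_const, ← Finset.prod_mul_distrib]
  refine (Finset.prod_le_prod (fun q _ => by positivity) hkey).trans (le_of_eq ?_)
  simp only [F]
  rw [Finset.prod_mul_distrib, Finset.prod_ite_mem, Finset.prod_ite_mem,
    Finset.inter_eq_right.2 Finset.subset_union_left, Finset.inter_eq_right.2 Finset.subset_union_right,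
    Finset.prod_image (fun a _ b _ h => hf h), Finset.prod_image (fun a _ b _ h => hf' h)]
  simp only [sumf, sumf']
  rw [Finset.prod_mul_distrib, Finset.prod_const, Finset.card_univ, Fintype.card_fin]

/-- Summed over intersecting labellings. -/
theorem pair_sum_le {k k' : ℕ} (I : Fin k → Set Ω) (I' : Fin k' → Set Ω) {N : ℝ} (hN : 0 < N)
    (hQ : 0 < Q) {u : Fin k → ℝ} {u' : Fin k' → ℝ} {s : Fin k → Fin k' → ℝ}
    (hu : ∀ a, N * ν.real (I a) ≤ u a) (hu' : ∀ b, N * ν.real (I' b) ≤ u' b)
    (hu0 : ∀ a, 0 < u a) (hs : ∀ a b, N * ν.real (I a ∩ I' b) ≤ s a b) :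
    ∑ f : Fin k → Fin Q, ∑ f' : Fin k' → Fin Q,
      (if Function.Injective f ∧ Function.Injective f' ∧ ¬ Disjoint (univ.image f) (univ.image f') then
        (N / Q) ^ (univ.image f ∪ univ.image f').card *
          (Measure.pi fun _ : Fin Q => ν).real (hitSet I f ∩ hitSet I' f') else 0) ≤
      pairTerm u u' s := by
  classical
  have hQR : (0:ℝ) < Q := by exact_mod_cast hQ
  have hu'0 : ∀ b, 0 ≤ u' b := fun b => le_trans (mul_nonneg hN.le measureReal_nonneg) (hu' b)
  have hs0 : ∀ a b, 0 ≤ s a b := fun a b => le_trans (mul_nonneg hN.le measureReal_nonneg) (hs a b)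
  have hPT : 0 ≤ pairTerm u u' s :=
    mul_nonneg (Finset.prod_nonneg fun a _ => (hu0 a).le) (prod_sub_nonneg univ u' _
      (fun b _ => hu'0 b) (fun b _ => Finset.sum_nonneg fun a _ => div_nonneg (hs0 a b) (hu0 a).le))
  have hone : ∀ f : Fin k → Fin Q, (∑ f' : Fin k' → Fin Q,
      (if Function.Injective f ∧ Function.Injective f' ∧ ¬ Disjoint (univ.image f) (univ.image f') then
        (N / Q) ^ (univ.image f ∪ univ.image f').card *
          (Measure.pi fun _ : Fin Q => ν).real (hitSet I f ∩ hitSet I' f') else 0)) ≤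
      (1 / (Q:ℝ)) ^ k * pairTerm u u' s := by
    intro f
    by_cases hf : Function.Injective f
    swap
    · simp only [hf, false_and, if_false, Finset.sum_const_zero]
      positivity
    set A := univ.image f
    set ψ : Fin k' → Fin Q → ℝ := fun b q =>
      if q ∈ A then ∑ a, (if f a = q then s a b / u a else 0) else u' b / Q with hψ
    have hψ0 : ∀ b q, 0 ≤ ψ b q := by
      intro b q
      simp only [hψ]
      split_ifs
      · exact Finset.sum_nonneg fun a _ => by
          split_ifs
          · exact div_nonneg (hs0 a b) (hu0 a).le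
          · exact le_rfl
      · exact div_nonneg (hu'0 b) hQR.le
    set C := (∏ a, u a) * (1 / (Q:ℝ)) ^ k
    have hC : 0 ≤ C := mul_nonneg (Finset.prod_nonneg fun a _ => (hu0 a).le) (by positivity)
    calc _ ≤ ∑ f' : Fin k' → Fin Q, (if ∀ b, f' b ∉ A then 0 else C * ∏ b, ψ b (f' b)) := by
          refine Finset.sum_le_sum fun f' _ => ?_
          split_ifs with h1 h2
          · refine absurd ?_ h1.2.2
            refine Finset.disjoint_left.2 fun q hq hq' => ?_
            obtain ⟨b, -, rfl⟩ := Finset.mem_image.1 hq'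
            exact h2 b hq
          · exact pair_fixed_le ν I I' hN hQ hu hu' hu0 hs hf h1.2.1
          · exact le_rfl
          · exact mul_nonneg hC (Finset.prod_nonneg fun b _ => hψ0 b _)
      _ = C * ((∏ b, ∑ q, ψ b q) - ∏ b, ∑ q ∈ univ \ A, ψ b q) := by
          rw [mul_sub, Fintype.prod_sum, Finset.prod_univ_sum (fun _ => univ \ A) ψ, Finset.mul_sum,
            Finset.mul_sum]
          have e : (Fintype.piFinset fun _ : Fin k' => univ \ A) =
              (univ : Finset (Fin k' → Fin Q)).filter fun f' => ∀ b, f' b ∉ A := by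
            ext f'; simp [Fintype.mem_piFinset]
          rw [e, Finset.sum_filter, ← Finset.sum_sub_distrib]
          refine Finset.sum_congr rfl fun f' _ => ?_
          split_ifs <;> simp
      _ ≤ C * ((∏ b, (u' b + ∑ a, s a b / u a)) - ∏ b, u' b) := by
          refine mul_le_mul_of_nonneg_left ?_ hC
          have e : ∀ b, ∑ q, ψ b q = (∑ q ∈ univ \ A, ψ b q) + ∑ a, s a b / u a := by
            intro b
            rw [← Finset.sum_sdiff (Finset.subset_univ A)]
            congr 1
            rw [Finset.sum_image fun a _ a' _ h => hf h]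
            refine Finset.sum_congr rfl fun a _ => ?_
            simp only [hψ]
            rw [Finset.sum_eq_single a (fun a' _ h => if_neg fun e => h (hf e))
              (fun h => absurd (mem_univ a) h), if_pos rfl]
            exact if_pos (Finset.mem_image_of_mem f (mem_univ a))
          simp_rw [e]
          refine prod_sub_mono univ _ _ _ (fun b _ => Finset.sum_nonneg fun q _ => hψ0 b q)
            (fun b _ => ?_) (fun b _ => Finset.sum_nonneg fun a _ => div_nonneg (hs0 a b) (hu0 a).le)
          calc ∑ q ∈ univ \ A, ψ b q = ∑ _q ∈ univ \ A, u' b / Q :=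
                Finset.sum_congr rfl fun q hq => by
                  simp only [hψ, if_neg (Finset.mem_sdiff.1 hq).2]
            _ ≤ ∑ _q : Fin Q, u' b / Q :=
                Finset.sum_le_sum_of_subset_of_nonneg (Finset.subset_univ _)
                  (fun _ _ _ => div_nonneg (hu'0 b) hQR.le)
            _ = u' b := by simp; field_simp
      _ = _ := by simp only [C, pairTerm]; ring
  refine (Finset.sum_le_sum fun f _ => hone f).trans (le_of_eq ?_)
  rw [Finset.sum_const, nsmul_eq_mul, Finset.card_univ, Fintype.card_fun, Fintype.card_fin,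
    Fintype.card_fin, ← mul_assoc, Nat.cast_pow, ← mul_pow, mul_one_div_cancel hQR.ne', one_pow, one_mul]

end Vale.Agent.P230.Lower
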