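import Mathlib
import Vale.Agent.P230.Lower.Janson
import Vale.Agent.P230.Lower.PairSum

/-! A large random pool almost surely supports the lower-tail bound. -/

namespace Vale.Agent.P230.Lower

open Finset MeasureTheory Filter Topology

set_option linter.unusedSectionVars false

variable {Ω : Type*} [MeasurableSpace Ω]

/-- Weighted number of events that occur. -/
noncomputable def evSum {J X : Type*} (s : Finset J) (c : J → ℝ) (E : J → Set X) (x : X) : ℝ :=
  ∑ i ∈ s, (E i).indicator (fun _ => c i) x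

lemma integrable_evSum {J X : Type*} [MeasurableSpace X] (μ : Measure X) [IsFiniteMeasure μ]
    (s : Finset J) (c : J → ℝ) (E : J → Set X) (hE : ∀ i ∈ s, MeasurableSet (E i)) :
    Integrable (evSum s c E) μ :=
  integrable_finsetSum _ fun i hi => (integrable_const _).indicator (hE i hi)

lemma integral_evSum {J X : Type*} [MeasurableSpace X] (μ : Measure X) [IsFiniteMeasure μ]
    (s : Finset J) (c : J → ℝ) (E : J → Set X) (hE : ∀ i ∈ s, MeasurableSet (E i)) :
    ∫ x, evSum s c E x ∂μ = ∑ i ∈ s, c i * μ.real (E i) := by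
  unfold evSum
  rw [integral_finsetSum _ fun i hi => (integrable_const _).indicator (hE i hi)]
  refine Finset.sum_congr rfl fun i hi => ?_
  rw [integral_indicator_const _ (hE i hi), smul_eq_mul, mul_comm]

/-- Chebyshev for sums of product events of a pool. -/
theorem pool_chebyshev {Q : ℕ} {ν : Measure Ω} [IsProbabilityMeasure ν] {J : Type*}
    (s : Finset J) (c : J → ℝ) (S : J → Finset (Fin Q)) (R : J → Fin Q → Set Ω)
    (hc : ∀ i ∈ s, 0 ≤ c i) (hR : ∀ i ∈ s, ∀ q, MeasurableSet (R i q))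
    (hS : ∀ i ∈ s, ∀ q ∉ S i, R i q = Set.univ) {B : ℝ}
    (hB : ∀ q, ∑ i ∈ s, (if q ∈ S i then c i else 0) ≤ B) {t : ℝ} (ht : 0 < t) :
    (Measure.pi fun _ : Fin Q => ν).real {G | t ≤ |evSum s c (fun i => Set.univ.pi (R i)) G -
      ∫ H, evSum s c (fun i => Set.univ.pi (R i)) H ∂(Measure.pi fun _ : Fin Q => ν)|} ≤
      Q * B ^ 2 / t ^ 2 := by
  classical
  set μ := Measure.pi fun _ : Fin Q => ν with hμ
  set E : J → Set (Fin Q → Ω) := fun i => Set.univ.pi (R i) with hEdef
  have hE : ∀ i ∈ s, MeasurableSet (E i) := fun i hi => MeasurableSet.univ_pi (hR i hi)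
  set H := evSum s c E with hH
  set m := ∫ x, H x ∂μ with hm
  have hsq : ∀ x, H x ^ 2 = evSum (s ×ˢ s) (fun p => c p.1 * c p.2) (fun p => E p.1 ∩ E p.2) x := by
    intro x
    simp only [hH, evSum, sq, Finset.sum_mul_sum, Finset.sum_product]
    refine Finset.sum_congr rfl fun i _ => Finset.sum_congr rfl fun j _ => ?_
    by_cases h1 : x ∈ E i <;> by_cases h2 : x ∈ E j <;> simp [h1, h2]
  have hE2 : ∀ p ∈ s ×ˢ s, MeasurableSet (E p.1 ∩ E p.2) := fun p hp =>
    (hE _ (Finset.mem_product.1 hp).1).inter (hE _ (Finset.mem_product.1 hp).2)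
  have hi1 : Integrable H μ := integrable_evSum μ s c E hE
  have hi2 : Integrable (fun x => H x ^ 2) μ := by
    simp_rw [hsq]; exact integrable_evSum μ _ _ _ hE2
  have hind : ∀ i ∈ s, ∀ j ∈ s, Disjoint (S i) (S j) → μ.real (E i ∩ E j) = μ.real (E i) * μ.real (E j) := by
    intro i hi j hj hd
    simp only [hEdef, hμ, ← Set.pi_inter_distrib, measureReal_def, Measure.pi_pi, ENNReal.toReal_prod,
      ← Finset.prod_mul_distrib]
    refine Finset.prod_congr rfl fun q _ => ?_
    by_cases hq : q ∈ S i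
    · rw [hS j hj q (Finset.disjoint_left.1 hd hq)]
      simp
    · rw [hS i hi q hq]
      simp
  have hvar : ∫ x, H x ^ 2 ∂μ - m ^ 2 ≤ Q * B ^ 2 := by
    have e1 : ∫ x, H x ^ 2 ∂μ = ∑ i ∈ s, ∑ j ∈ s, c i * c j * μ.real (E i ∩ E j) := by
      simp_rw [hsq]
      rw [integral_evSum μ _ _ _ hE2, Finset.sum_product]
    have e2 : m ^ 2 = ∑ i ∈ s, ∑ j ∈ s, c i * c j * (μ.real (E i) * μ.real (E j)) := by
      rw [hm, hH, integral_evSum μ s c E hE, sq, Finset.sum_mul_sum]
      exact Finset.sum_congr rfl fun i _ => Finset.sum_congr rfl fun j _ => by ring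
    rw [e1, e2, ← Finset.sum_sub_distrib]
    simp_rw [← Finset.sum_sub_distrib]
    calc ∑ i ∈ s, ∑ j ∈ s, (c i * c j * μ.real (E i ∩ E j) - c i * c j * (μ.real (E i) * μ.real (E j)))
        ≤ ∑ i ∈ s, ∑ j ∈ s, ∑ q, (if q ∈ S i then c i else 0) * (if q ∈ S j then c j else 0) := by
          refine Finset.sum_le_sum fun i hi => Finset.sum_le_sum fun j hj => ?_
          have hnn : ∀ q, 0 ≤ (if q ∈ S i then c i else 0) * (if q ∈ S j then c j else 0) := fun q =>
            mul_nonneg (by split_ifs <;> simp [hc i hi]) (by split_ifs <;> simp [hc j hj])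
          by_cases hd : Disjoint (S i) (S j)
          · rw [hind i hi j hj hd, sub_self]
            exact Finset.sum_nonneg fun q _ => hnn q
          · obtain ⟨q, hq1, hq2⟩ := Finset.not_disjoint_iff.1 hd
            refine le_trans ?_ (Finset.single_le_sum (fun q _ => hnn q) (Finset.mem_univ q))
            rw [if_pos hq1, if_pos hq2]
            have h1 : μ.real (E i ∩ E j) ≤ 1 := measureReal_le_one
            have h2 : 0 ≤ μ.real (E i) * μ.real (E j) := mul_nonneg measureReal_nonneg measureReal_nonneg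
            nlinarith [mul_nonneg (hc i hi) (hc j hj)]
      _ = ∑ q, (∑ i ∈ s, if q ∈ S i then c i else 0) ^ 2 := by
          simp_rw [sq, Finset.sum_mul_sum]
          rw [Finset.sum_comm (s := (univ : Finset (Fin Q)))]
          refine Finset.sum_congr rfl fun i _ => ?_
          rw [Finset.sum_comm]
      _ ≤ ∑ _q : Fin Q, B ^ 2 := Finset.sum_le_sum fun q _ => pow_le_pow_left₀
            (Finset.sum_nonneg fun i hi => by split_ifs <;> simp [hc i hi]) (hB q) 2
      _ = Q * B ^ 2 := by simp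
  set A := {G | t ≤ |H G - m|}
  have hHm : Measurable H := by
    unfold H evSum
    exact Finset.measurable_sum _ fun i hi => measurable_const.indicator (hE i hi)
  have hAm : MeasurableSet A := measurableSet_le measurable_const
    ((continuous_abs.measurable).comp (hHm.sub_const m))
  have i3 : Integrable (fun x => H x ^ 2 + (-2 * m) * H x) μ := hi2.add (hi1.const_mul _)
  rw [le_div_iff₀ (by positivity)]
  calc μ.real A * t ^ 2 = ∫ x, A.indicator (fun _ => t ^ 2) x ∂μ := by
        rw [integral_indicator_const _ hAm, smul_eq_mul]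
    _ ≤ ∫ x, (H x ^ 2 + (-2 * m) * H x + m ^ 2) ∂μ := by
        refine integral_mono ((integrable_const _).indicator hAm) (i3.add (integrable_const _)) fun x => ?_
        by_cases hx : x ∈ A
        · rw [Set.indicator_of_mem hx]
          have h1 := pow_le_pow_left₀ ht.le (show t ≤ |H x - m| from hx) 2
          rw [sq_abs] at h1
          nlinarith
        · rw [Set.indicator_of_notMem hx]
          nlinarith [sq_nonneg (H x - m)]
    _ = ∫ x, H x ^ 2 ∂μ - m ^ 2 := by
        rw [integral_add i3 (integrable_const _), integral_add hi2 (hi1.const_mul _),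
          integral_const_mul, integral_const, probReal_univ, ← hm, smul_eq_mul]
        ring
    _ ≤ _ := hvar

/-- A symmetric family meets each label equally often. -/
lemma label_share {Q : ℕ} (hQ : 0 < Q) {k k' : ℕ}
    (W : (Fin k → Fin Q) → (Fin k' → Fin Q) → ℝ) (hW : ∀ f f', 0 ≤ W f f')
    (hsym : ∀ (π : Equiv.Perm (Fin Q)) f f', W (π ∘ f) (π ∘ f') = W f f') (q : Fin Q) :
    ∑ f : Fin k → Fin Q, ∑ f' : Fin k' → Fin Q,
      (if q ∈ univ.image f ∪ univ.image f' then W f f' else 0) ≤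
      ((k + k' : ℕ) : ℝ) / Q * ∑ f : Fin k → Fin Q, ∑ f' : Fin k' → Fin Q, W f f' := by
  classical
  set T : Fin Q → ℝ := fun q => ∑ f : Fin k → Fin Q, ∑ f' : Fin k' → Fin Q,
      (if q ∈ univ.image f ∪ univ.image f' then W f f' else 0) with hT
  have heq : ∀ r, T r = T q := by
    intro r
    set π := Equiv.swap r q
    simp only [hT]
    refine Fintype.sum_equiv (Equiv.piCongrRight fun _ : Fin k => π) _ _ fun f => ?_
    refine Fintype.sum_equiv (Equiv.piCongrRight fun _ : Fin k' => π) _ _ fun f' => ?_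
    have e1 : (Equiv.piCongrRight fun _ : Fin k => π) f = π ∘ f := rfl
    have e2 : (Equiv.piCongrRight fun _ : Fin k' => π) f' = π ∘ f' := rfl
    rw [e1, e2, hsym]
    have e3 : q ∈ univ.image (π ∘ f) ∪ univ.image (π ∘ f') ↔ r ∈ univ.image f ∪ univ.image f' := by
      simp only [Finset.mem_union, Finset.mem_image, Finset.mem_univ, true_and, Function.comp_apply]
      have : ∀ a, π a = q ↔ a = r := fun a => by
        rw [← Equiv.eq_symm_apply]; simp [π]
      simp [this]
    simp only [e3]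
  have hsum : ∑ r, T r ≤ ((k + k' : ℕ) : ℝ) * ∑ f : Fin k → Fin Q, ∑ f' : Fin k' → Fin Q, W f f' := by
    simp only [hT]
    rw [Finset.sum_comm, Finset.mul_sum]
    refine Finset.sum_le_sum fun f _ => ?_
    rw [Finset.sum_comm, Finset.mul_sum]
    refine Finset.sum_le_sum fun f' _ => ?_
    rw [← Finset.sum_filter, Finset.sum_const, nsmul_eq_mul, Finset.filter_univ_mem]
    refine mul_le_mul_of_nonneg_right (Nat.cast_le.2 ?_) (hW f f')
    refine (Finset.card_union_le _ _).trans (add_le_add ?_ ?_)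
    · exact Finset.card_image_le.trans (by simp)
    · exact Finset.card_image_le.trans (by simp)
  simp_rw [heq] at hsum
  rw [Finset.sum_const, Finset.card_univ, Fintype.card_fin, nsmul_eq_mul] at hsum
  rw [div_mul_eq_mul_div, le_div_iff₀ (by exact_mod_cast hQ), mul_comm]
  exact hsum

lemma image_comp_perm {Q k : ℕ} (π : Equiv.Perm (Fin Q)) (f : Fin k → Fin Q) :
    (univ.image (π ∘ f)) = (univ.image f).map π.toEmbedding := by
  rw [Finset.map_eq_image, Finset.image_image]; rfl

variable {ξ : Type*} [Fintype ξ] {k : ξ → ℕ}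

/-- Trial weight. -/
noncomputable def wgt (ν : Measure Ω) (I : ∀ x, Fin (k x) → Set Ω) (N : ℝ) (x : ξ) : ℝ :=
  ((Fintype.card ξ : ℝ) * ∏ a, N * ν.real (I x a))⁻¹

/-- The covering event: no trial is hit completely by selected pool points. -/
def Unhit {Q : ℕ} (I : ∀ x, Fin (k x) → Set Ω) (G : Fin Q → Ω) (T : Finset (Fin Q)) : Prop :=
  ∀ x, ∀ f : Fin (k x) → Fin Q, (∀ a, f a ∈ T) → ∃ a, G (f a) ∉ I x a

open Classical in
/-- Monomial weights at a pool. -/
noncomputable def poolW (ν : Measure Ω) (I : ∀ x, Fin (k x) → Set Ω) (N : ℝ) {Q : ℕ}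
    (G : Fin Q → Ω) (A : Finset (Fin Q)) : ℝ :=
  ∑ x, ∑ f : Fin (k x) → Fin Q,
    if Function.Injective f ∧ univ.image f = A ∧ G ∈ hitSet (I x) f then wgt ν I N x else 0

open Classical in
/-- Probability of the covering event. -/
noncomputable def unhitProb (I : ∀ x, Fin (k x) → Set Ω) (q : ℝ) {Q : ℕ} (G : Fin Q → Ω) : ℝ :=
  ∑ T, if Unhit I G T then bern q T else 0

/-- The regions of one labelling. -/
def lblR {Q k : ℕ} (I : Fin k → Set Ω) (f : Fin k → Fin Q) (q : Fin Q) : Set Ω :=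
  ⋂ a, ⋂ (_ : f a = q), I a

lemma lblR_univ {Q k : ℕ} (I : Fin k → Set Ω) (f : Fin k → Fin Q) {q : Fin Q}
    (hq : q ∉ univ.image f) : lblR I f q = Set.univ := by
  ext ω
  simp only [lblR, Set.mem_iInter, Set.mem_univ, iff_true]
  exact fun a ha => absurd (Finset.mem_image.2 ⟨a, mem_univ a, ha⟩) hq

lemma measurableSet_lblR {Q k : ℕ} {I : Fin k → Set Ω} (hI : ∀ a, MeasurableSet (I a))
    (f : Fin k → Fin Q) (q : Fin Q) : MeasurableSet (lblR I f q) :=
  MeasurableSet.iInter fun a => MeasurableSet.iInter fun _ => hI a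

variable (ν : Measure Ω) [IsProbabilityMeasure ν] (I : ∀ x, Fin (k x) → Set Ω)

lemma wgt_nonneg {N : ℝ} (hN : 0 ≤ N) (x : ξ) : 0 ≤ wgt ν I N x :=
  inv_nonneg.2 (mul_nonneg (Nat.cast_nonneg _)
    (Finset.prod_nonneg fun a _ => mul_nonneg hN measureReal_nonneg))

open Classical in
lemma unhitProb_le {N : ℝ} (hN : 0 < N) {Q : ℕ} (hNQ : N ≤ Q) (G : Fin Q → Ω) {m D : ℝ}
    (hm0 : 0 ≤ m) (hm : m ≤ monoMu (N / Q) (poolW ν I N G)) (hD0 : 0 < D)
    (hD : monoDelta (N / Q) (poolW ν I N G) ≤ D) :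
    unhitProb I (N / Q) G ≤ Real.exp (-(m ^ 2 / (2 * D))) := by
  have hQ : (0:ℝ) < Q := hN.trans_le hNQ
  have h0 : 0 ≤ N / (Q:ℝ) := by positivity
  have h1 : N / (Q:ℝ) ≤ 1 := (div_le_one hQ).2 hNQ
  have hw : ∀ A, 0 ≤ poolW ν I N G A := fun A => Finset.sum_nonneg fun x _ =>
    Finset.sum_nonneg fun f _ => by split_ifs <;> simp [wgt_nonneg ν I hN.le x]
  refine le_trans (Finset.sum_le_sum fun T _ => ?_) (janson h0 h1 hw hm hm0 hD hD0)
  by_cases hU : Unhit I G T
  · rw [if_pos hU, if_pos]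
    refine Finset.sum_eq_zero fun A _ => ?_
    split_ifs with hA
    · refine Finset.sum_eq_zero fun x _ => Finset.sum_eq_zero fun f _ => if_neg ?_
      rintro ⟨-, rfl, hG⟩
      obtain ⟨a, ha⟩ := hU x f fun a => hA (Finset.mem_image_of_mem f (mem_univ a))
      exact ha (hG a)
    · rfl
  · rw [if_neg hU]
    split_ifs
    · exact bern_nonneg h0 h1 T
    · exact le_rfl

/-- The index set of single labellings. -/
abbrev Idx1 (k : ξ → ℕ) (Q : ℕ) := Σ x : ξ, (Fin (k x) → Fin Q)

/-- The index set of pairs of labellings. -/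
abbrev Idx2 (k : ξ → ℕ) (Q : ℕ) := Σ p : ξ × ξ, (Fin (k p.1) → Fin Q) × (Fin (k p.2) → Fin Q)

open Classical in
lemma monoMu_eq {N : ℝ} {Q : ℕ} (G : Fin Q → Ω) :
    monoMu (N / Q) (poolW ν I N G) =
      evSum ((univ : Finset (Idx1 k Q)).filter fun i => Function.Injective i.2)
        (fun i => wgt ν I N i.1 * (N / Q) ^ (univ.image i.2).card)
        (fun i => Set.univ.pi (lblR (I i.1) i.2)) G := by
  simp only [monoMu, poolW, evSum, Finset.sum_filter, Fintype.sum_sigma, Finset.sum_mul]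
  rw [Finset.sum_comm]
  refine Finset.sum_congr rfl fun x _ => ?_
  rw [Finset.sum_comm]
  refine Finset.sum_congr rfl fun f _ => ?_
  simp only [ite_mul, zero_mul]
  have e : hitSet (I x) f = Set.univ.pi (lblR (I x) f) := hitSet_eq_pi _ _
  by_cases hf : Function.Injective f
  · simp only [hf, true_and, if_true, e]
    rw [Finset.sum_eq_single (univ.image f) (fun A _ hA => if_neg fun h => hA h.1.symm)
      (fun h => absurd (Finset.mem_univ _) h)]
    by_cases hG : G ∈ Set.univ.pi (lblR (I x) f) <;> simp [hG]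
  · simp [hf]

/-- Double sums over the fibres of a map. -/
lemma fiber_double_sum {β J : Type*} [Fintype β] [DecidableEq β] [Fintype J] (im : J → β) (a : J → ℝ)
    (F : β → β → ℝ) :
    ∑ A, ∑ B, F A B * ((∑ i, if im i = A then a i else 0) * ∑ j, if im j = B then a j else 0) =
      ∑ i, ∑ j, F (im i) (im j) * (a i * a j) := by
  have h1 : ∀ (A B : β),
      F A B * ((∑ i, if im i = A then a i else 0) * ∑ j, if im j = B then a j else 0) =
        ∑ i, ∑ j, (if im i = A then (if im j = B then F A B * (a i * a j) else 0) else 0) := by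
    intro A B
    rw [Finset.sum_mul_sum, Finset.mul_sum]
    refine Finset.sum_congr rfl fun i _ => ?_
    rw [Finset.mul_sum]
    refine Finset.sum_congr rfl fun j _ => ?_
    split_ifs <;> simp
  simp_rw [h1]
  rw [Finset.sum_congr rfl fun A _ => Finset.sum_comm, Finset.sum_comm]
  refine Finset.sum_congr rfl fun i _ => ?_
  rw [Finset.sum_congr rfl fun A _ => Finset.sum_comm, Finset.sum_comm]
  refine Finset.sum_congr rfl fun j _ => ?_
  simp

open Classical in
/-- One trial labelling's weight at a pool. -/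
noncomputable def sgl (N : ℝ) {Q : ℕ} (G : Fin Q → Ω) (x : ξ) (f : Fin (k x) → Fin Q) : ℝ :=
  if Function.Injective f ∧ G ∈ hitSet (I x) f then wgt ν I N x else 0

open Classical in
lemma monoDelta_eq_pairs {N : ℝ} {Q : ℕ} (G : Fin Q → Ω) :
    monoDelta (N / Q) (poolW ν I N G) = ∑ i : Idx1 k Q, ∑ j : Idx1 k Q,
      (if Disjoint (univ.image i.2) (univ.image j.2) then 0
        else (N / Q) ^ (univ.image i.2 ∪ univ.image j.2).card) *
        (sgl ν I N G i.1 i.2 * sgl ν I N G j.1 j.2) := by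
  have hW : ∀ A, poolW ν I N G A =
      ∑ i : Idx1 k Q, if univ.image i.2 = A then sgl ν I N G i.1 i.2 else 0 := by
    intro A
    rw [Fintype.sum_sigma]
    refine Finset.sum_congr rfl fun x _ => Finset.sum_congr rfl fun f _ => ?_
    by_cases h : univ.image f = A
    · simp [h, sgl]
    · simp [h]
  have hr : monoDelta (N / Q) (poolW ν I N G) =
      ∑ A, ∑ B, (if Disjoint A B then 0 else (N / (Q:ℝ)) ^ (A ∪ B).card) *
        (poolW ν I N G A * poolW ν I N G B) := by
    refine Finset.sum_congr rfl fun A _ => Finset.sum_congr rfl fun B _ => ?_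
    by_cases hd : Disjoint A B
    · rw [if_pos hd, if_pos hd, zero_mul]
    · rw [if_neg hd, if_neg hd]; ring
  rw [hr]
  simp only [hW]
  exact fiber_double_sum (fun i : Idx1 k Q => univ.image i.2) (fun i => sgl ν I N G i.1 i.2)
    (fun A B => if Disjoint A B then 0 else (N / (Q:ℝ)) ^ (A ∪ B).card)

open Classical in
lemma monoDelta_eq {N : ℝ} {Q : ℕ} (G : Fin Q → Ω) :
    monoDelta (N / Q) (poolW ν I N G) =
      evSum ((univ : Finset (Idx2 k Q)).filter fun i => Function.Injective i.2.1 ∧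
          Function.Injective i.2.2 ∧ ¬ Disjoint (univ.image i.2.1) (univ.image i.2.2))
        (fun i => wgt ν I N i.1.1 * wgt ν I N i.1.2 *
          (N / Q) ^ (univ.image i.2.1 ∪ univ.image i.2.2).card)
        (fun i => Set.univ.pi fun q => lblR (I i.1.1) i.2.1 q ∩ lblR (I i.1.2) i.2.2 q) G := by
  rw [monoDelta_eq_pairs]
  simp only [evSum, Finset.sum_filter, Fintype.sum_sigma, Fintype.sum_prod_type]
  refine Finset.sum_congr rfl fun x _ => ?_
  rw [Finset.sum_comm]
  refine Finset.sum_congr rfl fun y _ => Finset.sum_congr rfl fun f _ =>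
    Finset.sum_congr rfl fun f' _ => ?_
  have e : G ∈ (Set.univ.pi fun q => lblR (I x) f q ∩ lblR (I y) f' q) ↔
      G ∈ hitSet (I x) f ∧ G ∈ hitSet (I y) f' := by
    rw [hitSet_eq_pi, hitSet_eq_pi, ← Set.mem_inter_iff, ← Set.pi_inter_distrib]; rfl
  rw [Set.indicator_apply]
  simp only [e, sgl]
  by_cases h1 : Function.Injective f <;> by_cases h2 : Function.Injective f' <;>
    by_cases h3 : Disjoint (univ.image f) (univ.image f') <;> by_cases h4 : G ∈ hitSet (I x) f <;>
    by_cases h5 : G ∈ hitSet (I y) f' <;> simp [h1, h2, h3, h4, h5] <;> ring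

open Classical in
lemma wgt_mul_prod {N : ℝ} (hN : 0 < N) (hg : ∀ x a, 0 < ν.real (I x a)) (x : ξ) :
    wgt ν I N x * (∏ a, N * ν.real (I x a)) = (Fintype.card ξ : ℝ)⁻¹ := by
  have : (∏ a, N * ν.real (I x a)) ≠ 0 := (Finset.prod_pos fun a _ => mul_pos hN (hg x a)).ne'
  rw [wgt, mul_inv, mul_assoc, inv_mul_cancel₀ this, mul_one]

lemma card_injective (k Q : ℕ) :
    ((univ : Finset (Fin k → Fin Q)).filter fun f => Function.Injective f).card =
      Q.descFactorial k := by
  classical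
  have := Fintype.card_embedding_eq (α := Fin k) (β := Fin Q)
  rw [Fintype.card_fin, Fintype.card_fin] at this
  rw [← this, ← Fintype.card_subtype]
  exact Fintype.card_congr (Equiv.subtypeInjectiveEquivEmbedding _ _)

lemma descFactorial_ge {k Q : ℕ} (hk : k ≤ Q) (hQ : 0 < Q) :
    1 - (k:ℝ) ^ 2 / Q ≤ (Q.descFactorial k : ℝ) * (1 / (Q:ℝ)) ^ k := by
  have hQR : (0:ℝ) < Q := by exact_mod_cast hQ
  have h1 : ((Q:ℝ) - k) ^ k ≤ (Q.descFactorial k : ℝ) := by
    have h' : (Q - k) ^ k ≤ Q.descFactorial k :=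
      (Nat.pow_le_pow_left (by omega) _).trans (Nat.pow_sub_le_descFactorial Q k)
    have := (Nat.cast_le (α := ℝ)).2 h'
    rwa [Nat.cast_pow, Nat.cast_sub hk] at this
  have h2 := one_add_mul_le_pow (show (-2:ℝ) ≤ -((k : ℝ) / Q) by
    have : (k : ℝ) / Q ≤ 1 := (div_le_one hQR).2 (by exact_mod_cast hk)
    linarith) k
  calc 1 - (k:ℝ) ^ 2 / Q = 1 + (k : ℝ) * -((k : ℝ) / Q) := by ring
    _ ≤ _ := h2
    _ = ((Q:ℝ) - k) ^ k * (1 / (Q:ℝ)) ^ k := by
        rw [← mul_pow]; congr 1; field_simp; ring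
    _ ≤ _ := mul_le_mul_of_nonneg_right h1 (by positivity)

open Classical in
lemma mean_single {N : ℝ} (hN : 0 < N) (hI : ∀ x a, MeasurableSet (I x a))
    (hg : ∀ x a, 0 < ν.real (I x a)) {Q : ℕ} (hQ : 0 < Q) (hk : ∀ x, k x ≤ Q) [Nonempty ξ] :
    1 - (∑ x, (k x : ℝ) ^ 2) / (Fintype.card ξ : ℝ) / Q ≤
      ∫ G, evSum ((univ : Finset (Idx1 k Q)).filter fun i => Function.Injective i.2)
        (fun i => wgt ν I N i.1 * (N / Q) ^ (univ.image i.2).card)
        (fun i => Set.univ.pi (lblR (I i.1) i.2)) G ∂(Measure.pi fun _ : Fin Q => ν) := by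
  set M : ℝ := (Fintype.card ξ : ℝ)
  have hM0 : 0 < M := Nat.cast_pos.2 Fintype.card_pos
  rw [integral_evSum _ _ _ _ (fun i _ => MeasurableSet.univ_pi (measurableSet_lblR (hI _) _)),
    Finset.sum_filter, Fintype.sum_sigma]
  have hx : ∀ x, M⁻¹ * (1 - (k x : ℝ) ^ 2 / Q) ≤ ∑ f : Fin (k x) → Fin Q,
      (if Function.Injective f then wgt ν I N x * (N / Q) ^ (univ.image f).card *
        (Measure.pi fun _ : Fin Q => ν).real (Set.univ.pi (lblR (I x) f)) else 0) := by
    intro x
    have hval : ∀ f : Fin (k x) → Fin Q, Function.Injective f →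
        wgt ν I N x * (N / Q) ^ (univ.image f).card *
          (Measure.pi fun _ : Fin Q => ν).real (Set.univ.pi (lblR (I x) f)) =
          M⁻¹ * (1 / (Q:ℝ)) ^ k x := by
      intro f hf
      have e : Set.univ.pi (lblR (I x) f) = hitSet (I x) f := (hitSet_eq_pi _ _).symm
      rw [e, measure_hitSet ν _ hf, Finset.card_image_of_injective _ hf, Finset.card_univ,
        Fintype.card_fin, show M⁻¹ = wgt ν I N x * ∏ a, N * ν.real (I x a) from
          (wgt_mul_prod ν I hN hg x).symm, Finset.prod_mul_distrib, Finset.prod_const,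
        Finset.card_univ, Fintype.card_fin, div_pow, div_pow]
      ring
    rw [← Finset.sum_filter, Finset.sum_congr rfl fun f hf => hval f (Finset.mem_filter.1 hf).2,
      Finset.sum_const, nsmul_eq_mul, card_injective, ← mul_assoc, mul_comm (_ : ℝ) M⁻¹, mul_assoc]
    exact mul_le_mul_of_nonneg_left (descFactorial_ge (hk x) hQ) (by positivity)
  refine le_trans ?_ (Finset.sum_le_sum fun x _ => hx x)
  rw [← Finset.mul_sum, Finset.sum_sub_distrib, Finset.sum_const, nsmul_eq_mul, mul_one,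
    ← Finset.sum_div, Finset.card_univ, mul_sub, inv_mul_cancel₀ hM0.ne']
  refine le_of_eq ?_
  ring

open Classical in
lemma share_single {N : ℝ} (hN : 0 < N) {Q : ℕ} (hQ : 0 < Q) (q : Fin Q) :
    ∑ i ∈ ((univ : Finset (Idx1 k Q)).filter fun i => Function.Injective i.2),
      (if q ∈ univ.image i.2 then wgt ν I N i.1 * (N / Q) ^ (univ.image i.2).card else 0) ≤
      (∑ x, wgt ν I N x * k x * N ^ k x) / Q := by
  have hQR : (0:ℝ) < Q := by exact_mod_cast hQ
  rw [Finset.sum_filter, Fintype.sum_sigma, Finset.sum_div]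
  refine Finset.sum_le_sum fun x _ => ?_
  set C := wgt ν I N x * (N / Q) ^ k x
  have hC : 0 ≤ C := mul_nonneg (wgt_nonneg ν I hN.le x) (by positivity)
  set W : (Fin (k x) → Fin Q) → (Fin 0 → Fin Q) → ℝ := fun f _ =>
    if Function.Injective f then C else 0 with hWdef
  have hls := label_share hQ W
    (fun f f' => by simp only [hWdef]; split_ifs; exacts [hC, le_rfl])
    (fun π f f' => by simp only [hWdef, EquivLike.comp_injective]) q
  refine le_trans (le_of_eq ?_) (hls.trans ?_)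
  · refine Finset.sum_congr rfl fun f _ => ?_
    simp only [Fintype.sum_unique, hWdef]
    have : (univ.image (default : Fin 0 → Fin Q)) = ∅ := by simp
    rw [this, Finset.union_empty]
    by_cases hf : Function.Injective f
    · simp [C, hf, Finset.card_image_of_injective _ hf]
    · simp [hf]
  · rw [Nat.add_zero]
    calc ((k x : ℕ) : ℝ) / Q * ∑ f : Fin (k x) → Fin Q, ∑ f' : Fin 0 → Fin Q, W f f'
        ≤ ((k x : ℕ) : ℝ) / Q * ∑ _f : Fin (k x) → Fin Q, C := by
          refine mul_le_mul_of_nonneg_left (Finset.sum_le_sum fun f _ => ?_) (by positivity)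
          simp only [Fintype.sum_unique, hWdef]
          split_ifs
          · exact le_rfl
          · exact hC
      _ = _ := by
          rw [Finset.sum_const, Finset.card_univ, Fintype.card_fun, Fintype.card_fin,
            Fintype.card_fin, nsmul_eq_mul, Nat.cast_pow]
          simp only [C, div_pow]
          field_simp

open Classical in
lemma mean_pair {N : ℝ} (hN : 0 < N) (hI : ∀ x a, MeasurableSet (I x a))
    (hg : ∀ x a, 0 < ν.real (I x a)) [Nonempty ξ] (PB : ξ → ξ → ℝ) {J : ℝ}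
    (hPB : ∀ x y, ∃ (u : Fin (k x) → ℝ) (u' : Fin (k y) → ℝ) (s : Fin (k x) → Fin (k y) → ℝ),
      (∀ a, 0 < u a) ∧ (∀ a, N * ν.real (I x a) ≤ u a) ∧ (∀ b, N * ν.real (I y b) ≤ u' b) ∧
      (∀ a b, N * ν.real (I x a ∩ I y b) ≤ s a b) ∧
      pairTerm u u' s ≤ PB x y * ((∏ a, N * ν.real (I x a)) * ∏ b, N * ν.real (I y b)))
    (hsum : ∑ x, ∑ y, PB x y ≤ J * (Fintype.card ξ : ℝ) ^ 2) {Q : ℕ} (hQ : 0 < Q) :
    ∫ G, evSum ((univ : Finset (Idx2 k Q)).filter fun i => Function.Injective i.2.1 ∧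
          Function.Injective i.2.2 ∧ ¬ Disjoint (univ.image i.2.1) (univ.image i.2.2))
        (fun i => wgt ν I N i.1.1 * wgt ν I N i.1.2 *
          (N / Q) ^ (univ.image i.2.1 ∪ univ.image i.2.2).card)
        (fun i => Set.univ.pi fun q => lblR (I i.1.1) i.2.1 q ∩ lblR (I i.1.2) i.2.2 q) G
        ∂(Measure.pi fun _ : Fin Q => ν) ≤ J := by
  set M : ℝ := (Fintype.card ξ : ℝ)
  have hM0 : 0 < M := Nat.cast_pos.2 Fintype.card_pos
  rw [integral_evSum _ _ _ _ (fun i _ => MeasurableSet.univ_pi fun q =>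
      (measurableSet_lblR (hI _) _ q).inter (measurableSet_lblR (hI _) _ q)),
    Finset.sum_filter, Fintype.sum_sigma]
  calc _ ≤ ∑ p : ξ × ξ, M⁻¹ * M⁻¹ * PB p.1 p.2 := by
        refine Finset.sum_le_sum fun p _ => ?_
        obtain ⟨x, y⟩ := p
        obtain ⟨u, u', s, hu0, hu, hu', hs, hP⟩ := hPB x y
        have h := pair_sum_le (Q := Q) ν (I x) (I y) hN hQ hu hu' hu0 hs
        refine le_trans (le_of_eq ?_) ((mul_le_mul_of_nonneg_left (h.trans hP)
          (mul_nonneg (wgt_nonneg ν I hN.le x) (wgt_nonneg ν I hN.le y))).trans (le_of_eq ?_))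
        · rw [Fintype.sum_prod_type, Finset.mul_sum]
          refine Finset.sum_congr rfl fun f _ => ?_
          rw [Finset.mul_sum]
          refine Finset.sum_congr rfl fun f' _ => ?_
          rw [hitSet_eq_pi, hitSet_eq_pi, ← Set.pi_inter_distrib]
          simp only [lblR]
          split_ifs
          · ring
          · simp
        · calc wgt ν I N x * wgt ν I N y *
                (PB x y * ((∏ a, N * ν.real (I x a)) * ∏ b, N * ν.real (I y b)))
              = (wgt ν I N x * ∏ a, N * ν.real (I x a)) *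
                (wgt ν I N y * ∏ b, N * ν.real (I y b)) * PB x y := by ring
            _ = _ := by rw [wgt_mul_prod ν I hN hg, wgt_mul_prod ν I hN hg]
    _ = M⁻¹ * M⁻¹ * ∑ x, ∑ y, PB x y := by rw [← Finset.mul_sum, Fintype.sum_prod_type]
    _ ≤ M⁻¹ * M⁻¹ * (J * M ^ 2) := mul_le_mul_of_nonneg_left hsum (by positivity)
    _ = J := by field_simp

open Classical in
lemma share_pair {N : ℝ} (hN : 0 < N) {Q : ℕ} (hQ : 0 < Q) (q : Fin Q) :
    ∑ i ∈ ((univ : Finset (Idx2 k Q)).filter fun i => Function.Injective i.2.1 ∧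
        Function.Injective i.2.2 ∧ ¬ Disjoint (univ.image i.2.1) (univ.image i.2.2)),
      (if q ∈ univ.image i.2.1 ∪ univ.image i.2.2 then wgt ν I N i.1.1 * wgt ν I N i.1.2 *
          (N / Q) ^ (univ.image i.2.1 ∪ univ.image i.2.2).card else 0) ≤
      (∑ p : ξ × ξ, wgt ν I N p.1 * wgt ν I N p.2 * ((k p.1 + k p.2 : ℕ) : ℝ) *
        pairTerm (fun _ : Fin (k p.1) => N) (fun _ : Fin (k p.2) => N) (fun _ _ => N)) / Q := by
  rw [Finset.sum_filter, Fintype.sum_sigma, Finset.sum_div]
  refine Finset.sum_le_sum fun p _ => ?_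
  obtain ⟨x, y⟩ := p
  set W : (Fin (k x) → Fin Q) → (Fin (k y) → Fin Q) → ℝ := fun f f' =>
    if Function.Injective f ∧ Function.Injective f' ∧ ¬ Disjoint (univ.image f) (univ.image f') then
      (N / Q) ^ (univ.image f ∪ univ.image f').card else 0 with hWdef
  have hls := label_share hQ W (fun f f' => by simp only [hWdef]; split_ifs <;> positivity)
    (fun π f f' => by
      simp only [hWdef, EquivLike.comp_injective, image_comp_perm, Finset.disjoint_map,
        ← Finset.map_union, Finset.card_map]) q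
  have htot : ∑ f : Fin (k x) → Fin Q, ∑ f' : Fin (k y) → Fin Q, W f f' ≤
      pairTerm (fun _ : Fin (k x) => N) (fun _ : Fin (k y) => N) (fun _ _ => N) := by
    refine le_trans (le_of_eq ?_) (pair_sum_le (Q := Q) ν (fun _ : Fin (k x) => Set.univ)
      (fun _ : Fin (k y) => Set.univ) hN hQ (u := fun _ => N) (u' := fun _ => N)
      (s := fun _ _ => N) (fun _ => by simp) (fun _ => by simp) (fun _ => hN) (fun _ _ => by simp))
    refine Finset.sum_congr rfl fun f _ => Finset.sum_congr rfl fun f' _ => ?_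
    have : ∀ {l : ℕ} (g : Fin l → Fin Q), hitSet (fun _ : Fin l => (Set.univ : Set Ω)) g = Set.univ := by
      intro l g; ext G; simp [hitSet]
    simp only [hWdef]
    rw [this, this, Set.inter_self]
    simp
  calc _ = (wgt ν I N x * wgt ν I N y) * ∑ f : Fin (k x) → Fin Q, ∑ f' : Fin (k y) → Fin Q,
        (if q ∈ univ.image f ∪ univ.image f' then W f f' else 0) := by
        rw [Fintype.sum_prod_type, Finset.mul_sum]
        refine Finset.sum_congr rfl fun f _ => ?_
        rw [Finset.mul_sum]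
        refine Finset.sum_congr rfl fun f' _ => ?_
        simp only [hWdef]
        split_ifs <;> simp_all
    _ ≤ (wgt ν I N x * wgt ν I N y) * (((k x + k y : ℕ) : ℝ) / Q *
        pairTerm (fun _ : Fin (k x) => N) (fun _ : Fin (k y) => N) (fun _ _ => N)) :=
        mul_le_mul_of_nonneg_left (hls.trans (mul_le_mul_of_nonneg_left htot (by positivity)))
          (mul_nonneg (wgt_nonneg ν I hN.le x) (wgt_nonneg ν I hN.le y))
    _ = _ := by ring

open Classical in
theorem pool_eventually (hI : ∀ x a, MeasurableSet (I x a)) [Nonempty ξ] {N : ℝ} (hN : 0 < N)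
    (hg : ∀ x a, 0 < ν.real (I x a)) (PB : ξ → ξ → ℝ) {J : ℝ} (hJ : 0 < J)
    (hPB : ∀ x y, ∃ (u : Fin (k x) → ℝ) (u' : Fin (k y) → ℝ) (s : Fin (k x) → Fin (k y) → ℝ),
      (∀ a, 0 < u a) ∧ (∀ a, N * ν.real (I x a) ≤ u a) ∧ (∀ b, N * ν.real (I y b) ≤ u' b) ∧
      (∀ a b, N * ν.real (I x a ∩ I y b) ≤ s a b) ∧
      pairTerm u u' s ≤ PB x y * ((∏ a, N * ν.real (I x a)) * ∏ b, N * ν.real (I y b)))
    (hsum : ∑ x, ∑ y, PB x y ≤ J * (Fintype.card ξ : ℝ) ^ 2) {ε : ℝ} (hε : 0 < ε) :
    ∀ᶠ Q : ℕ in atTop, (Measure.pi fun _ : Fin Q => ν).real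
      {G | Real.exp (-(1 / (16 * J))) < unhitProb I (N / Q) G} ≤ ε := by
  set M : ℝ := (Fintype.card ξ : ℝ) with hM
  set K2 : ℝ := (∑ x : ξ, ((k x : ℝ)) ^ 2) / M
  set B1 : ℝ := ∑ x, wgt ν I N x * k x * N ^ k x with hB1
  set B2 : ℝ := ∑ p : ξ × ξ, wgt ν I N p.1 * wgt ν I N p.2 * ((k p.1 + k p.2 : ℕ) : ℝ) *
    pairTerm (fun _ : Fin (k p.1) => N) (fun _ : Fin (k p.2) => N) (fun _ _ => N) with hB2
  have hlim : Tendsto (fun Q : ℕ => ((4:ℝ) ^ 2 * B1 ^ 2 + B2 ^ 2 / J ^ 2) / Q) atTop (𝓝 0) :=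
    tendsto_const_div_atTop_nhds_zero_nat _
  have hlim2 : Tendsto (fun Q : ℕ => K2 / Q) atTop (𝓝 0) := tendsto_const_div_atTop_nhds_zero_nat _
  filter_upwards [hlim.eventually_le_const hε, hlim2.eventually_le_const (show (0:ℝ) < 1/4 by norm_num),
    eventually_ge_atTop ⌈N⌉₊, eventually_ge_atTop 1, eventually_ge_atTop (∑ x, k x)]
    with Q hQ1 hQ2 hQN hQ1' hQk
  have hQp : 0 < Q := hQ1'
  have hQR : (0:ℝ) < Q := by exact_mod_cast hQp
  have hNQ : N ≤ Q := (Nat.le_ceil N).trans (by exact_mod_cast hQN)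
  have hk : ∀ x, k x ≤ Q := fun x =>
    (Finset.single_le_sum (fun y _ => Nat.zero_le (k y)) (mem_univ x)).trans hQk
  have hm1 := mean_single ν I hN hI hg hQp hk
  have hm2 := mean_pair ν I hN hI hg PB hPB hsum hQp
  have hcheb1 := pool_chebyshev (ν := ν) ((univ : Finset (Idx1 k Q)).filter fun i => Function.Injective i.2)
    (fun i => wgt ν I N i.1 * (N / Q) ^ (univ.image i.2).card)
    (fun i => univ.image i.2) (fun i => lblR (I i.1) i.2)
    (fun i _ => mul_nonneg (wgt_nonneg ν I hN.le _) (by positivity))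
    (fun i _ => measurableSet_lblR (hI _) _) (fun i _ q hq => lblR_univ _ _ hq) (B := B1 / Q)
    (share_single ν I hN hQp) (show (0:ℝ) < 1/4 by norm_num)
  have hcheb2 := pool_chebyshev (ν := ν) ((univ : Finset (Idx2 k Q)).filter fun i =>
      Function.Injective i.2.1 ∧ Function.Injective i.2.2 ∧
        ¬ Disjoint (univ.image i.2.1) (univ.image i.2.2))
    (fun i => wgt ν I N i.1.1 * wgt ν I N i.1.2 * (N / Q) ^ (univ.image i.2.1 ∪ univ.image i.2.2).card)
    (fun i => univ.image i.2.1 ∪ univ.image i.2.2)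
    (fun i q => lblR (I i.1.1) i.2.1 q ∩ lblR (I i.1.2) i.2.2 q)
    (fun i _ => mul_nonneg (mul_nonneg (wgt_nonneg ν I hN.le _) (wgt_nonneg ν I hN.le _)) (by positivity))
    (fun i _ q => (measurableSet_lblR (hI _) _ q).inter (measurableSet_lblR (hI _) _ q))
    (fun i _ q hq => by
      rw [Finset.mem_union, not_or] at hq
      simp only [lblR_univ _ _ hq.1, lblR_univ _ _ hq.2, Set.inter_self])
    (B := B2 / Q) (share_pair ν I hN hQp) hJ
  refine le_trans ?_ hQ1
  refine le_trans ((measureReal_mono fun G hG => ?_).trans ((measureReal_union_le _ _).trans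
    (add_le_add hcheb1 hcheb2))) (le_of_eq ?_)
  · by_contra hno
    simp only [Set.mem_union, Set.mem_ofPred_eq, not_or, not_le, abs_lt] at hno
    have h1 : (1:ℝ)/2 ≤ monoMu (N / Q) (poolW ν I N G) := by
      rw [monoMu_eq]
      linarith [hno.1.1, hm1]
    have h2 : monoDelta (N / Q) (poolW ν I N G) ≤ 2 * J := by
      rw [monoDelta_eq]
      linarith [hno.2.2, hm2]
    have h3 := unhitProb_le ν I hN hNQ G (by norm_num) h1 (by positivity) h2
    have e : ((1:ℝ)/2) ^ 2 / (2 * (2 * J)) = 1 / (16 * J) := by field_simp; ring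
    rw [e] at h3
    exact absurd hG (not_lt.2 h3)
  · field_simp

end Vale.Agent.P230.Lower
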