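import Mathlib

/-! Multiscale grouping of a finite point set into slots with sparse representatives. -/

namespace Vale.Agent.P230.Lower

open Finset

variable {ι : Type*} [DecidableEq ι] {β : Type*} [PseudoMetricSpace β]

set_option linter.unusedSectionVars false

/-- Count threshold at level `l`. -/
noncomputable def lvlCap (l : ℕ) : ℕ := ⌈Real.exp ((4:ℝ) ^ l)⌉₊

/-- One level of merging. -/
lemma one_level (pos : ι → β) {D : ℝ} (hD : 0 ≤ D) (d : ℕ) : ∀ S : Finset ι, ∃ f : ι → ι,
    (∀ x ∈ S, f x ∈ S ∧ dist (pos x) (pos (f x)) ≤ D) ∧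
    (∀ t ∈ S.image f, f t = t) ∧
    (∀ t ∈ S.image f, S.filter (fun x => f x = t) = {t} ∨
      d + 1 ≤ (S.filter (fun x => f x = t)).card) ∧
    ∀ z : β, ((S.image f).filter fun t => dist (pos t) z ≤ D / 2).card ≤ d + 1 := by
  intro S
  induction S using Finset.strongInduction with
  | H S ih =>
    by_cases hex : ∃ p ∈ S, d + 1 < (S.filter fun x => dist (pos x) (pos p) ≤ D).card
    · obtain ⟨p, hp, hpc⟩ := hex
      set B := S.filter fun x => dist (pos x) (pos p) ≤ D with hB
      have hpB : p ∈ B := Finset.mem_filter.2 ⟨hp, by rw [dist_self]; exact hD⟩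
      have hBS : B ⊆ S := Finset.filter_subset _ _
      obtain ⟨f, hf1, hf2, hf3, hf4⟩ := ih (S \ B)
        (Finset.sdiff_ssubset hBS ⟨p, hpB⟩)
      refine ⟨fun x => if x ∈ B then p else f x, ?_, ?_, ?_, ?_⟩
      · intro x hx
        by_cases hxB : x ∈ B
        · simp only [if_pos hxB]
          exact ⟨hp, (Finset.mem_filter.1 hxB).2⟩
        · simp only [if_neg hxB]
          have := hf1 x (Finset.mem_sdiff.2 ⟨hx, hxB⟩)
          exact ⟨(Finset.mem_sdiff.1 this.1).1, this.2⟩
      · intro t ht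
        obtain ⟨x, hx, rfl⟩ := Finset.mem_image.1 ht
        by_cases hxB : x ∈ B
        · simp only [if_pos hxB, if_pos hpB]
        · simp only [if_neg hxB]
          have hxs := Finset.mem_sdiff.2 ⟨hx, hxB⟩
          rw [if_neg (Finset.mem_sdiff.1 (hf1 x hxs).1).2]
          exact hf2 _ (Finset.mem_image_of_mem f hxs)
      · intro t ht
        obtain ⟨x, hx, rfl⟩ := Finset.mem_image.1 ht
        by_cases hxB : x ∈ B
        · right
          simp only [if_pos hxB]
          refine le_trans hpc.le (Finset.card_le_card fun y hy => ?_)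
          exact Finset.mem_filter.2 ⟨hBS hy, if_pos hy⟩
        · simp only [if_neg hxB]
          have hxs := Finset.mem_sdiff.2 ⟨hx, hxB⟩
          have hnp : f x ≠ p := fun h => (Finset.mem_sdiff.1 (hf1 x hxs).1).2 (h ▸ hpB)
          have e : S.filter (fun y => (if y ∈ B then p else f y) = f x) =
              (S \ B).filter (fun y => f y = f x) := by
            ext y
            simp only [Finset.mem_filter, Finset.mem_sdiff]
            by_cases hyB : y ∈ B
            · simp [hyB, hnp.symm]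
            · simp [hyB]
          rw [e]
          exact hf3 _ (Finset.mem_image_of_mem f hxs)
      · intro z
        have hsub : S.image (fun x => if x ∈ B then p else f x) ⊆ insert p ((S \ B).image f) := by
          intro t ht
          obtain ⟨x, hx, rfl⟩ := Finset.mem_image.1 ht
          by_cases hxB : x ∈ B
          · simp [hxB]
          · rw [if_neg hxB]
            exact Finset.mem_insert_of_mem (Finset.mem_image_of_mem f (Finset.mem_sdiff.2 ⟨hx, hxB⟩))
        refine (Finset.card_le_card (Finset.filter_subset_filter _ hsub)).trans ?_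
        rw [Finset.filter_insert]
        split_ifs with hpz
        · have : ((S \ B).image f).filter (fun t => dist (pos t) z ≤ D / 2) = ∅ := by
            refine Finset.filter_eq_empty_iff.2 fun t ht htz => ?_
            obtain ⟨x, hx, rfl⟩ := Finset.mem_image.1 ht
            obtain ⟨h1, h2⟩ := Finset.mem_sdiff.1 (hf1 x hx).1
            refine h2 (Finset.mem_filter.2 ⟨h1, ?_⟩)
            linarith [dist_triangle_right (pos (f x)) (pos p) z]
          simp [this]
        · exact hf4 z
    · push Not at hex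
      refine ⟨id, fun x hx => ⟨hx, by simpa using hD⟩, fun t _ => rfl, fun t ht => Or.inl ?_, fun z => ?_⟩
      · rw [Finset.image_id] at ht
        ext y
        simp only [Finset.mem_filter, id_eq, Finset.mem_singleton]
        exact ⟨fun h => h.2, fun h => ⟨h ▸ ht, h⟩⟩
      · rw [Finset.image_id]
        rcases (S.filter fun t => dist (pos t) z ≤ D / 2).eq_empty_or_nonempty with h | ⟨p, hp⟩
        · simp [h]
        · obtain ⟨hpS, hpz⟩ := Finset.mem_filter.1 hp
          refine (Finset.card_le_card fun t ht => ?_).trans (hex p hpS)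
          obtain ⟨htS, htz⟩ := Finset.mem_filter.1 ht
          refine Finset.mem_filter.2 ⟨htS, ?_⟩
          linarith [dist_triangle_right (pos t) (pos p) z]

/-- Grouping up to level `L`. -/
theorem multiscale (pos : ι → β) (S : Finset ι) : ∀ L : ℕ, ∃ f : ι → ι,
    (∀ x ∈ S, f x ∈ S ∧ dist (pos x) (pos (f x)) ≤ 2 ^ (L + 1)) ∧
    (∀ t ∈ S.image f, f t = t) ∧
    (∀ t ∈ S.image f, S.filter (fun x => f x = t) = {t} ∨
      ∃ l, l ≤ L ∧ Real.exp ((4:ℝ) ^ l) ≤ ((S.filter (fun x => f x = t)).card : ℝ) ∧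
        ∀ x ∈ S, f x = t → dist (pos x) (pos t) ≤ 2 ^ (l + 1)) ∧
    ∀ l, 1 ≤ l → l ≤ L → ∀ z : β,
      ((S.image f).filter fun t => dist (pos t) z ≤ 2 ^ l / 2).card ≤ lvlCap l + 1 := by
  intro L
  induction L with
  | zero =>
    refine ⟨id, fun x hx => ⟨hx, by simp⟩, fun t _ => rfl, fun t ht => Or.inl ?_, fun l h1 h2 => by omega⟩
    rw [Finset.image_id] at ht
    ext y
    simp only [Finset.mem_filter, id_eq, Finset.mem_singleton]
    exact ⟨fun h => h.2, fun h => ⟨h ▸ ht, h⟩⟩
  | succ L ih =>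
    obtain ⟨f, hf1, hf2, hf3, hf4⟩ := ih
    obtain ⟨g, hg1, hg2, hg3, hg4⟩ := one_level pos (show (0:ℝ) ≤ 2 ^ (L + 1) by positivity)
      (lvlCap (L + 1)) (S.image f)
    have himg : S.image (fun x => g (f x)) = (S.image f).image g := (Finset.image_image).symm
    refine ⟨fun x => g (f x), fun x hx => ?_, fun t ht => ?_, fun t ht => ?_, ?_⟩
    · have h1 := hg1 _ (Finset.mem_image_of_mem f hx)
      obtain ⟨y, hy, hye⟩ := Finset.mem_image.1 h1.1
      refine ⟨?_, ?_⟩
      · show g (f x) ∈ S
        rw [← hye]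
        exact (hf1 y hy).1
      show dist (pos x) (pos (g (f x))) ≤ 2 ^ (L + 1 + 1)
      calc dist (pos x) (pos (g (f x))) ≤ dist (pos x) (pos (f x)) + dist (pos (f x)) (pos (g (f x))) :=
            dist_triangle _ _ _
        _ ≤ 2 ^ (L + 1) + 2 ^ (L + 1) := add_le_add (hf1 x hx).2 h1.2
        _ = _ := by ring
    · rw [himg] at ht
      have htT : t ∈ S.image f := by
        obtain ⟨u, hu, rfl⟩ := Finset.mem_image.1 ht
        exact (hg1 u hu).1
      show g (f t) = t
      rw [hf2 t htT]
      exact hg2 t ht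
    · rw [himg] at ht
      have htT : t ∈ S.image f := by
        obtain ⟨u, hu, rfl⟩ := Finset.mem_image.1 ht
        exact (hg1 u hu).1
      rcases hg3 t ht with hone | hbig
      · have e : S.filter (fun x => g (f x) = t) = S.filter (fun x => f x = t) := by
          ext x
          simp only [Finset.mem_filter]
          refine and_congr_right fun hx => ⟨fun h => ?_, fun h => ?_⟩
          · have : f x ∈ (S.image f).filter (fun u => g u = t) :=
              Finset.mem_filter.2 ⟨Finset.mem_image_of_mem f hx, h⟩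
            rw [hone, Finset.mem_singleton] at this
            exact this
          · rw [h]; exact hg2 t ht
        rcases hf3 t htT with h | ⟨l, hl, hc, hr⟩
        · exact Or.inl (e.trans h)
        · refine Or.inr ⟨l, by omega, by rw [e]; exact hc, fun x hx hxt => hr x hx ?_⟩
          have : x ∈ S.filter (fun x => g (f x) = t) := Finset.mem_filter.2 ⟨hx, hxt⟩
          rw [e] at this
          exact (Finset.mem_filter.1 this).2
      · refine Or.inr ⟨L + 1, le_rfl, ?_, fun x hx hxt => ?_⟩
        · have hsub : (S.image f).filter (fun u => g u = t) ⊆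
              (S.filter fun x => g (f x) = t).image f := by
            intro u hu
            obtain ⟨hu1, hu2⟩ := Finset.mem_filter.1 hu
            obtain ⟨x, hx, rfl⟩ := Finset.mem_image.1 hu1
            exact Finset.mem_image_of_mem f (Finset.mem_filter.2 ⟨hx, hu2⟩)
          have h2 := hbig.trans ((Finset.card_le_card hsub).trans Finset.card_image_le)
          have h3 : ((lvlCap (L + 1) : ℕ) : ℝ) ≤ ((S.filter fun x => g (f x) = t).card : ℝ) := by
            exact_mod_cast (Nat.le_succ _).trans h2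
          exact (Nat.le_ceil _).trans h3
        · have h1 := hg1 _ (Finset.mem_image_of_mem f hx)
          calc dist (pos x) (pos t) ≤ dist (pos x) (pos (f x)) + dist (pos (f x)) (pos t) :=
                dist_triangle _ _ _
            _ ≤ 2 ^ (L + 1) + 2 ^ (L + 1) := add_le_add (hf1 x hx).2 (hxt ▸ h1.2)
            _ = _ := by ring
    · intro l h1 h2 z
      rw [himg]
      rcases Nat.lt_or_eq_of_le h2 with h | rfl
      · refine (Finset.card_le_card (Finset.filter_subset_filter _ ?_)).trans (hf4 l h1 (by omega) z)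
        intro t ht
        obtain ⟨u, hu, rfl⟩ := Finset.mem_image.1 ht
        exact (hg1 u hu).1
      · exact hg4 z

lemma lvlCap_term (l : ℕ) (hl : 2 ≤ l) :
    ((lvlCap l : ℝ) + 1) * Real.exp (-(33 * 4 ^ (l - 2))) ≤ 3 * (1/2) ^ l := by
  obtain ⟨i, rfl⟩ : ∃ i, l = i + 2 := ⟨l - 2, by omega⟩
  have e : (4:ℝ) ^ (i + 2) = 16 * 4 ^ i := by ring
  have h1 : (lvlCap (i + 2) : ℝ) + 1 ≤ 3 * Real.exp (16 * 4 ^ i) := by
    have h := Nat.ceil_lt_add_one (Real.exp_pos ((4:ℝ) ^ (i + 2))).le
    rw [e] at h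
    have h2 : 1 ≤ Real.exp (16 * (4:ℝ) ^ i) := Real.one_le_exp (by positivity)
    unfold lvlCap
    rw [e]
    linarith
  rw [Nat.add_sub_cancel]
  calc ((lvlCap (i + 2) : ℝ) + 1) * Real.exp (-(33 * 4 ^ i))
      ≤ 3 * Real.exp (16 * 4 ^ i) * Real.exp (-(33 * 4 ^ i)) :=
        mul_le_mul_of_nonneg_right h1 (Real.exp_pos _).le
    _ = 3 * Real.exp (-(17 * 4 ^ i)) := by rw [mul_assoc, ← Real.exp_add]; ring_nf
    _ ≤ 3 * (1/2) ^ (i + 2) := by
        refine mul_le_mul_of_nonneg_left ?_ (by norm_num)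
        have h3 : ((i:ℝ) + 2) ≤ 17 * 4 ^ i := by
          have h4 : (i:ℝ) + 1 ≤ 4 ^ i := by
            have := one_add_mul_le_pow (show (-2:ℝ) ≤ 3 by norm_num) i
            norm_num at this
            linarith [(Nat.cast_nonneg i : (0:ℝ) ≤ i)]
          linarith [pow_pos (show (0:ℝ) < 4 by norm_num) i]
        calc Real.exp (-(17 * 4 ^ i)) ≤ Real.exp (((i + 2 : ℕ) : ℝ) * (-1)) := by
              refine Real.exp_le_exp.2 ?_; push_cast; linarith
          _ = Real.exp (-1) ^ (i + 2) := Real.exp_nat_mul _ _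
          _ ≤ _ := by
              refine pow_le_pow_left₀ (Real.exp_pos _).le ?_ _
              rw [Real.exp_neg, one_div]
              exact inv_anti₀ (by norm_num) (by linarith [Real.add_one_le_exp (1:ℝ)])

/-- Sparse representatives give bounded Gaussian row sums. -/
theorem row_sum_le (pos : ι → β) (T : Finset ι) {L : ℕ} (hL : 2 ≤ L) (hT : T.card ≤ lvlCap L)
    (hcnt : ∀ l, 1 ≤ l → l ≤ L → ∀ z : β,
      (T.filter fun t => dist (pos t) z ≤ 2 ^ l / 2).card ≤ lvlCap l + 1) (z : β) :
    ∑ t ∈ T, Real.exp (-(33 * dist (pos t) z ^ 2)) ≤ 100 := by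
  set a : ℕ → ℝ := fun l => if l ≤ 1 then 1 else Real.exp (-(33 * 4 ^ (l - 2))) with ha
  have ha0 : ∀ l, 0 ≤ a l := fun l => by simp only [ha]; split_ifs <;> positivity
  have hkey : ∀ t, Real.exp (-(33 * dist (pos t) z ^ 2)) ≤
      (∑ l ∈ Finset.Icc 1 L, if dist (pos t) z ≤ 2 ^ l / 2 then a l else 0) + a (L + 1) := by
    intro t
    have hnn : 0 ≤ ∑ l ∈ Finset.Icc 1 L, if dist (pos t) z ≤ 2 ^ l / 2 then a l else 0 :=
      Finset.sum_nonneg fun l _ => by split_ifs <;> simp [ha0 l]
    have hfar : ∀ l, 2 ≤ l → ¬ dist (pos t) z ≤ 2 ^ (l - 1) / 2 →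
        Real.exp (-(33 * dist (pos t) z ^ 2)) ≤ a l := by
      intro l hl h
      simp only [ha, if_neg (show ¬ l ≤ 1 by omega)]
      refine Real.exp_le_exp.2 (neg_le_neg (mul_le_mul_of_nonneg_left ?_ (by norm_num)))
      obtain ⟨i, rfl⟩ : ∃ i, l = i + 2 := ⟨l - 2, by omega⟩
      have h' : (2:ℝ) ^ i ≤ dist (pos t) z := by
        have := not_le.1 h
        rw [show i + 2 - 1 = i + 1 by omega, pow_succ] at this
        linarith
      rw [Nat.add_sub_cancel, show (4:ℝ) = 2 ^ 2 by norm_num, ← pow_mul, mul_comm, pow_mul]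
      exact pow_le_pow_left₀ (by positivity) h' 2
    by_cases hex : ∃ l, 1 ≤ l ∧ l ≤ L ∧ dist (pos t) z ≤ 2 ^ l / 2
    · set l := Nat.find hex
      obtain ⟨h1, h2, h3⟩ := Nat.find_spec hex
      have hs : a l ≤ ∑ l ∈ Finset.Icc 1 L, if dist (pos t) z ≤ 2 ^ l / 2 then a l else 0 := by
        refine le_trans (le_of_eq (if_pos h3).symm) (Finset.single_le_sum
          (f := fun l => if dist (pos t) z ≤ 2 ^ l / 2 then a l else 0)
          (fun i _ => by split_ifs <;> simp [ha0 i]) (Finset.mem_Icc.2 ⟨h1, h2⟩))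
      refine le_trans ?_ (hs.trans (le_add_of_nonneg_right (ha0 _)))
      rcases Nat.lt_or_ge l 2 with hl | hl
      · simp only [ha, if_pos (show l ≤ 1 by omega)]
        exact Real.exp_le_one_iff.2 (by linarith [sq_nonneg (dist (pos t) z)])
      · exact hfar l hl fun h => Nat.find_min hex (show l - 1 < l by omega)
          ⟨by omega, by omega, h⟩
    · push Not at hex
      refine le_trans ?_ (le_add_of_nonneg_left hnn)
      exact hfar (L + 1) (by omega) (not_le.2 (hex L (by omega) le_rfl))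
  refine (Finset.sum_le_sum fun t _ => hkey t).trans ?_
  rw [Finset.sum_add_distrib, Finset.sum_comm, Finset.sum_const, nsmul_eq_mul]
  have h1 : ∀ l ∈ Finset.Icc 1 L, (∑ t ∈ T, if dist (pos t) z ≤ 2 ^ l / 2 then a l else 0) ≤
      (if l = 1 then 84 else 0) + 3 * (1/2) ^ l := by
    intro l hl
    obtain ⟨hl1, hl2⟩ := Finset.mem_Icc.1 hl
    rw [← Finset.sum_filter, Finset.sum_const, nsmul_eq_mul]
    have hc : ((T.filter fun t => dist (pos t) z ≤ 2 ^ l / 2).card : ℝ) ≤ (lvlCap l : ℝ) + 1 := by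
      exact_mod_cast hcnt l hl1 hl2 z
    rcases Nat.lt_or_ge l 2 with h | h
    · have : l = 1 := by omega
      subst this
      simp only [ha, le_refl, if_true, mul_one]
      refine hc.trans ?_
      have h5 : Real.exp ((4:ℝ) ^ 1) ≤ 81 := by
        rw [pow_one, show (4:ℝ) = ((4:ℕ):ℝ) * 1 by norm_num, Real.exp_nat_mul]
        exact (pow_le_pow_left₀ (Real.exp_pos _).le Real.exp_one_lt_three.le 4).trans (by norm_num)
      have h6 := Nat.ceil_lt_add_one (Real.exp_pos ((4:ℝ) ^ 1)).le
      have h7 : ((lvlCap 1 : ℕ) : ℝ) ≤ 82 := by unfold lvlCap; linarith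
      rw [pow_one]
      linarith
    · rw [if_neg (show l ≠ 1 by omega), zero_add]
      refine (mul_le_mul_of_nonneg_right hc (ha0 l)).trans ?_
      simp only [ha, if_neg (show ¬ l ≤ 1 by omega)]
      exact lvlCap_term l h
  have h2 : (T.card : ℝ) * a (L + 1) ≤ 3 := by
    have e1 : (T.card : ℝ) ≤ (lvlCap L : ℝ) + 1 := by
      have : (T.card : ℝ) ≤ lvlCap L := by exact_mod_cast hT
      linarith
    refine (mul_le_mul_of_nonneg_right e1 (ha0 _)).trans ?_
    have e2 : a (L + 1) ≤ Real.exp (-(33 * 4 ^ (L - 2))) := by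
      simp only [ha, if_neg (show ¬ L + 1 ≤ 1 by omega)]
      exact Real.exp_le_exp.2 (neg_le_neg (mul_le_mul_of_nonneg_left
        (pow_le_pow_right₀ (by norm_num) (by omega)) (by norm_num)))
    refine (mul_le_mul_of_nonneg_left e2 (by positivity)).trans ((lvlCap_term L hL).trans ?_)
    exact mul_le_of_le_one_right (by norm_num) (pow_le_one₀ (by norm_num) (by norm_num))
  have h3 : ∑ l ∈ Finset.Icc 1 L, (3:ℝ) * (1/2) ^ l ≤ 6 := by
    rw [← Finset.mul_sum]
    have h4 : ∑ l ∈ Finset.Icc 1 L, (1/2:ℝ) ^ l ≤ ∑ l ∈ Finset.range (L + 1), (1/2:ℝ) ^ l :=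
      Finset.sum_le_sum_of_subset_of_nonneg
        (fun l hl => Finset.mem_range.2 (by have := (Finset.mem_Icc.1 hl).2; omega))
        (fun _ _ _ => by positivity)
    linarith [sum_geometric_two_le (L + 1)]
  have h4 := Finset.sum_le_sum h1
  rw [Finset.sum_add_distrib, Finset.sum_ite_eq' (Finset.Icc 1 L) 1,
    if_pos (Finset.mem_Icc.2 ⟨le_rfl, by omega⟩)] at h4
  linarith

end Vale.Agent.P230.Lower
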