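import Mathlib
import Vale.Agent.P230.Lower.Defs
import Vale.Agent.P230.Lower.Merge

/-! Slots of one configuration and their cap probabilities. -/

namespace Vale.Agent.P230.Lower

open MeasureTheory Finset Vale.Agent.P230

/-- `σ + 2`. -/
noncomputable def Lam : ℝ := sg + 2

/-- Region in which a pool vector cuts off `y`. -/
def Reg {n : ℕ} (y : Fin n → ℝ) : Set (Fin n → ℝ) :=
  {g | tau n < dotp g y ∧ nsq g ≤ (4 * sg * n) ^ 2}

lemma measurableSet_Reg {n : ℕ} (y : Fin n → ℝ) : MeasurableSet (Reg y) :=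
  (measurableSet_cap y (tau n)).inter
    (measurableSet_le (f := fun g : Fin n → ℝ => nsq g) (by unfold nsq; fun_prop) measurable_const)

/-- Numerical requirements used for slots. -/
structure SlotBig (n : ℕ) (K0 : ℝ) : Prop where
  hn : 16 ≤ n
  hK : 1 ≤ K0
  hlog : Real.log (2 * K0) ≤ qq n
  hqq : 8 * Lam + 6 ≤ qq n
  hnorm : Real.sqrt 2 ^ n * Real.exp (-((4 * sg * n) ^ 2 / 4)) ≤
    Real.exp (-(15 * Lam ^ 2 * qq n)) * tailP (tau n / rad n) / 8

lemma s0_bounds {n : ℕ} (hn : 16 ≤ n) :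
    1 ≤ tau n / rad n ∧ tau n / rad n + 1 ≤ Lam * Real.sqrt n ∧ Real.sqrt n ≤ rad n ∧
      sg ^ 2 / 16 ≤ tau n ^ 2 / (8 * rad n ^ 4) := by
  have hn0 : (0:ℝ) < n := by exact_mod_cast (show 0 < n by omega)
  have h16 : (16:ℝ) ≤ n := by exact_mod_cast hn
  set s := Real.sqrt (n:ℝ) with hs
  have hss : s * s = n := Real.mul_self_sqrt hn0.le
  have hs4 : 4 ≤ s := Real.le_sqrt_of_sq_le (by linarith)
  have hη : 1 / (n:ℝ) ^ 2 ≤ s / 16 := by
    rw [div_le_div_iff₀ (by positivity) (by norm_num)]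
    nlinarith
  have hη0 : 0 ≤ 1 / (n:ℝ) ^ 2 := by positivity
  have hr1 : s ≤ rad n := by rw [rad, ← hs]; linarith
  have hr2 : rad n ≤ 17 / 16 * s := by rw [rad, ← hs]; linarith
  have hr0 : 0 < rad n := by linarith
  have hsg : sg = 16384 := rfl
  refine ⟨?_, ?_, hr1, ?_⟩
  · rw [one_le_div hr0, tau, hsg]; nlinarith
  · have : tau n / rad n ≤ tau n / s := div_le_div_of_nonneg_left (tau_pos n).le (by linarith) hr1
    have e : tau n / s = sg * s + 1 / s := by
      rw [tau, ← hss]; field_simp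
    have h1s : 1 / s ≤ 1 := by rw [div_le_one (by linarith)]; linarith
    rw [Lam, add_mul]
    linarith
  · have h4 : rad n ^ 4 ≤ 2 * (n:ℝ) ^ 2 := by
      refine (pow_le_pow_left₀ hr0.le hr2 4).trans ?_
      rw [mul_pow, ← hss]
      nlinarith [pow_pos (show 0 < s by linarith) 4]
    have h5 : (sg * n) ^ 2 ≤ tau n ^ 2 :=
      pow_le_pow_left₀ (mul_nonneg (by rw [hsg]; norm_num) hn0.le) (by rw [tau]; linarith) 2
    rw [div_le_div_iff₀ (by norm_num) (by positivity)]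
    calc sg ^ 2 * (8 * rad n ^ 4) ≤ sg ^ 2 * (8 * (2 * (n:ℝ) ^ 2)) := by gcongr
      _ = (sg * n) ^ 2 * 16 := by ring
      _ ≤ _ := by linarith

lemma Nw_pos (n : ℕ) : 0 < Nw n := one_div_pos.2 (tailP_pos _)

lemma Reg_le {n : ℕ} (hn : 0 < n) (y : Fin n → ℝ) (hy : nrm y ≤ rad n) :
    Nw n * (γn n).real (Reg y) ≤ 1 := by
  have h := (measureReal_mono (μ := γn n) (Set.inter_subset_left : Reg y ⊆ _)).trans
    (cap_le y (rad_pos hn) ((nrm_le_iff y (rad_pos hn).le).1 hy) (tau_pos n).le)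
  rw [Nw, one_div_mul_eq_div, div_le_one (tailP_pos _)]
  exact h

lemma Reg_joint {n : ℕ} (hn : 16 ≤ n) (y y' : Fin n → ℝ) (hy : nrm y ≤ rad n)
    (hy' : nrm y' ≤ rad n) :
    Nw n * (γn n).real (Reg y ∩ Reg y') ≤ Real.exp (-(sg ^ 2 / 16 * nrm (y - y') ^ 2)) := by
  have hnp : 0 < n := by omega
  have h := (measureReal_mono (μ := γn n)
    (show Reg y ∩ Reg y' ⊆ {g | tau n < dotp g y ∧ tau n < dotp g y'} from
      fun g hg => ⟨hg.1.1, hg.2.1⟩)).trans
    (joint_le y y' (rad_pos hnp) ((nrm_le_iff y (rad_pos hnp).le).1 hy)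
      ((nrm_le_iff y' (rad_pos hnp).le).1 hy') (tau_pos n))
  rw [Nw, one_div_mul_eq_div, div_le_iff₀ (tailP_pos _)]
  refine h.trans ?_
  rw [mul_comm]
  refine mul_le_mul_of_nonneg_right (Real.exp_le_exp.2 (neg_le_neg ?_)) (tailP_nonneg _)
  rw [sq_nrm, mul_div_right_comm]
  exact mul_le_mul_of_nonneg_right (s0_bounds hn).2.2.2 (nsq_nonneg _)

lemma dot_unit_lower {n : ℕ} (hn : 0 < n) (y y0 : Fin n → ℝ) {r R A : ℝ} (hr : 0 < r)
    (hrn : (n:ℝ) ≤ r ^ 2) (hA : 0 < 1 - A / n) (hR : nrm (y - y0) ≤ R) (h0 : 0 < nrm y0)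
    (hy : r * (1 - A / n) ≤ nrm y) (hy0 : r * (1 - A / n) ≤ nrm y0) (hy0r : nrm y0 ≤ r)
    (hρ : 0 ≤ 1 - (2 * A / n + R ^ 2 / (2 * n))) :
    r * (1 - (2 * A / n + R ^ 2 / (2 * n))) ≤ dotp (fun i => y0 i / nrm y0) y := by
  have hn0 : (0:ℝ) < n := by exact_mod_cast hn
  have e : 2 * nrm y0 * dotp (fun i => y0 i / nrm y0) y = nsq y + nsq y0 - nsq (y - y0) := by
    simp only [dotp, nsq, mul_sum, ← sum_add_distrib, ← sum_sub_distrib, Pi.sub_apply]
    refine sum_congr rfl fun i _ => ?_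
    field_simp
    ring
  set ρ := 2 * A / n + R ^ 2 / (2 * n) with hρe
  refine le_of_mul_le_mul_left ?_ (show 0 < 2 * nrm y0 by positivity)
  rw [e]
  have h1 : (r * (1 - A / n)) ^ 2 ≤ nsq y := by
    rw [← sq_nrm]; exact pow_le_pow_left₀ (by positivity) hy 2
  have h2 : (r * (1 - A / n)) ^ 2 ≤ nsq y0 := by
    rw [← sq_nrm]; exact pow_le_pow_left₀ (by positivity) hy0 2
  have h3 : nsq (y - y0) ≤ R ^ 2 := by
    rw [← sq_nrm]; exact pow_le_pow_left₀ (nrm_nonneg _) hR 2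
  have h4 : 2 * nrm y0 * (r * (1 - ρ)) ≤ 2 * r ^ 2 * (1 - ρ) := by
    have := mul_le_mul_of_nonneg_left hy0r (show 0 ≤ r * (1 - ρ) * 2 by positivity)
    linarith
  have h5 : 2 * r ^ 2 * (1 - ρ) ≤ 2 * (r * (1 - A / n)) ^ 2 - R ^ 2 := by
    have e5 : 2 * (r * (1 - A / n)) ^ 2 - R ^ 2 - 2 * r ^ 2 * (1 - ρ) =
        2 * r ^ 2 * (A / n) ^ 2 + R ^ 2 * (r ^ 2 / n - 1) := by
      rw [hρe]; field_simp; ring
    have h6 : 0 ≤ r ^ 2 / n - 1 := by rw [sub_nonneg, one_le_div hn0]; exact hrn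
    linarith [mul_nonneg (sq_nonneg R) h6, mul_nonneg (sq_nonneg r) (sq_nonneg (A / n))]
  linarith

lemma orth_part_le {n : ℕ} (y y0 : Fin n → ℝ) (h0 : 0 < nrm y0) :
    nsq (fun i => y i - dotp (fun i => y0 i / nrm y0) y * (y0 i / nrm y0)) ≤ nsq (y - y0) := by
  set t := dotp (fun i => y0 i / nrm y0) y with ht
  set u : Fin n → ℝ := fun i => y0 i / nrm y0 with hu
  have hu1 : nsq u = 1 := by
    simp only [hu, nsq, div_pow, ← sum_div]
    rw [← nsq, ← sq_nrm]
    exact div_self (by positivity)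
  have e1 : nsq (fun i => y i - t * u i) = nsq y - 2 * t * dotp u y + t ^ 2 * nsq u := by
    simp only [nsq, dotp, mul_sum, ← sum_sub_distrib, ← sum_add_distrib]
    exact sum_congr rfl fun i _ => by ring
  have e2 : nsq (y - y0) = nsq y - 2 * nrm y0 * t + nsq y0 := by
    rw [ht]
    simp only [nsq, dotp, mul_sum, ← sum_sub_distrib, ← sum_add_distrib, Pi.sub_apply, hu]
    exact sum_congr rfl fun i _ => by field_simp; ring
  show nsq (fun i => y i - t * u i) ≤ _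
  rw [e1, e2, ← ht, hu1, ← sq_nrm y0]
  linarith [sq_nonneg (t - nrm y0)]

/-- The threshold shift for a clump. -/
lemma shift_bound {s0 ρ D r sq A R L n : ℝ} (hs0 : 0 ≤ s0) (hs : s0 + 1 ≤ Lam * sq) (hsq : 0 < sq)
    (hn : sq * sq = n) (hr : sq ≤ r) (hD0 : 0 ≤ D) (hD : D ≤ 3 * L)
    (hρe : ρ = 2 * A / n + R ^ 2 / (2 * n)) (hρ0 : 0 ≤ ρ) (hρh : ρ ≤ 1 / 2) :
    0 ≤ (s0 * ρ + D / r) / (1 - ρ) ∧
      (s0 * ρ + D / r) / (1 - ρ) ≤ (4 * Lam * A + Lam * R ^ 2 + 6 * L) / sq := by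
  have hr0 : 0 < r := hsq.trans_le hr
  have h0 : 0 ≤ s0 * ρ + D / r := by positivity
  refine ⟨div_nonneg h0 (by linarith), ?_⟩
  have h1 : (s0 * ρ + D / r) / (1 - ρ) ≤ 2 * (s0 * ρ + D / r) := by
    rw [div_le_iff₀ (by linarith)]
    calc s0 * ρ + D / r = (s0 * ρ + D / r) * 1 := (mul_one _).symm
      _ ≤ (s0 * ρ + D / r) * (2 * (1 - ρ)) := mul_le_mul_of_nonneg_left (by linarith) h0
      _ = _ := by ring
  have h2 : s0 * ρ ≤ Lam * sq * ρ := mul_le_mul_of_nonneg_right (by linarith) hρ0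
  have h3 : D / r ≤ 3 * L / sq := div_le_div₀ (by linarith) hD hsq hr
  have e : 2 * (Lam * sq * ρ + 3 * L / sq) = (4 * Lam * A + Lam * R ^ 2 + 6 * L) / sq := by
    rw [hρe, ← hn]; field_simp; ring
  linarith

lemma small_exponents {n : ℕ} {K0 : ℝ} (hB : SlotBig n K0) {A R L : ℝ} (hA0 : 0 ≤ A) (hA : A ≤ qq n)
    (hR2 : R ^ 2 ≤ 4 * L) (hlog : L ≤ qq n) :
    4 * A + R ^ 2 ≤ n ∧ 4 * Lam * A + Lam * R ^ 2 + 6 * L ≤ Real.sqrt n := by
  have hn0 : (0:ℝ) ≤ n := Nat.cast_nonneg _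
  have h16 : (16:ℝ) ≤ n := by exact_mod_cast hB.hn
  have hL8 : 8 ≤ Lam := by norm_num [Lam, sg]
  have hq := hB.hqq
  have hqq : qq n * qq n = Real.sqrt n := Real.mul_self_sqrt (Real.sqrt_nonneg _)
  have hss : Real.sqrt n * Real.sqrt n = n := Real.mul_self_sqrt hn0
  have hs4 : 4 ≤ Real.sqrt n := Real.le_sqrt_of_sq_le (by linarith)
  have h4 := mul_le_mul_of_nonneg_right hq (qq_nonneg n)
  have h1 := mul_le_mul_of_nonneg_left hA (show 0 ≤ 4 * Lam by linarith)
  have h2 := mul_le_mul_of_nonneg_left hR2 (show 0 ≤ Lam by linarith)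
  have h3 := mul_le_mul_of_nonneg_left hlog (show 0 ≤ 4 * Lam + 6 by linarith)
  refine ⟨?_, by linarith⟩
  have h5 : Real.sqrt n ≤ Real.sqrt n * Real.sqrt n := le_mul_of_one_le_left (Real.sqrt_nonneg _) (by linarith)
  have h6 : 8 * qq n ≤ (8 * Lam + 6) * qq n := mul_le_mul_of_nonneg_right (by linarith) (qq_nonneg n)
  linarith

/-- Tail at the shifted threshold. -/
lemma shifted_tail {s0 δ X : ℝ} (hs : 1 ≤ s0) (hδ0 : 0 ≤ δ) (hδ1 : δ ≤ 1) (hX : (s0 + 1) * δ ≤ X) :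
    Real.exp (-X - 1 / 2) / 2 * tailP s0 ≤ tailP (s0 + δ) := by
  refine le_trans ?_ (tailP_add_ge hs hδ0)
  refine mul_le_mul_of_nonneg_right (div_le_div_of_nonneg_right (Real.exp_le_exp.2 ?_)
    (by norm_num)) (tailP_nonneg _)
  have : δ ^ 2 ≤ 1 := pow_le_one₀ hδ0 hδ1
  linarith

/-- A clump of vectors close to the sphere is cut off with good probability. -/
lemma region_lower {n : ℕ} {K0 : ℝ} (hB : SlotBig n K0) {ι : Type*} (M : Finset ι)
    (y : ι → Fin n → ℝ) {j0 : ι} (hj0 : j0 ∈ M) {R A : ℝ}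
    (hR2 : R ^ 2 ≤ 4 * Real.log (2 * M.card)) (hR0 : 0 < R)
    (hd : ∀ j ∈ M, nrm (y j - y j0) ≤ R) (hA0 : 0 ≤ A) (hA : A ≤ qq n)
    (hy : ∀ j ∈ M, nrm (y j) ≤ rad n ∧ rad n * (1 - A / n) ≤ nrm (y j))
    (hlog : Real.log (2 * M.card) ≤ qq n) :
    Real.exp (-(4 * Lam ^ 2 * A + 10 * Lam ^ 2 * Real.log (2 * M.card) + 3)) ≤
      Nw n * (γn n).real {g | ∀ j ∈ M, g ∈ Reg (y j)} := by
  have hn := hB.hn
  have hnp : 0 < n := by omega
  have hn0 : (0:ℝ) < n := by exact_mod_cast hnp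
  obtain ⟨hs1, hs2, hr1, -⟩ := s0_bounds hn
  set s0 := tau n / rad n with hs0
  have hr0 : 0 < rad n := rad_pos hnp
  set L := Real.log (2 * (M.card : ℝ)) with hL
  set w := Real.sqrt (n:ℝ) with hw
  have hw0 : 0 < w := Real.sqrt_pos.2 hn0
  have hww : w * w = n := Real.mul_self_sqrt hn0.le
  have hLam : 8 ≤ Lam := by norm_num [Lam, sg]
  have hM1 : (1:ℝ) ≤ M.card := by exact_mod_cast card_pos.2 ⟨j0, hj0⟩
  have hL0 : 0 < L := Real.log_pos (by linarith)
  have hq1 : 1 ≤ qq n := by linarith [hB.hqq]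
  obtain ⟨hAR, hnum⟩ := small_exponents hB hA0 hA hR2 hlog
  set ρ := 2 * A / n + R ^ 2 / (2 * n) with hρ
  have hρ0 : 0 ≤ ρ := by positivity
  have hρh : ρ ≤ 1 / 2 := by
    have e : ρ = (4 * A + R ^ 2) / n / 2 := by rw [hρ]; field_simp; ring
    rw [e]
    have := (div_le_one hn0).2 hAR
    linarith
  set D := R * Real.sqrt (2 * L) with hD
  have hD0 : 0 ≤ D := mul_nonneg hR0.le (Real.sqrt_nonneg _)
  have hD3 : D ≤ 3 * L := by
    refine le_of_pow_le_pow_left₀ two_ne_zero (by linarith) ?_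
    rw [hD, mul_pow, Real.sq_sqrt (by linarith)]
    have := mul_le_mul_of_nonneg_right hR2 hL0.le
    linarith [sq_nonneg L]
  obtain ⟨hδ0, hδb⟩ := shift_bound (r := rad n) (zero_le_one.trans hs1) hs2 hw0 hww hr1 hD0 hD3 hρ hρ0 hρh
  set δ := (s0 * ρ + D / rad n) / (1 - ρ) with hδ
  set T := s0 + δ with hT
  have hTe : T * (rad n * (1 - ρ)) = tau n + D := by
    have : (1 - ρ) ≠ 0 := by linarith
    have := hr0.ne'
    rw [hT, hδ, hs0]; field_simp; ring
  have hδ1 : δ ≤ 1 := hδb.trans ((div_le_one hw0).2 hnum)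
  set X := 4 * Lam ^ 2 * A + 10 * Lam ^ 2 * L with hX
  have hmain : (s0 + 1) * δ ≤ X := by
    calc (s0 + 1) * δ ≤ Lam * w * ((4 * Lam * A + Lam * R ^ 2 + 6 * L) / w) :=
          mul_le_mul hs2 hδb hδ0 (mul_nonneg (by linarith) hw0.le)
      _ = 4 * Lam ^ 2 * A + Lam ^ 2 * R ^ 2 + 6 * Lam * L := by field_simp
      _ ≤ X := by
          have h2 := mul_le_mul_of_nonneg_left hR2 (sq_nonneg Lam)
          have h3 : 6 * Lam * L ≤ 6 * Lam ^ 2 * L := by
            refine mul_le_mul_of_nonneg_right ?_ hL0.le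
            have := mul_le_mul_of_nonneg_left (show 1 ≤ Lam by linarith) (show 0 ≤ Lam by linarith)
            linarith
          rw [hX]; linarith
  have hAn : 0 < 1 - A / n := by
    rw [sub_pos, div_lt_one hn0]
    have : 0 < R ^ 2 := pow_pos hR0 2
    linarith
  have hy0p : 0 < nrm (y j0) := lt_of_lt_of_le (mul_pos hr0 hAn) (hy j0 hj0).2
  set u : Fin n → ℝ := fun i => y j0 i / nrm (y j0) with hu
  have hu1 : nsq u = 1 := by
    simp only [hu, nsq, div_pow, ← sum_div]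
    rw [← nsq, ← sq_nrm]
    exact div_self (pow_pos hy0p 2).ne'
  have hrn : (n:ℝ) ≤ rad n ^ 2 := by
    rw [← hww, pow_two]; exact mul_le_mul hr1 hr1 hw0.le hr0.le
  have hdot : ∀ j ∈ M, rad n * (1 - ρ) ≤ dotp u (y j) := fun j hj =>
    dot_unit_lower hnp (y j) (y j0) hr0 hrn hAn (hd j hj) hy0p (hy j hj).2 (hy j0 hj0).2
      (hy j0 hj0).1 (by linarith)
  have hTp : 0 ≤ T := by linarith
  have hclump := clump_lower (T := T) (R2 := R ^ 2) M y u hu1 hD0
    (fun j hj => lt_of_lt_of_le (mul_pos hr0 (by linarith)) (hdot j hj))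
    (fun j hj => hTe.symm.le.trans (mul_le_mul_of_nonneg_left (hdot j hj) hTp))
    (fun j hj => (orth_part_le (y j) (y j0) hy0p).trans
      ((sq_nrm _).symm.le.trans (pow_le_pow_left₀ (nrm_nonneg _) (hd j hj) 2)))
  have hhalf : (M.card : ℝ) * Real.exp (-(D ^ 2 / (2 * R ^ 2))) = 1 / 2 := by
    rw [hD, mul_pow, Real.sq_sqrt (by linarith),
      show R ^ 2 * (2 * L) / (2 * R ^ 2) = L by field_simp, Real.exp_neg, hL,
      Real.exp_log (by linarith)]
    field_simp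
  rw [hhalf] at hclump
  have hT' := shifted_tail hs1 hδ0 hδ1 hmain
  rw [← hT] at hT'
  set bad := {g : Fin n → ℝ | (4 * sg * n) ^ 2 < nsq g}
  have hbad : (γn n).real bad ≤ Real.exp (-(15 * Lam ^ 2 * qq n)) * tailP s0 / 8 :=
    (big_norm_le _).trans hB.hnorm
  have hX15 : Real.exp (-(15 * Lam ^ 2 * qq n)) ≤ Real.exp (-X - 1 / 2) := by
    refine Real.exp_le_exp.2 ?_
    have h1 := mul_le_mul_of_nonneg_left hA (show 0 ≤ 4 * Lam ^ 2 by positivity)
    have h2 := mul_le_mul_of_nonneg_left hlog (show 0 ≤ 10 * Lam ^ 2 by positivity)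
    have h3 : 1 / 2 ≤ Lam ^ 2 * qq n := by
      have : 1 ≤ Lam ^ 2 := one_le_pow₀ (by linarith)
      have := mul_le_mul this hq1 zero_le_one (by linarith)
      linarith
    rw [hX]; linarith
  have hsub : {g : Fin n → ℝ | ∀ j ∈ M, tau n < dotp g (y j)} ⊆
      {g | ∀ j ∈ M, g ∈ Reg (y j)} ∪ bad := by
    intro g hg
    by_cases h : (4 * sg * n) ^ 2 < nsq g
    · exact Or.inr h
    · exact Or.inl fun j hj => ⟨hg j hj, not_lt.1 h⟩
  have hun := (measureReal_mono (μ := γn n) hsub).trans (measureReal_union_le _ _)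
  have hfinal : Real.exp (-X - 1 / 2) / 8 * tailP s0 ≤
      (γn n).real {g | ∀ j ∈ M, g ∈ Reg (y j)} := by
    have := mul_le_mul_of_nonneg_right hX15 (tailP_nonneg s0)
    linarith
  rw [Nw, one_div_mul_eq_div, le_div_iff₀ (tailP_pos _)]
  refine le_trans (mul_le_mul_of_nonneg_right ?_ (tailP_nonneg _)) hfinal
  rw [le_div_iff₀ (by norm_num), show -(4 * Lam ^ 2 * A + 10 * Lam ^ 2 * L + 3) =
    (-X - 1 / 2) + (-(5 / 2)) by rw [hX]; ring, Real.exp_add, mul_assoc]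
  refine mul_le_of_le_one_right (Real.exp_pos _).le ?_
  rw [Real.exp_neg, inv_mul_le_iff₀ (Real.exp_pos _), mul_one]
  refine le_of_pow_le_pow_left₀ two_ne_zero (Real.exp_pos _).le ?_
  rw [← Real.exp_nat_mul, show ((2:ℕ):ℝ) * (5/2) = ((5:ℕ):ℝ) * 1 by norm_num, Real.exp_nat_mul]
  refine le_trans ?_ (pow_le_pow_left₀ (by norm_num) (le_of_lt Real.exp_one_gt_d9) 5)
  norm_num

section slots

variable {n : ℕ} (P : Finset (Fin n → ℤ)) (k : Fin n → ℤ)

/-- Position of a centre. -/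
noncomputable def pos (p : Fin n → ℤ) : EuclideanSpace ℝ (Fin n) := WithLp.toLp 2 (ppt p)

/-- Number of grouping levels. -/
noncomputable def slotL : ℕ := (Sset P k).card + 2

/-- The grouping map. -/
noncomputable def slotF : (Fin n → ℤ) → (Fin n → ℤ) :=
  (multiscale pos (Sset P k) (slotL P k)).choose

/-- The representatives. -/
noncomputable def slotT : Finset (Fin n → ℤ) := (Sset P k).image (slotF P k)

/-- Representative of a slot. -/
noncomputable def rep (a : Fin (slotT P k).card) : Fin n → ℤ := ((slotT P k).equivFin.symm a).1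

open Classical in
/-- Members of a slot. -/
noncomputable def mem (t : Fin n → ℤ) : Finset (Fin n → ℤ) :=
  (Sset P k).filter fun p => slotF P k p = t

/-- Region of a slot. -/
noncomputable def slotI (a : Fin (slotT P k).card) : Set (Fin n → ℝ) :=
  {g | ∀ p ∈ mem P k (rep P k a), g ∈ Reg (vec k p)}

lemma measurableSet_slotI (a : Fin (slotT P k).card) : MeasurableSet (slotI P k a) := by
  have : slotI P k a = ⋂ p ∈ mem P k (rep P k a), Reg (vec k p) := by
    ext g; simp [slotI]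
  rw [this]
  exact MeasurableSet.biInter (Finset.countable_toSet _) fun p _ => measurableSet_Reg _

lemma rep_mem (a : Fin (slotT P k).card) : rep P k a ∈ slotT P k :=
  ((slotT P k).equivFin.symm a).2

lemma rep_self (a : Fin (slotT P k).card) : rep P k a ∈ mem P k (rep P k a) := by
  obtain ⟨h1, h2, -, -⟩ := (multiscale pos (Sset P k) (slotL P k)).choose_spec
  obtain ⟨p, hp, he⟩ := Finset.mem_image.1 (rep_mem P k a)
  exact Finset.mem_filter.2 ⟨he ▸ (h1 p hp).1, h2 _ (rep_mem P k a)⟩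

lemma slot_cover {p : Fin n → ℤ} (hp : p ∈ Sset P k) :
    ∃ a, p ∈ mem P k (rep P k a) := by
  refine ⟨(slotT P k).equivFin ⟨slotF P k p, mem_image_of_mem _ hp⟩, ?_⟩
  exact Finset.mem_filter.2 ⟨hp, by rw [rep, Equiv.symm_apply_apply]⟩

lemma sum_slots (φ : (Fin n → ℤ) → ℝ) :
    ∑ a, φ (rep P k a) = ∑ t ∈ slotT P k, φ t := by
  rw [← Finset.sum_coe_sort (slotT P k)]
  exact Fintype.sum_equiv (slotT P k).equivFin.symm _ _ fun a => rfl

lemma slotT_card_le : (slotT P k).card ≤ (Sset P k).card := Finset.card_image_le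

lemma slotI_le (hn : 0 < n) (a : Fin (slotT P k).card) :
    Nw n * (γn n).real (slotI P k a) ≤ 1 :=
  (mul_le_mul_of_nonneg_left (measureReal_mono (μ := γn n)
    (show slotI P k a ⊆ Reg (vec k (rep P k a)) from fun g hg => hg _ (rep_self P k a))) (Nw_pos n).le).trans
    (Reg_le hn _ (Finset.mem_filter.1 (Finset.mem_filter.1 (rep_self P k a)).1).2)

lemma dist_pos (p q : Fin n → ℤ) : dist (pos p) (pos q) = nrm (vec k q - vec k p) := by
  rw [dist_eq_norm, pos, pos, ← WithLp.toLp_sub, ← nrm_eq_norm]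
  congr 1
  simp only [vec]; abel

variable {P k}

/-- Lower bounds on slot probabilities: individually and in product. -/
lemma slotI_lower {K0 : ℝ} (hB : SlotBig n K0) (hk : k ∈ goodX K0 P) :
    (∀ a, Real.exp (-(15 * Lam ^ 2 * qq n)) ≤ Nw n * (γn n).real (slotI P k a)) ∧
      Real.exp (-(25 * Lam ^ 2 * K0)) ≤ ∏ a, Nw n * (γn n).real (slotI P k a) := by
  classical
  have hnp : 0 < n := by have := hB.hn; omega
  have hn0 : (0:ℝ) < n := by exact_mod_cast hnp
  obtain ⟨-, hcard, hdsum, hdmax⟩ := Finset.mem_filter.1 hk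
  obtain ⟨-, -, h3, -⟩ := (multiscale pos (Sset P k) (slotL P k)).choose_spec
  have hLam : 2 ≤ Lam := by simp [Lam, sg]
  set d : (Fin n → ℤ) → ℝ := fun p => dep (vec k p) with hd
  have hd0 : ∀ p ∈ Sset P k, 0 ≤ d p := fun p hp =>
    mul_nonneg hn0.le (sub_nonneg.2 ((div_le_one (rad_pos hnp)).2 (Finset.mem_filter.1 hp).2))
  set G : (Fin n → ℤ) → ℝ := fun t => 4 * Lam ^ 2 * (∑ p ∈ mem P k t, d p) +
    20 * Lam ^ 2 * ((mem P k t).card : ℝ) + 3 * ((mem P k t).card : ℝ) with hG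
  have hbound : ∀ a, Real.exp (-(15 * Lam ^ 2 * qq n)) ≤ Nw n * (γn n).real (slotI P k a) ∧
      Real.exp (-(G (rep P k a))) ≤ Nw n * (γn n).real (slotI P k a) := by
    intro a
    set t := rep P k a with ht
    set M := mem P k t with hM
    have htM : t ∈ M := rep_self P k a
    have hMS : M ⊆ Sset P k := Finset.filter_subset _ _
    obtain ⟨j1, hj1, hmax⟩ := M.exists_max_image d ⟨t, htM⟩
    set A := d j1 with hA
    have hm1 : (1:ℝ) ≤ M.card := by exact_mod_cast card_pos.2 ⟨t, htM⟩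
    have hlogK : Real.log (2 * M.card) ≤ qq n := by
      refine le_trans (Real.log_le_log (by positivity) ?_) hB.hlog
      have : (M.card : ℝ) ≤ (Sset P k).card := by exact_mod_cast card_le_card hMS
      linarith
    have hR : ∃ R : ℝ, 0 < R ∧ R ^ 2 ≤ 4 * Real.log (2 * M.card) ∧
        ∀ j ∈ M, dist (pos j) (pos t) ≤ R := by
      rcases h3 t (rep_mem P k a) with h | ⟨l, -, hl, hr⟩
      · refine ⟨1, one_pos, ?_, fun j hj => ?_⟩
        · have : Real.log 2 ≤ Real.log (2 * M.card) := Real.log_le_log (by norm_num) (by linarith)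
          linarith [Real.log_two_gt_d9]
        · have h' : M = {t} := by rw [hM, mem]; exact h
          rw [h', Finset.mem_singleton] at hj
          simp [hj]
      · refine ⟨2 ^ (l + 1), by positivity, ?_, fun j hj => ?_⟩
        · have e : ((2:ℝ) ^ (l + 1)) ^ 2 = 4 * 4 ^ l := by
            rw [← pow_mul, show (4:ℝ) = 2 ^ 2 by norm_num, ← pow_mul, ← pow_add]; ring_nf
          rw [e]
          refine mul_le_mul_of_nonneg_left ?_ (by norm_num)
          rw [Real.le_log_iff_exp_le (by positivity)]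
          have hl' : Real.exp ((4:ℝ) ^ l) ≤ (M.card : ℝ) := hl
          linarith
        · exact hr j (hMS hj) (Finset.mem_filter.1 hj).2
    obtain ⟨R, hR0, hR2, hRd⟩ := hR
    have hy : ∀ j ∈ M, nrm (vec k j) ≤ rad n ∧ rad n * (1 - A / n) ≤ nrm (vec k j) := by
      intro j hj
      refine ⟨(Finset.mem_filter.1 (hMS hj)).2, ?_⟩
      have h := hmax j hj
      have hr := rad_pos hnp
      have h' : 1 - nrm (vec k j) / rad n ≤ A / n := by
        rw [le_div_iff₀ hn0, mul_comm]; exact h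
      have h'' : 1 - A / n ≤ nrm (vec k j) / rad n := by linarith
      rw [le_div_iff₀ hr] at h''
      linarith
    have key := region_lower hB M (vec k) htM hR2 hR0
      (fun j hj => by rw [← dist_pos k, dist_comm]; exact hRd j hj) (hd0 _ (hMS hj1))
      (hdmax _ (hMS hj1)) hy hlogK
    refine ⟨le_trans (Real.exp_le_exp.2 (neg_le_neg ?_)) key,
      le_trans (Real.exp_le_exp.2 (neg_le_neg ?_)) key⟩
    · have h1 := mul_le_mul_of_nonneg_left (hdmax _ (hMS hj1)) (show 0 ≤ 4 * Lam ^ 2 by positivity)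
      have h2 := mul_le_mul_of_nonneg_left hlogK (show 0 ≤ 10 * Lam ^ 2 by positivity)
      have h4 : 3 ≤ Lam ^ 2 * qq n := by
        have h5 : 1 ≤ qq n := by linarith [hB.hqq]
        nlinarith [mul_le_mul_of_nonneg_left h5 (sq_nonneg Lam)]
      linarith
    · have h1 : A ≤ ∑ p ∈ M, d p := Finset.single_le_sum (fun p hp => hd0 p (hMS hp)) hj1
      have h2 : Real.log (2 * M.card) ≤ 2 * M.card := by
        linarith [Real.log_le_sub_one_of_pos (show (0:ℝ) < 2 * M.card by positivity)]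
      have h1' := mul_le_mul_of_nonneg_left h1 (show 0 ≤ 4 * Lam ^ 2 by positivity)
      have h2' := mul_le_mul_of_nonneg_left h2 (show 0 ≤ 10 * Lam ^ 2 by positivity)
      show _ ≤ G t
      simp only [hG, ← hM]
      linarith
  refine ⟨fun a => (hbound a).1, ?_⟩
  refine le_trans ?_ (Finset.prod_le_prod (fun a _ => (Real.exp_pos _).le) fun a _ => (hbound a).2)
  rw [← Real.exp_sum, Real.exp_le_exp, sum_neg_distrib, neg_le_neg_iff, sum_slots P k G]
  have hfib : ∀ f : (Fin n → ℤ) → ℝ, ∑ t ∈ slotT P k, ∑ p ∈ mem P k t, f p = ∑ p ∈ Sset P k, f p :=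
    fun f => Finset.sum_fiberwise_of_maps_to (fun p hp => mem_image_of_mem _ hp) f
  have hcnt : ∑ t ∈ slotT P k, ((mem P k t).card : ℝ) = (Sset P k).card := by
    have := hfib fun _ => 1
    simpa using this
  simp only [hG, sum_add_distrib, ← mul_sum, hfib, hcnt]
  have h1 := mul_le_mul_of_nonneg_left hdsum (show 0 ≤ 4 * Lam ^ 2 by positivity)
  have h2 := mul_le_mul_of_nonneg_left hcard (show 0 ≤ 20 * Lam ^ 2 + 3 by positivity)
  have h4 : 3 * K0 ≤ Lam ^ 2 * K0 :=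
    mul_le_mul_of_nonneg_right (by nlinarith) (by linarith [hB.hK])
  linarith

end slots

end Vale.Agent.P230.Lower
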