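import Mathlib
import Vale.Agent.P230.Lower.Slots
import Vale.Agent.P230.Lower.Count
import Vale.Agent.P230.Lower.Pool

/-! For one configuration a large random pool almost surely defeats it. -/

namespace Vale.Agent.P230.Lower

open MeasureTheory Finset Filter Vale.Agent.P230

/-- The far-distance fraction. -/
noncomputable def bet : ℝ := 1 / 1024

/-- Fraction of trial pairs having centres closer than `D`. -/
noncomputable def frac (n : ℕ) (K0 D : ℝ) : ℝ :=
  2 * K0 * Real.exp (1.2 * n) * (5 * (D + 1) / (2 * Real.sqrt n)) ^ n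

/-- Inflation factor at distance `D`. -/
noncomputable def wFac (n : ℕ) (D : ℝ) : ℝ :=
  Real.exp (30 * Lam ^ 2 * qq n - sg ^ 2 / 16 * D ^ 2)

/-- Numerical requirements for pairs. -/
structure PairBig (n : ℕ) (K0 : ℝ) : Prop extends SlotBig n K0 where
  hW1 : K0 ^ 2 * wFac n (qq n) ≤ 1
  hW2 : K0 ^ 2 * wFac n (bet * Real.sqrt n) ≤ 1
  hJ : Real.exp (55 * Lam ^ 2 * K0) * frac n K0 (qq n) +
    2 * (K0 ^ 2 * wFac n (qq n)) * frac n K0 (bet * Real.sqrt n) +
    2 * (K0 ^ 2 * wFac n (bet * Real.sqrt n)) ≤ Real.exp (-(1.6 * n))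

variable {n : ℕ}

/-- Two trials have centres at relative distance `< D`. -/
def Near (P : Finset (Fin n → ℤ)) (D : ℝ) (k l : Fin n → ℤ) : Prop :=
  ∃ p ∈ Sset P k, ∃ p' ∈ Sset P l, nrm (vec k p - vec l p') < D

lemma rep_in_S (P : Finset (Fin n → ℤ)) (k : Fin n → ℤ) (a : Fin (slotT P k).card) :
    rep P k a ∈ Sset P k := (mem_filter.1 (rep_self P k a)).1

lemma slot_joint (hn : 16 ≤ n) (P : Finset (Fin n → ℤ)) (k l : Fin n → ℤ)
    (a : Fin (slotT P k).card) (b : Fin (slotT P l).card) :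
    Nw n * (γn n).real (slotI P k a ∩ slotI P l b) ≤
      Real.exp (-(sg ^ 2 / 16 * nrm (vec k (rep P k a) - vec l (rep P l b)) ^ 2)) := by
  refine (mul_le_mul_of_nonneg_left (measureReal_mono (μ := γn n)
    (show slotI P k a ∩ slotI P l b ⊆ Reg (vec k (rep P k a)) ∩ Reg (vec l (rep P l b)) from
      fun g hg => ⟨hg.1 _ (rep_self P k a), hg.2 _ (rep_self P l b)⟩)) (Nw_pos n).le).trans ?_
  exact Reg_joint hn _ _ (mem_filter.1 (rep_in_S P k a)).2 (mem_filter.1 (rep_in_S P l b)).2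

lemma slot_row_sum (P : Finset (Fin n → ℤ)) (k l : Fin n → ℤ) (t' : Fin n → ℤ) :
    ∑ a : Fin (slotT P k).card,
      Real.exp (-(sg ^ 2 / 16 * nrm (vec k (rep P k a) - vec l t') ^ 2)) ≤ 100 := by
  classical
  rw [sum_slots P k fun t => Real.exp (-(sg ^ 2 / 16 * nrm (vec k t - vec l t') ^ 2))]
  obtain ⟨-, -, -, h4⟩ := (multiscale pos (Sset P k) (slotL P k)).choose_spec
  have hcap : (slotT P k).card ≤ lvlCap (slotL P k) := by
    have h1 : (slotT P k).card ≤ slotL P k := (slotT_card_le P k).trans (Nat.le_add_right _ _)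
    refine h1.trans ?_
    have h2 : ((slotL P k : ℕ) : ℝ) ≤ Real.exp ((4:ℝ) ^ slotL P k) := by
      have h3 := one_add_mul_le_pow (show (-2:ℝ) ≤ 3 by norm_num) (slotL P k)
      norm_num at h3
      have h5 : (0:ℝ) ≤ (slotL P k : ℕ) := Nat.cast_nonneg _
      linarith [Real.add_one_le_exp ((4:ℝ) ^ slotL P k)]
    unfold lvlCap
    exact (Nat.cast_le (α := ℝ)).1 (h2.trans (Nat.le_ceil _))
  set z : EuclideanSpace ℝ (Fin n) := WithLp.toLp 2 (ppt t' + (xpt k - xpt l)) with hz
  have hdist : ∀ t, dist (pos t) z = nrm (vec k t - vec l t') := by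
    intro t
    rw [dist_eq_norm, hz, pos, ← WithLp.toLp_sub, ← nrm_eq_norm, nrm_sub_comm]
    congr 1
    simp only [vec]; abel
  refine le_trans (sum_le_sum fun t _ => ?_)
    (row_sum_le pos (slotT P k) (show 2 ≤ slotL P k from Nat.le_add_left 2 _) hcap h4 z)
  rw [hdist]
  exact Real.exp_le_exp.2 (neg_le_neg (mul_le_mul_of_nonneg_right (by norm_num [sg]) (sq_nonneg _)))

variable {P : Finset (Fin n → ℤ)} {K0 : ℝ}

lemma pair_near (hB : SlotBig n K0) {k l : Fin n → ℤ} (hk : k ∈ goodX K0 P) (hl : l ∈ goodX K0 P) :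
    pairTerm (fun _ : Fin (slotT P k).card => (1:ℝ)) (fun _ : Fin (slotT P l).card => 1)
      (fun a b => Real.exp (-(sg ^ 2 / 16 * nrm (vec k (rep P k a) - vec l (rep P l b)) ^ 2))) ≤
      Real.exp (55 * Lam ^ 2 * K0) * ((∏ a, Nw n * (γn n).real (slotI P k a)) *
        ∏ b, Nw n * (γn n).real (slotI P l b)) := by
  have h1 := (slotI_lower hB hk).2
  have h2 := (slotI_lower hB hl).2
  have hm := mul_le_mul h1 h2 (Real.exp_pos _).le ((Real.exp_pos _).le.trans h1)
  rw [← Real.exp_add] at hm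
  have hlen : ((slotT P l).card : ℝ) ≤ K0 :=
    le_trans (Nat.cast_le.2 (slotT_card_le P l)) (mem_filter.1 hl).2.1
  calc pairTerm (fun _ : Fin (slotT P k).card => (1:ℝ)) (fun _ : Fin (slotT P l).card => 1)
        (fun a b => Real.exp (-(sg ^ 2 / 16 * nrm (vec k (rep P k a) - vec l (rep P l b)) ^ 2)))
      ≤ ∏ b : Fin (slotT P l).card, (1 + ∑ a, Real.exp
          (-(sg ^ 2 / 16 * nrm (vec k (rep P k a) - vec l (rep P l b)) ^ 2))) := by
        simp [pairTerm]
    _ ≤ ∏ _b : Fin (slotT P l).card, Real.exp 5 := by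
        refine prod_le_prod (fun b _ => add_nonneg zero_le_one (sum_nonneg fun a _ =>
          (Real.exp_pos _).le)) fun b _ => ?_
        have h5 : (101:ℝ) ≤ Real.exp 5 := by
          rw [show (5:ℝ) = ((5:ℕ):ℝ) * 1 by norm_num, Real.exp_nat_mul]
          refine le_trans ?_ (pow_le_pow_left₀ (by norm_num) (le_of_lt Real.exp_one_gt_d9) 5)
          norm_num
        linarith [slot_row_sum P k l (rep P l b)]
    _ = Real.exp (5 * (slotT P l).card) := by
        rw [prod_const, card_univ, Fintype.card_fin, ← Real.exp_nat_mul, mul_comm]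
    _ ≤ Real.exp (55 * Lam ^ 2 * K0 + (-(25 * Lam ^ 2 * K0) + -(25 * Lam ^ 2 * K0))) := by
        refine Real.exp_le_exp.2 ?_
        have : 1 ≤ Lam ^ 2 := one_le_pow₀ (by norm_num [Lam, sg])
        have h6 := mul_le_mul_of_nonneg_right this (show 0 ≤ 5 * K0 by linarith [hB.hK])
        linarith
    _ ≤ _ := by rw [Real.exp_add]; exact mul_le_mul_of_nonneg_left hm (Real.exp_pos _).le

lemma slotI_pos (hB : SlotBig n K0) {k : Fin n → ℤ} (hk : k ∈ goodX K0 P)
    (a : Fin (slotT P k).card) : 0 < Nw n * (γn n).real (slotI P k a) :=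
  (Real.exp_pos _).trans_le ((slotI_lower hB hk).1 a)

lemma pair_apart (hB : SlotBig n K0) {D : ℝ} (hW : K0 ^ 2 * wFac n D ≤ 1) {k l : Fin n → ℤ}
    (hk : k ∈ goodX K0 P) (hl : l ∈ goodX K0 P) :
    pairTerm (fun a => Nw n * (γn n).real (slotI P k a))
      (fun b => Nw n * (γn n).real (slotI P l b))
      (fun _ _ => Real.exp (-(sg ^ 2 / 16 * D ^ 2))) ≤
      2 * (K0 ^ 2 * wFac n D) * ((∏ a, Nw n * (γn n).real (slotI P k a)) *
        ∏ b, Nw n * (γn n).real (slotI P l b)) := by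
  set u := fun a => Nw n * (γn n).real (slotI P k a) with hu
  set u' := fun b => Nw n * (γn n).real (slotI P l b) with hu'
  set E := Real.exp (-(sg ^ 2 / 16 * D ^ 2)) with hE
  have hu0 : ∀ a, 0 < u a := slotI_pos hB hk
  have hu0' : ∀ b, 0 < u' b := slotI_pos hB hl
  set w : Fin (slotT P l).card → ℝ := fun b => (∑ a, E / u a) / u' b with hw
  have hw0 : ∀ b, 0 ≤ w b := fun b =>
    div_nonneg (sum_nonneg fun a _ => div_nonneg (Real.exp_pos _).le (hu0 a).le) (hu0' b).le
  have hK0 : 0 ≤ K0 := by linarith [hB.hK]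
  have hwb : ∀ b, w b ≤ K0 * wFac n D := by
    intro b
    have h1 : ∀ a, E / u a ≤ E * Real.exp (15 * Lam ^ 2 * qq n) := by
      intro a
      rw [div_le_iff₀ (hu0 a), mul_assoc]
      refine le_mul_of_one_le_right (Real.exp_pos _).le ?_
      have := mul_le_mul_of_nonneg_left ((slotI_lower hB hk).1 a) (Real.exp_pos (15 * Lam ^ 2 * qq n)).le
      rwa [← Real.exp_add, add_neg_cancel, Real.exp_zero] at this
    have h2 : ∑ a, E / u a ≤ K0 * (E * Real.exp (15 * Lam ^ 2 * qq n)) := by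
      refine (sum_le_sum fun a _ => h1 a).trans ?_
      rw [sum_const, card_univ, Fintype.card_fin, nsmul_eq_mul]
      exact mul_le_mul_of_nonneg_right
        (le_trans (Nat.cast_le.2 (slotT_card_le P k)) (mem_filter.1 hk).2.1) (by positivity)
    rw [hw, div_le_iff₀ (hu0' b)]
    refine h2.trans ?_
    have h3 := mul_le_mul_of_nonneg_left ((slotI_lower hB hl).1 b)
      (show 0 ≤ K0 * wFac n D from mul_nonneg hK0 (Real.exp_pos _).le)
    refine le_trans (le_of_eq ?_) h3
    rw [hE, wFac, ← Real.exp_add, mul_assoc K0, ← Real.exp_add]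
    ring_nf
  have hsum : ∑ b, w b ≤ K0 ^ 2 * wFac n D := by
    refine (sum_le_sum fun b _ => hwb b).trans ?_
    rw [sum_const, card_univ, Fintype.card_fin, nsmul_eq_mul, sq, mul_assoc]
    exact mul_le_mul_of_nonneg_right
      (le_trans (Nat.cast_le.2 (slotT_card_le P l)) (mem_filter.1 hl).2.1)
      (mul_nonneg hK0 (Real.exp_pos _).le)
  have e : pairTerm u u' (fun _ _ => E) = (∏ a, u a) * (∏ b, u' b) * (∏ b, (1 + w b) - 1) := by
    have e1 : ∏ b, (u' b + ∑ a, E / u a) = (∏ b, u' b) * ∏ b, (1 + w b) := by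
      rw [← prod_mul_distrib]
      refine prod_congr rfl fun b _ => ?_
      rw [hw, mul_add, mul_one, mul_div_cancel₀ _ (hu0' b).ne']
    rw [pairTerm, e1]
    ring
  rw [e, mul_comm (2 * _)]
  refine mul_le_mul_of_nonneg_left ?_
    (mul_nonneg (prod_nonneg fun a _ => (hu0 a).le) (prod_nonneg fun b _ => (hu0' b).le))
  have h1 : ∏ b, (1 + w b) ≤ Real.exp (K0 ^ 2 * wFac n D) := by
    refine (prod_le_prod (fun b _ => add_nonneg zero_le_one (hw0 b))
      fun b _ => (add_comm 1 (w b)).le.trans (Real.add_one_le_exp _)).trans ?_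
    rw [← Real.exp_sum]
    exact Real.exp_le_exp.2 hsum
  have h0 : 0 ≤ K0 ^ 2 * wFac n D := mul_nonneg (sq_nonneg _) (Real.exp_pos _).le
  have h2 := (le_abs_self _).trans (Real.abs_exp_sub_one_le (x := K0 ^ 2 * wFac n D)
    (by rwa [abs_of_nonneg h0]))
  rw [abs_of_nonneg h0] at h2
  linarith

open Classical in
lemma near_count (hn : 0 < n) {D : ℝ} (hD : 0 ≤ D) (hP : P ∈ cfgs n K0) {k : Fin n → ℤ}
    (hk : k ∈ goodX K0 P) :
    (((goodX K0 P).filter fun l => Near P D k l).card : ℝ) ≤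
      (goodX K0 P).card * frac n K0 D := by
  obtain ⟨-, hcard, hM⟩ := mem_filter.1 hP
  have hn0 : (0:ℝ) < n := by exact_mod_cast hn
  set h : ℝ := 1 / (n:ℝ) with hh
  have hh0 : 0 < h := by positivity
  set B : (Fin n → ℤ) × (Fin n → ℤ) → Finset (Fin n → ℤ) := fun pp =>
    (Xi n).filter fun l => nrm (latPt h l + (-(ppt pp.2) - vec k pp.1)) ≤ D with hB
  have hsub : (goodX K0 P).filter (fun l => Near P D k l) ⊆ (Sset P k ×ˢ P).biUnion B := by
    intro l hl
    obtain ⟨hl1, p, hp, p', hp', hd⟩ := mem_filter.1 hl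
    refine mem_biUnion.2 ⟨(p, p'), mem_product.2 ⟨hp, (mem_filter.1 hp').1⟩,
      mem_filter.2 ⟨(mem_filter.1 hl1).1, ?_⟩⟩
    rw [nrm_sub_comm] at hd
    refine le_trans (le_of_eq ?_) hd.le
    congr 1
    simp only [vec, xpt, hh]; abel
  set b : ℝ := (5 * (D + 1) / Real.sqrt n) ^ n * (n:ℝ) ^ n with hb
  have hball : ∀ pp, ((B pp).card : ℝ) ≤ b := by
    intro pp
    have h1 := count_le hh0 (Xi n) (-(ppt pp.2) - vec k pp.1) D
    have h2 : volume.real {y : Fin n → ℝ | nrm y ≤ D + h * Real.sqrt n} ≤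
        (5 * (D + 1) / Real.sqrt n) ^ n := by
      refine le_trans (measureReal_mono (fun y (hy : nrm y ≤ _) => ?_) ?_)
        (ball_volume_le hn 0 (show 0 < D + 1 by linarith))
      · show nsq (y - 0) ≤ (D + 1) ^ 2
        rw [sub_zero, ← nrm_le_iff y (by linarith)]
        have : h * Real.sqrt n ≤ 1 := by
          rw [hh, one_div_mul_eq_div, div_le_one hn0]
          have h1n : (1:ℝ) ≤ n := by exact_mod_cast hn
          exact Real.sqrt_le_iff.2 ⟨hn0.le, le_self_pow₀ h1n two_ne_zero⟩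
        linarith
      · refine ne_top_of_le_ne_top (nrm_ball_finite (n := n) (D + 1)) (measure_mono fun y hy => ?_)
        have hy' : nsq y ≤ (D + 1) ^ 2 := by simpa using hy
        exact (nrm_le_iff y (by linarith)).2 hy'
    have h3 := h1.trans h2
    have e : h ^ n = ((n:ℝ) ^ n)⁻¹ := by rw [hh, one_div, inv_pow]
    rw [e, ← div_eq_mul_inv, div_le_iff₀ (pow_pos hn0 n)] at h3
    exact h3
  calc (((goodX K0 P).filter fun l => Near P D k l).card : ℝ)
      ≤ (((Sset P k ×ˢ P).biUnion B).card : ℝ) := Nat.cast_le.2 (card_le_card hsub)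
    _ ≤ ∑ pp ∈ Sset P k ×ˢ P, ((B pp).card : ℝ) := by exact_mod_cast card_biUnion_le
    _ ≤ ((Sset P k).card : ℝ) * (P.card : ℝ) * b := by
        refine (sum_le_sum fun pp _ => hball pp).trans (le_of_eq ?_)
        rw [sum_const, card_product, nsmul_eq_mul, Nat.cast_mul]
    _ ≤ K0 * Real.exp (1.2 * n) * b :=
        mul_le_mul_of_nonneg_right (mul_le_mul (mem_filter.1 hk).2.1 hcard (Nat.cast_nonneg _)
          (le_trans (Nat.cast_nonneg _) (mem_filter.1 hk).2.1)) (by positivity)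
    _ ≤ _ := by
        have hM' : (2 * (n:ℝ)) ^ n ≤ 2 * (goodX K0 P).card := by exact_mod_cast hM
        have hK0 : 0 ≤ K0 := le_trans (Nat.cast_nonneg _) (mem_filter.1 hk).2.1
        have e : b = (5 * (D + 1) / (2 * Real.sqrt n)) ^ n * (2 * (n:ℝ)) ^ n := by
          rw [hb, ← mul_pow, ← mul_pow]
          congr 1
          field_simp
        rw [e, frac]
        have := mul_le_mul_of_nonneg_left hM'
          (show 0 ≤ K0 * Real.exp (1.2 * n) * (5 * (D + 1) / (2 * Real.sqrt n)) ^ n by positivity)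
        linarith

open Classical in
/-- Pair bound. -/
noncomputable def PBf (P : Finset (Fin n → ℤ)) (K0 : ℝ) (k l : Fin n → ℤ) : ℝ :=
  if Near P (qq n) k l then Real.exp (55 * Lam ^ 2 * K0)
  else if Near P (bet * Real.sqrt n) k l then 2 * (K0 ^ 2 * wFac n (qq n))
  else 2 * (K0 ^ 2 * wFac n (bet * Real.sqrt n))

open Classical in
lemma PBf_sum (hB : PairBig n K0) (hP : P ∈ cfgs n K0) :
    ∑ k ∈ goodX K0 P, ∑ l ∈ goodX K0 P, PBf P K0 k l ≤
      Real.exp (-(1.6 * n)) * ((goodX K0 P).card : ℝ) ^ 2 := by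
  have hn : 0 < n := by have := hB.hn; omega
  set M : ℝ := ((goodX K0 P).card : ℝ) with hM
  set e1 := Real.exp (55 * Lam ^ 2 * K0) with he1
  set e2 := 2 * (K0 ^ 2 * wFac n (qq n)) with he2
  set e3 := 2 * (K0 ^ 2 * wFac n (bet * Real.sqrt n)) with he3
  have h2 : 0 ≤ e2 := by rw [he2, wFac]; positivity
  have h3 : 0 ≤ e3 := by rw [he3, wFac]; positivity
  have hrow : ∀ k ∈ goodX K0 P, ∑ l ∈ goodX K0 P, PBf P K0 k l ≤
      M * (e1 * frac n K0 (qq n) + e2 * frac n K0 (bet * Real.sqrt n) + e3) := by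
    intro k hk
    calc ∑ l ∈ goodX K0 P, PBf P K0 k l
        ≤ ∑ l ∈ goodX K0 P, (e1 * (if Near P (qq n) k l then 1 else 0) +
            e2 * (if Near P (bet * Real.sqrt n) k l then 1 else 0) + e3) := by
          refine sum_le_sum fun l _ => ?_
          simp only [PBf, ← he1, ← he2, ← he3]
          split_ifs <;> linarith [Real.exp_pos (55 * Lam ^ 2 * K0)]
      _ = e1 * ((goodX K0 P).filter fun l => Near P (qq n) k l).card +
            e2 * ((goodX K0 P).filter fun l => Near P (bet * Real.sqrt n) k l).card + M * e3 := by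
          rw [sum_add_distrib, sum_add_distrib, ← mul_sum, ← mul_sum, ← natCast_card_filter,
            ← natCast_card_filter, sum_const, nsmul_eq_mul, ← hM]
      _ ≤ e1 * (M * frac n K0 (qq n)) + e2 * (M * frac n K0 (bet * Real.sqrt n)) + M * e3 := by
          gcongr
          · exact near_count hn (qq_nonneg n) hP hk
          · exact near_count hn (by rw [bet]; positivity) hP hk
      _ = _ := by ring
  refine (sum_le_sum hrow).trans ?_
  rw [sum_const, nsmul_eq_mul, ← hM]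
  have := mul_le_mul_of_nonneg_left hB.hJ (mul_self_nonneg M)
  rw [← he1, ← he2, ← he3] at this
  linarith

/-- The covering event for a configuration. -/
def CovEvent (P : Finset (Fin n → ℤ)) (K0 : ℝ) {Q : ℕ} (G : Fin Q → Fin n → ℝ)
    (T : Finset (Fin Q)) : Prop :=
  Unhit (fun x : ↥(goodX K0 P) => slotI P x.1) G T

/-- Failing the covering event gives a defeated trial. -/
lemma defeated {Q : ℕ} {G : Fin Q → Fin n → ℝ} {T : Finset (Fin Q)} (h : ¬ CovEvent P K0 G T) :
    ∃ k ∈ goodX K0 P, ∀ p ∈ Sset P k, ∃ q ∈ T, G q ∈ Reg (vec k p) := by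
  simp only [CovEvent, Unhit] at h
  push Not at h
  obtain ⟨x, f, hf, hG⟩ := h
  refine ⟨x.1, x.2, fun p hp => ?_⟩
  obtain ⟨a, ha⟩ := slot_cover P x.1 hp
  exact ⟨f a, hf a, hG a p ha⟩

theorem config_eventually (hB : PairBig n K0) (hP : P ∈ cfgs n K0) {ε : ℝ} (hε : 0 < ε) :
    ∀ᶠ Q : ℕ in atTop, (Measure.pi fun _ : Fin Q => γn n).real
      {G | Real.exp (-(1 / (16 * Real.exp (-(1.6 * n))))) <
        unhitProb (fun x : ↥(goodX K0 P) => slotI P x.1) (Nw n / Q) G} ≤ ε := by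
  classical
  have hn : 0 < n := by have := hB.hn; omega
  have hcard : 0 < (goodX K0 P).card := by
    have h := (mem_filter.1 hP).2.2
    have : 0 < (2 * n) ^ n := pow_pos (by omega) n
    omega
  have : Nonempty ↥(goodX K0 P) := Fintype.card_pos_iff.1 (by rwa [Fintype.card_coe])
  refine pool_eventually (γn n) (fun x : ↥(goodX K0 P) => slotI P x.1)
    (fun x a => measurableSet_slotI P x.1 a) (Nw_pos n)
    (fun x a => pos_of_mul_pos_right (slotI_pos hB.toSlotBig x.2 a) (Nw_pos n).le)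
    (fun x y => PBf P K0 x.1 y.1) (Real.exp_pos _) (fun x y => ?_) ?_ hε
  · have hux := fun a => slotI_pos hB.toSlotBig x.2 a
    by_cases h1 : Near P (qq n) x.1 y.1
    · refine ⟨fun _ => 1, fun _ => 1,
        fun a b => Real.exp (-(sg ^ 2 / 16 * nrm (vec x.1 (rep P x.1 a) - vec y.1 (rep P y.1 b)) ^ 2)),
        fun _ => one_pos, fun a => slotI_le P x.1 hn a, fun b => slotI_le P y.1 hn b,
        fun a b => slot_joint hB.hn P x.1 y.1 a b, ?_⟩
      rw [PBf, if_pos h1]
      exact pair_near hB.toSlotBig x.2 y.2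
    · have hfar : ∀ D, 0 ≤ D → ¬ Near P D x.1 y.1 → ∀ a b,
          Nw n * (γn n).real (slotI P x.1 a ∩ slotI P y.1 b) ≤
            Real.exp (-(sg ^ 2 / 16 * D ^ 2)) := by
        intro D hD hN a b
        refine (slot_joint hB.hn P x.1 y.1 a b).trans (Real.exp_le_exp.2 (neg_le_neg ?_))
        refine mul_le_mul_of_nonneg_left (pow_le_pow_left₀ hD ?_ 2) (by positivity)
        exact not_lt.1 fun hlt => hN ⟨_, rep_in_S P x.1 a, _, rep_in_S P y.1 b, hlt⟩
      by_cases h2 : Near P (bet * Real.sqrt n) x.1 y.1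
      · refine ⟨_, _, _, hux, fun a => le_rfl, fun b => le_rfl, hfar _ (qq_nonneg n) h1, ?_⟩
        rw [PBf, if_neg h1, if_pos h2]
        exact pair_apart hB.toSlotBig hB.hW1 x.2 y.2
      · refine ⟨_, _, _, hux, fun a => le_rfl, fun b => le_rfl,
          hfar _ (by rw [bet]; positivity) h2, ?_⟩
        rw [PBf, if_neg h1, if_neg h2]
        exact pair_apart hB.toSlotBig hB.hW2 x.2 y.2
  · rw [Fintype.card_coe, sum_coe_sort (goodX K0 P)
      (fun k => ∑ y : ↥(goodX K0 P), PBf P K0 k y.1)]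
    refine le_trans (le_of_eq (sum_congr rfl fun k _ => ?_)) (PBf_sum hB hP)
    exact sum_coe_sort (goodX K0 P) (fun l => PBf P K0 k l)

end Vale.Agent.P230.Lower
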