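import Mathlib
import Vale.Agent.P230.Lower.Config

/-! A body of large volume that defeats every configuration. -/

namespace Vale.Agent.P230.Lower

open MeasureTheory Finset Filter Vale.Agent.P230

/-- Volume loss exponent. -/
noncomputable def Hh : ℝ := 2 * Real.exp (sg + 2)

/-- Guaranteed volume fraction. -/
noncomputable def kap : ℝ := Real.exp (-(2 * Hh)) / 2

lemma kap_pos : 0 < kap := by unfold kap; positivity

/-- The body cut by the selected pool vectors. -/
def bodyK {n Q : ℕ} (G : Fin Q → Fin n → ℝ) (T : Finset (Fin Q)) : Set (Fin n → ℝ) :=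
  {x | nsq x ≤ n ∧ ∀ q ∈ T, dotp (G q) x ≤ sg * n}

variable {n : ℕ}

lemma ballB_finite (n : ℕ) : volume (ballB n) ≠ ⊤ :=
  ne_top_of_le_ne_top (nrm_ball_finite (n := n) (Real.sqrt n))
    (measure_mono fun _ hy => Real.sqrt_le_sqrt hy)

lemma measurableSet_ballB (n : ℕ) : MeasurableSet (ballB n) :=
  measurableSet_le (f := fun y : Fin n → ℝ => nsq y) (by unfold nsq; fun_prop) measurable_const

lemma small_cap_ratio (hn : 16 ≤ n) : Nw n * tailP (sg * Real.sqrt n) ≤ Hh := by
  have hn0 : (0:ℝ) < n := by exact_mod_cast (show 0 < n by omega)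
  have hH1 : 1 ≤ Hh := by
    have : 1 ≤ Real.exp (sg + 2) := Real.one_le_exp (by norm_num [sg])
    unfold Hh; linarith
  set w := Real.sqrt (n:ℝ) with hw
  have hww : w * w = n := Real.mul_self_sqrt hn0.le
  have hw1 : 1 ≤ w := Real.one_le_sqrt.2 (by exact_mod_cast (show 1 ≤ n by omega))
  have hs1 : 1 ≤ sg * w := one_le_mul_of_one_le_of_one_le (by norm_num [sg]) hw1
  set δ := tau n / rad n - sg * w with hδ
  rw [Nw, one_div_mul_eq_div, div_le_iff₀ (tailP_pos _)]
  rcases le_total δ 0 with h | h
  · calc tailP (sg * w) ≤ 1 * tailP (tau n / rad n) := by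
          rw [one_mul]; exact tailP_antitone (by linarith)
      _ ≤ _ := mul_le_mul_of_nonneg_right hH1 (tailP_nonneg _)
  · have hδw : δ ≤ 1 / w := by
      have h1 : tau n / rad n ≤ tau n / w :=
        div_le_div_of_nonneg_left (tau_pos n).le (by linarith) (s0_bounds hn).2.2.1
      have e : tau n / w = sg * w + 1 / w := by rw [tau, ← hww]; field_simp
      linarith
    have h3 := tailP_add_ge hs1 h
    rw [show sg * w + δ = tau n / rad n by rw [hδ]; ring] at h3
    have hexp : Real.exp (-(sg + 2)) ≤ Real.exp (-((sg * w + 1) * δ) - δ ^ 2 / 2) := by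
      refine Real.exp_le_exp.2 ?_
      have h4 : (sg * w + 1) * δ ≤ (sg * w + 1) * (1 / w) := mul_le_mul_of_nonneg_left hδw (by linarith)
      have e4 : (sg * w + 1) * (1 / w) = sg + 1 / w := by field_simp
      have h5 : 1 / w ≤ 1 := by rw [div_le_one (by linarith)]; exact hw1
      have h6 : δ ^ 2 ≤ 1 := pow_le_one₀ h (hδw.trans h5)
      linarith
    have h7 := mul_le_mul_of_nonneg_right (div_le_div_of_nonneg_right hexp (show (0:ℝ) ≤ 2 by norm_num))
      (tailP_nonneg (sg * w))
    have h8 := h7.trans h3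
    calc tailP (sg * w) = Hh * (Real.exp (-(sg + 2)) / 2 * tailP (sg * w)) := by
          rw [Hh, Real.exp_neg]; field_simp
      _ ≤ _ := mul_le_mul_of_nonneg_left h8 (by linarith)

lemma measurable_dot_at {Q : ℕ} (q : Fin Q) :
    Measurable fun z : (Fin Q → Fin n → ℝ) × (Fin n → ℝ) => dotp (z.1 q) z.2 := by
  unfold dotp
  fun_prop

/-- Mean volume of a fixed selection. -/
lemma mean_volume (hn : 0 < n) {Q : ℕ} (T : Finset (Fin Q)) :
    Integrable (fun G : Fin Q → Fin n → ℝ => volume.real (bodyK G T))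
        (Measure.pi fun _ : Fin Q => γn n) ∧
    (1 - tailP (sg * Real.sqrt n)) ^ T.card * VB n ≤
      ∫ G, volume.real (bodyK G T) ∂(Measure.pi fun _ : Fin Q => γn n) := by
  classical
  set μ := Measure.pi fun _ : Fin Q => γn n
  set S : Set ((Fin Q → Fin n → ℝ) × (Fin n → ℝ)) := {z | z.2 ∈ bodyK z.1 T} with hS
  have hSm : MeasurableSet S := by
    have e : S = Prod.snd ⁻¹' ballB n ∩
        ⋂ q ∈ T, {z : (Fin Q → Fin n → ℝ) × (Fin n → ℝ) | dotp (z.1 q) z.2 ≤ sg * n} := by
      ext z; simp [hS, bodyK, ballB]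
    rw [e]
    exact ((measurableSet_ballB n).preimage measurable_snd).inter
      (MeasurableSet.biInter (Finset.countable_toSet T) fun q _ =>
        measurableSet_le (measurable_dot_at q) measurable_const)
  have hsec : ∀ G : Fin Q → Fin n → ℝ, Prod.mk G ⁻¹' S = bodyK G T := fun G => rfl
  have hmeas : Measurable fun G : Fin Q → Fin n → ℝ => volume (bodyK G T) := by
    have := measurable_measure_prodMk_left (ν := (volume : Measure (Fin n → ℝ))) hSm
    simpa only [hsec] using this
  have hle : ∀ G : Fin Q → Fin n → ℝ, volume (bodyK G T) ≤ volume (ballB n) := fun G =>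
    measure_mono fun x hx => hx.1
  have hint : Integrable (fun G : Fin Q → Fin n → ℝ => volume.real (bodyK G T)) μ := by
    refine Integrable.of_bound hmeas.ennreal_toReal.aestronglyMeasurable (VB n)
      (Filter.Eventually.of_forall fun G => ?_)
    rw [Real.norm_eq_abs, abs_of_nonneg measureReal_nonneg]
    exact ENNReal.toReal_mono (ballB_finite n) (hle G)
  refine ⟨hint, ?_⟩
  have e1 : ∫ G, volume.real (bodyK G T) ∂μ = ((μ.prod volume) S).toReal := by
    simp only [measureReal_def]
    rw [integral_toReal hmeas.aemeasurable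
      (Filter.Eventually.of_forall fun G => (hle G).trans_lt (ballB_finite n).lt_top),
      Measure.prod_apply hSm]
    simp only [hsec]
  have hfinS : (μ.prod volume) S ≠ ⊤ := by
    rw [Measure.prod_apply hSm]
    simp only [hsec]
    exact ne_top_of_le_ne_top
      (by rw [lintegral_const, measure_univ, mul_one]; exact ballB_finite n)
      (lintegral_mono hle)
  set p := tailP (sg * Real.sqrt n) with hp
  have hn0 : (0:ℝ) < n := by exact_mod_cast hn
  have hx : ∀ x ∈ ballB n, (1 - p) ^ T.card ≤
      (μ ((fun G : Fin Q → Fin n → ℝ => (G, x)) ⁻¹' S)).toReal := by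
    intro x hx
    have e : (fun G : Fin Q → Fin n → ℝ => (G, x)) ⁻¹' S =
        Set.univ.pi fun q => if q ∈ T then {g | dotp g x ≤ sg * n} else Set.univ := by
      ext G
      simp only [hS, Set.mem_preimage, Set.mem_ofPred_eq, bodyK, Set.mem_pi, Set.mem_univ,
        true_implies]
      refine ⟨fun h q => ?_, fun h => ⟨hx, fun q hq => ?_⟩⟩
      · split_ifs with hq
        · exact h.2 q hq
        · trivial
      · simpa [hq] using h q
    rw [e, Measure.pi_pi, ENNReal.toReal_prod]
    simp only [apply_ite, measure_univ, ENNReal.toReal_one]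
    rw [prod_ite_mem, Finset.univ_inter, prod_const]
    refine pow_le_pow_left₀ (sub_nonneg.2 (tailP_le_one _)) ?_ _
    have hcap := cap_le x (r := Real.sqrt n) (τ := sg * n) (Real.sqrt_pos.2 hn0)
      (by rw [Real.sq_sqrt hn0.le]; exact hx) (mul_nonneg (by norm_num [sg]) hn0.le)
    rw [mul_div_assoc, Real.div_sqrt] at hcap
    have e2 : {g : Fin n → ℝ | dotp g x ≤ sg * n} = {g | sg * n < dotp g x}ᶜ := by
      ext g; simp
    rw [e2, ← measureReal_def, probReal_compl_eq_one_sub (measurableSet_cap x _)]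
    linarith
  rw [e1]
  have hlow : ENNReal.ofReal ((1 - p) ^ T.card) * volume (ballB n) ≤ (μ.prod volume) S := by
    rw [Measure.prod_apply_symm hSm, ← setLIntegral_const]
    refine le_trans (setLIntegral_mono' (measurableSet_ballB n) fun x hxB => ?_)
      (setLIntegral_le_lintegral _ _)
    rw [← ENNReal.ofReal_toReal (a := μ ((fun G => (G, x)) ⁻¹' S)) (measure_ne_top _ _)]
    exact ENNReal.ofReal_le_ofReal (hx x hxB)
  have h := ENNReal.toReal_mono hfinS hlow
  rw [ENNReal.toReal_mul, ENNReal.toReal_ofReal (pow_nonneg (sub_nonneg.2 (tailP_le_one _)) _)] at h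
  exact h

lemma one_sub_pow_lower {H : ℝ} (hH : 0 ≤ H) {Q : ℕ} (hQ : 2 * H ≤ Q) (hQ0 : 0 < Q) {x : ℝ}
    (hx : x ≤ H / Q) : Real.exp (-(2 * H)) ≤ (1 - x) ^ Q := by
  have hQR : (0:ℝ) < Q := by exact_mod_cast hQ0
  set y := H / (Q:ℝ) with hy
  have hy0 : 0 ≤ y := by positivity
  have hy2 : y ≤ 1 / 2 := by rw [hy, div_le_iff₀ hQR]; linarith
  have h1 : Real.exp (-(2 * y)) ≤ 1 - y := by
    rw [Real.exp_neg, inv_le_iff_one_le_mul₀' (Real.exp_pos _)]
    have h2 := mul_le_mul_of_nonneg_right (Real.add_one_le_exp (2 * y)) (show 0 ≤ 1 - y by linarith)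
    have h3 := mul_le_mul_of_nonneg_left hy2 hy0
    linarith
  calc Real.exp (-(2 * H)) = Real.exp (-(2 * y)) ^ Q := by
        rw [← Real.exp_nat_mul, hy]; congr 1; field_simp
    _ ≤ (1 - x) ^ Q := pow_le_pow_left₀ (Real.exp_pos _).le (h1.trans (by linarith)) Q

open Classical in
theorem good_body {K0 : ℝ} (hB : PairBig n K0)
    (hbad : ((cfgs n K0).card : ℝ) * Real.exp (-(1 / (16 * Real.exp (-(1.6 * n))))) ≤ kap / 4) :
    ∃ (Q : ℕ) (G : Fin Q → Fin n → ℝ) (T : Finset (Fin Q)),
      kap * VB n ≤ volume.real (bodyK G T) ∧ ∀ P ∈ cfgs n K0, ¬ CovEvent P K0 G T := by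
  have hn16 := hB.hn
  have hn : 0 < n := by omega
  set C := cfgs n K0 with hC
  set δ := Real.exp (-(1 / (16 * Real.exp (-(1.6 * n))))) with hδ
  set ε := kap / 4 / ((C.card : ℝ) + 1) with hε
  have hε0 : 0 < ε := by have := kap_pos; positivity
  obtain ⟨Q, hQ, hQN, hQH, hQ1⟩ := (((Filter.eventually_all_finset C).2 fun P hP =>
      config_eventually hB hP hε0).and ((eventually_ge_atTop ⌈Nw n⌉₊).and
      ((eventually_ge_atTop ⌈2 * Hh⌉₊).and (eventually_ge_atTop 1)))).exists
  have hQR : (0:ℝ) < Q := by exact_mod_cast hQ1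
  have hNQ : Nw n ≤ Q := (Nat.le_ceil _).trans (by exact_mod_cast hQN)
  have hHQ : 2 * Hh ≤ Q := (Nat.le_ceil _).trans (by exact_mod_cast hQH)
  set q := Nw n / (Q:ℝ) with hq
  have hq0 : 0 ≤ q := div_nonneg (Nw_pos n).le hQR.le
  have hq1 : q ≤ 1 := (div_le_one hQR).2 hNQ
  set μ := Measure.pi fun _ : Fin Q => γn n
  set bad : Finset (Fin n → ℤ) → Set (Fin Q → Fin n → ℝ) := fun P =>
    {G | δ < unhitProb (fun x : ↥(goodX K0 P) => slotI P x.1) q G}
  have hU : μ.real (toMeasurable μ (⋃ P ∈ C, bad P)) ≤ kap / 4 := by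
    rw [measureReal_def, measure_toMeasurable, ← measureReal_def]
    refine (measureReal_biUnion_finset_le C bad).trans ((sum_le_sum fun P hP => hQ P hP).trans ?_)
    rw [sum_const, nsmul_eq_mul, hε, mul_div_assoc']
    rw [div_le_iff₀ (by positivity)]
    have := kap_pos
    linarith
  set U := toMeasurable μ (⋃ P ∈ C, bad P) with hUdef
  have hVB := VB_pos hn
  set h : (Fin Q → Fin n → ℝ) → ℝ := fun G =>
    ∑ T, bern q T * (volume.real (bodyK G T) / VB n) with hh
  have hv1 : ∀ (G : Fin Q → Fin n → ℝ) T, volume.real (bodyK G T) / VB n ≤ 1 := fun G T =>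
    (div_le_one hVB).2 (measureReal_mono (fun x hx => hx.1) (ballB_finite n))
  have hhint : Integrable h μ :=
    integrable_finsetSum _ fun T _ => (((mean_volume hn T).1).div_const _).const_mul _
  have hmean : Real.exp (-(2 * Hh)) ≤ ∫ G, h G ∂μ := by
    rw [hh, integral_finsetSum _ fun T _ => (((mean_volume hn T).1).div_const _).const_mul _]
    refine le_trans ?_ (sum_le_sum fun T _ => (le_of_eq rfl).trans
      (show bern q T * (1 - tailP (sg * Real.sqrt n)) ^ T.card ≤
        ∫ G, bern q T * (volume.real (bodyK G T) / VB n) ∂μ from by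
        rw [integral_const_mul, integral_div]
        refine mul_le_mul_of_nonneg_left ?_ (bern_nonneg hq0 hq1 T)
        rw [le_div_iff₀ hVB]
        exact (mean_volume hn T).2))
    have e : ∑ T : Finset (Fin Q), bern q T * (1 - tailP (sg * Real.sqrt n)) ^ T.card =
        (1 - q * tailP (sg * Real.sqrt n)) ^ Q := by
      have e1 := Finset.sum_pow_mul_eq_add_pow (q * (1 - tailP (sg * Real.sqrt n))) (1 - q)
        (univ : Finset (Fin Q))
      rw [Finset.card_univ, Fintype.card_fin, Finset.powerset_univ] at e1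
      rw [show 1 - q * tailP (sg * Real.sqrt n) =
        q * (1 - tailP (sg * Real.sqrt n)) + (1 - q) by ring, ← e1]
      refine sum_congr rfl fun T _ => ?_
      rw [bern, Fintype.card_fin, mul_pow]; ring
    rw [e]
    refine one_sub_pow_lower (by unfold Hh; positivity) hHQ hQ1 ?_
    rw [hq, div_mul_eq_mul_div]
    exact div_le_div_of_nonneg_right (small_cap_ratio hn16) hQR.le
  by_contra hno
  push Not at hno
  have hout : ∀ G ∉ U, h G ≤ kap + kap / 4 := by
    intro G hG
    have hb : ∀ P ∈ C, unhitProb (fun x : ↥(goodX K0 P) => slotI P x.1) q G ≤ δ := fun P hP =>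
      not_lt.1 fun hlt => hG (subset_toMeasurable _ _ (Set.mem_biUnion hP hlt))
    calc h G ≤ ∑ T, bern q T * (kap + ∑ P ∈ C, if CovEvent P K0 G T then (1:ℝ) else 0) := by
          refine sum_le_sum fun T _ => mul_le_mul_of_nonneg_left ?_ (bern_nonneg hq0 hq1 T)
          have h0 : ∀ P ∈ C, (0:ℝ) ≤ if CovEvent P K0 G T then 1 else 0 := fun P _ => by
            split_ifs <;> norm_num
          by_cases hk : kap * VB n ≤ volume.real (bodyK G T)
          · obtain ⟨P, hP, hPc⟩ := hno Q G T hk
            have := single_le_sum h0 hP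
            rw [if_pos hPc] at this
            linarith [hv1 G T, kap_pos]
          · have : volume.real (bodyK G T) / VB n ≤ kap := by
              rw [div_le_iff₀ hVB]; exact (not_le.1 hk).le
            linarith [sum_nonneg h0]
      _ = kap + ∑ P ∈ C, unhitProb (fun x : ↥(goodX K0 P) => slotI P x.1) q G := by
          simp only [mul_add, sum_add_distrib, ← sum_mul, sum_bern, one_mul, mul_sum, mul_ite,
            mul_one, mul_zero]
          rw [sum_comm]
          congr 1
      _ ≤ kap + (C.card : ℝ) * δ := by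
          refine add_le_add le_rfl ((sum_le_sum hb).trans ?_)
          rw [sum_const, nsmul_eq_mul]
      _ ≤ kap + kap / 4 := by linarith
  have hUm : MeasurableSet U := measurableSet_toMeasurable _ _
  have hh1 : ∀ G, h G ≤ 1 := fun G => by
    refine (sum_le_sum fun T _ => mul_le_of_le_one_right (bern_nonneg hq0 hq1 T) (hv1 G T)).trans ?_
    rw [sum_bern]
  have hfin : ∫ G, h G ∂μ ≤ ∫ G, ((kap + kap / 4) + U.indicator (fun _ => (1:ℝ)) G) ∂μ := by
    refine integral_mono hhint ((integrable_const _).add ((integrable_const _).indicator hUm)) fun G => ?_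
    by_cases hG : G ∈ U
    · rw [Set.indicator_of_mem hG]; linarith [hh1 G, kap_pos]
    · rw [Set.indicator_of_notMem hG, add_zero]; exact hout G hG
  rw [integral_add (integrable_const _) ((integrable_const _).indicator hUm), integral_const,
    integral_indicator_const _ hUm, probReal_univ, one_smul, smul_eq_mul, mul_one] at hfin
  have := kap_pos
  have e : Real.exp (-(2 * Hh)) = 2 * kap := by rw [kap]; ring
  linarith

end Vale.Agent.P230.Lower
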