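import Mathlib
import Vale.Agent.P230.Lower.Choice

/-! All numerical requirements hold in high dimension. -/

namespace Vale.Agent.P230.Lower

open Filter Finset Vale.Agent.P230 MeasureTheory

/-- The absolute constant of the lower bound. -/
noncomputable def cLow : ℝ := kap / (900000 * Lam ^ 2)

/-- Normalized covering count. -/
noncomputable def EE (n : ℕ) : ℝ := n * Real.log n / (900000 * Lam ^ 2)

/-- Slot budget. -/
noncomputable def KK (n : ℕ) : ℝ := 768 * EE n

/-- Everything needed in dimension `n`. -/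
structure AllBig (n : ℕ) : Prop extends PairBig n (KK n) where
  hE : 0 < EE n
  hP : 6 * EE n * 3 ^ n ≤ Real.exp (1.2 * n)
  hdeep : 6 * EE n * Real.exp (3 - qq n) ≤ 1 / 8
  hbad : ((cfgs n (KK n)).card : ℝ) * Real.exp (-(1 / (16 * Real.exp (-(1.6 * n))))) ≤ kap / 4
  hround : 4 * sg < n

lemma qq_tendsto : Tendsto qq atTop atTop :=
  Real.tendsto_sqrt_atTop.comp (Real.tendsto_sqrt_atTop.comp tendsto_natCast_atTop_atTop)

lemma log_le_qq {δ : ℝ} (hδ : 0 < δ) : ∀ᶠ n : ℕ in atTop, Real.log n ≤ δ * qq n := by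
  have h : ∀ᶠ x : ℝ in atTop, Real.log x ≤ δ / 4 * x := by
    filter_upwards [Real.isLittleO_log_id_atTop.bound (show (0:ℝ) < δ / 4 by positivity),
      eventually_ge_atTop (0:ℝ)] with x hx hx0
    rw [Real.norm_eq_abs, Real.norm_eq_abs, id_eq, abs_of_nonneg hx0] at hx
    exact (le_abs_self _).trans hx
  filter_upwards [qq_tendsto.eventually h] with n hn
  have e : Real.log n = 4 * Real.log (qq n) := by
    rw [qq, Real.log_sqrt (Real.sqrt_nonneg _), Real.log_sqrt (Nat.cast_nonneg _)]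
    ring
  linarith

lemma tailP_s0_lower {n : ℕ} (hn : 16 ≤ n) :
    Real.exp (-(2 * Lam ^ 2 * n)) / 3 ≤ tailP (tau n / rad n) := by
  obtain ⟨h1, h2, -, -⟩ := s0_bounds hn
  set s := tau n / rad n
  set M := 2 * Lam * Real.sqrt n with hM
  have hn1 : 1 ≤ Real.sqrt (n:ℝ) := Real.one_le_sqrt.2 (by exact_mod_cast (show 1 ≤ n by omega))
  have hMb : s + 2 ≤ M := by
    have : 1 ≤ Lam * Real.sqrt n := one_le_mul_of_one_le_of_one_le (by norm_num [Lam, sg]) hn1
    rw [hM]; linarith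
  have h := γ1_Ico_lower (a := s + 1) (b := s + 2) (M := M) (by linarith)
    (abs_le.2 ⟨by linarith, by linarith⟩) (abs_le.2 ⟨by linarith, hMb⟩)
  refine le_trans ?_ (h.trans (measureReal_mono fun t ht => lt_of_lt_of_le (by linarith) ht.1))
  have e : M ^ 2 / 2 = 2 * Lam ^ 2 * n := by
    rw [hM, mul_pow, Real.sq_sqrt (Nat.cast_nonneg _)]; ring
  rw [e, show s + 2 - (s + 1) = 1 by ring, one_mul, div_eq_inv_mul]
  refine mul_le_mul_of_nonneg_right ?_ (Real.exp_pos _).le
  refine inv_anti₀ (Real.sqrt_pos.2 (by positivity)) (Real.sqrt_le_iff.2 ⟨by norm_num, ?_⟩)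
  nlinarith [Real.pi_lt_d2]

lemma norm_cond {n : ℕ} (hn : 16 ≤ n) :
    Real.sqrt 2 ^ n * Real.exp (-((4 * sg * n) ^ 2 / 4)) ≤
      Real.exp (-(15 * Lam ^ 2 * qq n)) * tailP (tau n / rad n) / 8 := by
  have h16 : (16:ℝ) ≤ n := by exact_mod_cast hn
  have hs2 : Real.sqrt 2 ≤ Real.exp (1 / 2) :=
    Real.sqrt_le_iff.2 ⟨(Real.exp_pos _).le, by
      rw [sq, ← Real.exp_add]
      linarith [Real.exp_one_gt_d9, Real.exp_le_exp.2 (show (1:ℝ) ≤ 1/2 + 1/2 by norm_num)]⟩
  have h24 : Real.exp (-24) ≤ 1 / 24 := by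
    rw [Real.exp_neg, one_div]
    exact inv_anti₀ (by norm_num) (by linarith [Real.add_one_le_exp (24:ℝ)])
  calc Real.sqrt 2 ^ n * Real.exp (-((4 * sg * n) ^ 2 / 4))
      ≤ Real.exp (1 / 2) ^ n * Real.exp (-((4 * sg * n) ^ 2 / 4)) :=
        mul_le_mul_of_nonneg_right (pow_le_pow_left₀ (Real.sqrt_nonneg _) hs2 n) (Real.exp_pos _).le
    _ ≤ Real.exp (-(15 * Lam ^ 2 * qq n) + -(2 * Lam ^ 2 * n) + -24) := by
        rw [← Real.exp_nat_mul, ← Real.exp_add, Real.exp_le_exp]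
        have hq : qq n ≤ n := by
          refine Real.sqrt_le_iff.2 ⟨by linarith, Real.sqrt_le_iff.2 ⟨by positivity, ?_⟩⟩
          have : (1:ℝ) ≤ n := by linarith
          nlinarith [one_le_pow₀ (n := 2) this]
        have h1 := mul_le_mul_of_nonneg_left hq (show 0 ≤ 15 * Lam ^ 2 by positivity)
        have h2 : (n:ℝ) * 16 ≤ n * n := mul_le_mul_of_nonneg_left h16 (by linarith)
        rw [Lam, sg] at *
        linarith
    _ = Real.exp (-(15 * Lam ^ 2 * qq n)) * (Real.exp (-(2 * Lam ^ 2 * n)) * Real.exp (-24)) := by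
        rw [Real.exp_add, Real.exp_add, mul_assoc]
    _ ≤ Real.exp (-(15 * Lam ^ 2 * qq n)) * (Real.exp (-(2 * Lam ^ 2 * n)) / 3 / 8) := by
        refine mul_le_mul_of_nonneg_left ?_ (Real.exp_pos _).le
        have := mul_le_mul_of_nonneg_left h24 (Real.exp_pos (-(2 * Lam ^ 2 * n))).le
        linarith
    _ ≤ _ := by
        rw [← mul_div_assoc]
        exact div_le_div_of_nonneg_right
          (mul_le_mul_of_nonneg_left (tailP_s0_lower hn) (Real.exp_pos _).le) (by norm_num)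

lemma sum_choose_le (N t : ℕ) (hN : 2 ≤ N) : ∑ i ∈ range (t + 1), N.choose i ≤ N ^ (t + 1) := by
  induction t with
  | zero => simp; omega
  | succ t ih =>
    rw [sum_range_succ]
    have h1 := Nat.choose_le_pow N (t + 1)
    have h2 : N ^ (t + 1) * 2 ≤ N ^ (t + 1) * N := Nat.mul_le_mul_left _ hN
    rw [pow_succ N (t + 1)]
    omega

lemma cfgs_card_le {n : ℕ} (hn : 16 ≤ n) (K0 : ℝ) :
    ((cfgs n K0).card : ℝ) ≤ Real.exp (6 * n ^ 2 * Real.exp (1.2 * n) + 6 * n ^ 2) := by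
  classical
  set t := ⌊Real.exp (1.2 * (n:ℝ))⌋₊ with ht
  set N := (pbox n).card with hN
  have hNe : N = (2 * n ^ 4 + 1) ^ n := by
    rw [hN, pbox, Fintype.card_piFinset, prod_const, Int.card_Icc, card_univ, Fintype.card_fin]
    have e : (n:ℤ) ^ 4 = ((n ^ 4 : ℕ) : ℤ) := by push_cast; rfl
    congr 1
    omega
  have hN2 : 2 ≤ N := by
    rw [hNe]
    have h1 : 1 ≤ n ^ 4 := Nat.one_le_pow _ _ (by omega)
    exact (show 2 ≤ 2 * n ^ 4 + 1 by omega).trans (Nat.le_self_pow (by omega) _)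
  have hsub : cfgs n K0 ⊆ (range (t + 1)).biUnion fun i => (pbox n).powersetCard i := by
    intro P hP
    obtain ⟨h1, h2, -⟩ := mem_filter.1 hP
    exact mem_biUnion.2 ⟨P.card, mem_range.2 (Nat.lt_succ_of_le (Nat.le_floor h2)),
      mem_powersetCard.2 ⟨mem_powerset.1 h1, rfl⟩⟩
  have hc : (cfgs n K0).card ≤ N ^ (t + 1) := by
    refine (card_le_card hsub).trans (card_biUnion_le.trans ?_)
    simp only [card_powersetCard, ← hN]
    exact sum_choose_le N t hN2
  have h16 : (16:ℝ) ≤ n := by exact_mod_cast hn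
  have hNr : (N : ℝ) ≤ Real.exp (6 * n ^ 2) := by
    rw [hNe]
    push_cast
    calc (2 * (n:ℝ) ^ 4 + 1) ^ n ≤ Real.exp (5 * n) ^ n := by
          refine pow_le_pow_left₀ (by positivity) ?_ n
          have h1 : 2 * (n:ℝ) ^ 4 + 1 ≤ (n:ℝ) ^ 5 := by
            have h4 : (1:ℝ) ≤ (n:ℝ) ^ 4 := one_le_pow₀ (by linarith)
            rw [pow_succ _ 4]
            nlinarith
          refine h1.trans ?_
          rw [show (5:ℝ) * n = ((5:ℕ):ℝ) * (n:ℝ) by norm_num, Real.exp_nat_mul]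
          exact pow_le_pow_left₀ (by positivity) (by linarith [Real.add_one_le_exp (n:ℝ)]) 5
      _ = Real.exp (5 * n * n) := by rw [← Real.exp_nat_mul]; congr 1; ring
      _ ≤ _ := Real.exp_le_exp.2 (by nlinarith)
  calc ((cfgs n K0).card : ℝ) ≤ (N : ℝ) ^ (t + 1) := by exact_mod_cast hc
    _ ≤ Real.exp (6 * n ^ 2) ^ (t + 1) := pow_le_pow_left₀ (Nat.cast_nonneg _) hNr _
    _ ≤ _ := by
        rw [← Real.exp_nat_mul, Real.exp_le_exp]
        push_cast
        have := mul_le_mul_of_nonneg_left (Nat.floor_le (Real.exp_pos (1.2 * (n:ℝ))).le)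
          (show (0:ℝ) ≤ 6 * n ^ 2 by positivity)
        rw [← ht] at this
        linarith

/-- Basic inequalities for large `n`. -/
structure Basic (n : ℕ) : Prop where
  n1 : 1000000 ≤ n
  hq : 10000000000000 ≤ qq n
  hlq : 20 * Real.log n ≤ qq n
  hlog : 40 ≤ Real.log n
  hKlog : 900000 * Lam ^ 2 ≤ n
  hL0 : 4 / kap ≤ n

lemma basic_eventually : ∀ᶠ n : ℕ in atTop, Basic n := by
  filter_upwards [eventually_ge_atTop 1000000, qq_tendsto.eventually_ge_atTop 10000000000000,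
    log_le_qq (show (0:ℝ) < 1/20 by norm_num),
    (Real.tendsto_log_atTop.comp tendsto_natCast_atTop_atTop).eventually_ge_atTop 40,
    tendsto_natCast_atTop_atTop.eventually_ge_atTop (900000 * Lam ^ 2),
    tendsto_natCast_atTop_atTop.eventually_ge_atTop (4 / kap)] with n h1 h2 h3 h4 h5 h6
  exact ⟨h1, h2, by linarith, h4, h5, h6⟩

lemma Basic.facts {n : ℕ} (b : Basic n) :
    1 ≤ KK n ∧ 55 * Lam ^ 2 * KK n ≤ n * Real.log n / 20 ∧ KK n ≤ Real.exp (2 * Real.log n) ∧
    6 * EE n ≤ Real.exp (2 * Real.log n) ∧ 0 < EE n := by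
  have hn0 : (1000000:ℝ) ≤ n := by exact_mod_cast b.n1
  have hl := b.hlog
  have hL : (0:ℝ) < 900000 * Lam ^ 2 := by norm_num [Lam, sg]
  have hE : EE n * (900000 * Lam ^ 2) = n * Real.log n := div_mul_cancel₀ _ hL.ne'
  have hE1 : 1 ≤ EE n := by
    rw [EE, le_div_iff₀ hL, one_mul]
    exact b.hKlog.trans (le_mul_of_one_le_right (by linarith) (by linarith))
  have he2 : Real.exp (2 * Real.log n) = n * n := by
    rw [two_mul, Real.exp_add, Real.exp_log (by linarith)]
  have hln : Real.log n ≤ n := Real.log_le_self (by linarith)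
  have hnl : (n:ℝ) * Real.log n ≤ n * n := mul_le_mul_of_nonneg_left hln (by linarith)
  have hbig : (768:ℝ) ≤ 900000 * Lam ^ 2 := by norm_num [Lam, sg]
  have h768 : KK n ≤ n * n := by
    calc KK n = 768 * EE n := rfl
      _ ≤ (900000 * Lam ^ 2) * EE n := mul_le_mul_of_nonneg_right hbig (by linarith)
      _ ≤ _ := by linarith
  refine ⟨by rw [KK]; linarith, ?_, by rw [he2]; exact h768, by rw [he2]; unfold KK at h768; linarith,
    by linarith⟩
  have e : 55 * Lam ^ 2 * KK n = 42240 / 900000 * (EE n * (900000 * Lam ^ 2)) := by rw [KK]; ring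
  rw [e, hE]
  have : 0 ≤ (n:ℝ) * Real.log n := mul_nonneg (by linarith) (by linarith)
  linarith

lemma Basic.small {n : ℕ} (b : Basic n) :
    10000000000000 * qq n ≤ Real.sqrt n ∧ Real.sqrt n * 1000 ≤ n := by
  have hn0 : (1000000:ℝ) ≤ n := by exact_mod_cast b.n1
  have hqq : qq n * qq n = Real.sqrt n := Real.mul_self_sqrt (Real.sqrt_nonneg _)
  have hss : Real.sqrt n * Real.sqrt n = n := Real.mul_self_sqrt (by linarith)
  have hs : 1000 ≤ Real.sqrt n := Real.le_sqrt_of_sq_le (by norm_num; exact b.n1)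
  have h1 := mul_le_mul_of_nonneg_right b.hq (qq_nonneg n)
  have h2 := mul_le_mul_of_nonneg_left hs (Real.sqrt_nonneg (n:ℝ))
  exact ⟨by linarith, by linarith⟩

lemma Basic.w1 {n : ℕ} (b : Basic n) : KK n ^ 2 * wFac n (qq n) ≤ 1 := by
  obtain ⟨hK1, -, hK, -, -⟩ := b.facts
  have h := pow_le_pow_left₀ (by linarith) hK 2
  rw [← Real.exp_nat_mul] at h
  refine (mul_le_mul_of_nonneg_right h (Real.exp_pos _).le).trans ?_
  rw [← Real.exp_add]
  refine Real.exp_le_one_iff.2 ?_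
  have h1 := mul_le_mul_of_nonneg_right b.hq (qq_nonneg n)
  have hl := b.hlq
  rw [Lam, sg] at *
  push_cast
  linarith [qq_nonneg n]

lemma Basic.w2 {n : ℕ} (b : Basic n) :
    KK n ^ 2 * wFac n (bet * Real.sqrt n) ≤ Real.exp (-(3 * n)) := by
  obtain ⟨hK1, -, hK, -, -⟩ := b.facts
  obtain ⟨h1, h2⟩ := b.small
  have h := pow_le_pow_left₀ (by linarith) hK 2
  rw [← Real.exp_nat_mul] at h
  refine (mul_le_mul_of_nonneg_right h (Real.exp_pos _).le).trans ?_
  rw [← Real.exp_add, Real.exp_le_exp]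
  have hl := b.hlq
  rw [mul_pow, Real.sq_sqrt (Nat.cast_nonneg n), bet, Lam, sg]
  push_cast
  have := qq_nonneg n
  have : (0:ℝ) ≤ n := Nat.cast_nonneg n
  linarith

lemma Basic.jterm {n : ℕ} (b : Basic n) :
    Real.exp (55 * Lam ^ 2 * KK n) * frac n (KK n) (qq n) +
    2 * (KK n ^ 2 * wFac n (qq n)) * frac n (KK n) (bet * Real.sqrt n) +
    2 * (KK n ^ 2 * wFac n (bet * Real.sqrt n)) ≤ Real.exp (-(1.6 * n)) := by
  obtain ⟨hK1, hK55, hK, -, -⟩ := b.facts
  obtain ⟨hs1, hs2⟩ := b.small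
  have hn : (1000000:ℝ) ≤ n := by exact_mod_cast b.n1
  have hq := b.hq
  have hl := b.hlog
  have hlq := b.hlq
  have hlog_n : Real.log n ≤ n / 1000 := by linarith
  have h2K : 2 * KK n ≤ Real.exp (1 + 2 * Real.log n) := by
    rw [Real.exp_add]
    exact mul_le_mul (by linarith [Real.add_one_le_exp (1:ℝ)]) hK (by linarith) (Real.exp_pos _).le
  have hqq : qq n * qq n = Real.sqrt n := Real.mul_self_sqrt (Real.sqrt_nonneg _)
  have hsp : 0 < Real.sqrt n := Real.sqrt_pos.2 (by linarith)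
  -- near
  have hb1 : 5 * (qq n + 1) / (2 * Real.sqrt n) ≤ Real.exp (2 - Real.log n / 4) := by
    have e : Real.exp (Real.log n / 4) = qq n := by
      rw [qq, ← Real.exp_log (Real.sqrt_pos.2 hsp), Real.log_sqrt (Real.sqrt_nonneg _),
        Real.log_sqrt (Nat.cast_nonneg _)]
      ring_nf
    have h5 : (5:ℝ) ≤ Real.exp 2 := by
      rw [show (2:ℝ) = ((2:ℕ):ℝ) * 1 by norm_num, Real.exp_nat_mul]
      refine le_trans ?_ (pow_le_pow_left₀ (by norm_num) (le_of_lt Real.exp_one_gt_d9) 2)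
      norm_num
    rw [Real.exp_sub, e]
    refine le_trans ?_ (div_le_div_of_nonneg_right h5 (qq_nonneg n))
    rw [div_le_div_iff₀ (by linarith) (by linarith), ← hqq]
    have := mul_le_mul_of_nonneg_left (show qq n + 1 ≤ 2 * qq n by linarith) (qq_nonneg n)
    linarith
  have hb2 : 5 * (bet * Real.sqrt n + 1) / (2 * Real.sqrt n) ≤ Real.exp (-5) := by
    have h5 : Real.exp 5 ≤ 244 := by
      rw [show (5:ℝ) = ((5:ℕ):ℝ) * 1 by norm_num, Real.exp_nat_mul]
      exact (pow_le_pow_left₀ (Real.exp_pos _).le (le_of_lt Real.exp_one_lt_three) 5).trans (by norm_num)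
    refine le_trans ?_ (show 1 / 244 ≤ Real.exp (-5) by
      rw [Real.exp_neg, one_div]; exact inv_anti₀ (Real.exp_pos _) h5)
    rw [div_le_iff₀ (by linarith), bet]
    linarith
  have hexp3 : 3 * Real.exp (-(2 * (n:ℝ))) ≤ Real.exp (-(1.6 * n)) := by
    rw [show -(1.6 * (n:ℝ)) = 0.4 * n + -(2 * n) by ring, Real.exp_add]
    exact mul_le_mul_of_nonneg_right (by linarith [Real.add_one_le_exp (0.4 * (n:ℝ))]) (Real.exp_pos _).le
  have h2 : (0:ℝ) ≤ 2 := by norm_num
  have e1 : Real.exp (55 * Lam ^ 2 * KK n) * frac n (KK n) (qq n) ≤ Real.exp (-(2 * n)) := by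
    calc Real.exp (55 * Lam ^ 2 * KK n) * frac n (KK n) (qq n)
        ≤ Real.exp (n * Real.log n / 20) * (Real.exp (1 + 2 * Real.log n) * Real.exp (1.2 * n) *
            Real.exp (2 - Real.log n / 4) ^ n) := by
          have := qq_nonneg n
          unfold frac
          gcongr
      _ ≤ _ := by
          rw [← Real.exp_nat_mul, ← Real.exp_add, ← Real.exp_add, ← Real.exp_add, Real.exp_le_exp]
          have := mul_le_mul_of_nonneg_left hl (show (0:ℝ) ≤ n by linarith)
          linarith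
  have e2 : 2 * (KK n ^ 2 * wFac n (qq n)) * frac n (KK n) (bet * Real.sqrt n) ≤
      Real.exp (-(2 * n)) := by
    calc 2 * (KK n ^ 2 * wFac n (qq n)) * frac n (KK n) (bet * Real.sqrt n)
        ≤ Real.exp 1 * (Real.exp (1 + 2 * Real.log n) * Real.exp (1.2 * n) * Real.exp (-5) ^ n) := by
          refine mul_le_mul ?_ ?_ (by unfold frac bet; positivity) (Real.exp_pos _).le
          · linarith [b.w1, Real.add_one_le_exp (1:ℝ)]
          · have : (0:ℝ) ≤ bet := by norm_num [bet]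
            unfold frac
            gcongr
      _ ≤ _ := by
          rw [← Real.exp_nat_mul, ← Real.exp_add, ← Real.exp_add, ← Real.exp_add, Real.exp_le_exp]
          linarith
  have e3 : 2 * (KK n ^ 2 * wFac n (bet * Real.sqrt n)) ≤ Real.exp (-(2 * n)) := by
    refine (mul_le_mul_of_nonneg_left b.w2 h2).trans ?_
    rw [show -(2 * (n:ℝ)) = n + -(3 * n) by ring, Real.exp_add]
    exact mul_le_mul_of_nonneg_right (by linarith [Real.add_one_le_exp (n:ℝ)]) (Real.exp_pos _).le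
  linarith

lemma Basic.bad {n : ℕ} (b : Basic n) :
    ((cfgs n (KK n)).card : ℝ) * Real.exp (-(1 / (16 * Real.exp (-(1.6 * n))))) ≤ kap / 4 := by
  have hn : (1000000:ℝ) ≤ n := by exact_mod_cast b.n1
  have hkp := kap_pos
  refine (mul_le_mul_of_nonneg_right (cfgs_card_le (by have := b.n1; omega) _) (Real.exp_pos _).le).trans ?_
  rw [← Real.exp_add]
  refine le_trans (Real.exp_le_exp.2 (show _ ≤ -(n:ℝ) from ?_)) ?_
  · have e : 1 / (16 * Real.exp (-(1.6 * (n:ℝ)))) = Real.exp (1.2 * n) * (Real.exp (0.4 * n) / 16) := by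
      rw [Real.exp_neg, show (1.6:ℝ) * n = 1.2 * n + 0.4 * n by ring, Real.exp_add]
      field_simp
    rw [e]
    have h3 := Real.pow_div_factorial_le_exp (x := 0.4 * (n:ℝ)) (by linarith) 3
    norm_num [Nat.factorial] at h3
    have h4 : 6 * (n:ℝ) ^ 2 + (6 * n ^ 2 + n) ≤ Real.exp (0.4 * n) / 16 := by
      have h5 : (n:ℝ) ^ 2 * 1000000 ≤ (n:ℝ) ^ 3 := by
        rw [pow_succ (n:ℝ) 2]; exact mul_le_mul_of_nonneg_left hn (sq_nonneg _)
      have h6 : (n:ℝ) ≤ (n:ℝ) ^ 2 := le_self_pow₀ (by linarith) two_ne_zero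
      norm_num
      linarith
    have h7 := mul_le_mul_of_nonneg_left h4 (Real.exp_pos (1.2 * (n:ℝ))).le
    have h8 : 1 ≤ Real.exp (1.2 * (n:ℝ)) := Real.one_le_exp (by linarith)
    have h9 := mul_le_mul_of_nonneg_right h8 (show (0:ℝ) ≤ 6 * n ^ 2 + n by positivity)
    linarith
  · rw [Real.exp_neg]
    have h4 : 4 / kap ≤ Real.exp (n:ℝ) := b.hL0.trans (by linarith [Real.add_one_le_exp (n:ℝ)])
    calc (Real.exp (n:ℝ))⁻¹ ≤ (4 / kap)⁻¹ := inv_anti₀ (by positivity) h4
      _ = kap / 4 := by rw [inv_div]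

lemma Basic.all {n : ℕ} (b : Basic n) : AllBig n := by
  obtain ⟨hK1, -, hK, hE6, hE0⟩ := b.facts
  have hn : (1000000:ℝ) ≤ n := by exact_mod_cast b.n1
  have hq := b.hq
  have hlq := b.hlq
  have hl := b.hlog
  refine
    { hn := by have := b.n1; omega
      hK := hK1
      hlog := ?_
      hqq := by rw [Lam, sg]; linarith
      hnorm := norm_cond (by have := b.n1; omega)
      hW1 := b.w1
      hW2 := b.w2.trans (Real.exp_le_one_iff.2 (by linarith))
      hJ := b.jterm
      hE := hE0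
      hP := ?_
      hdeep := ?_
      hbad := b.bad
      hround := by rw [sg]; linarith }
  · rw [Real.log_mul (by norm_num) (by linarith)]
    have := Real.log_le_log (by linarith) hK
    rw [Real.log_exp] at this
    linarith [Real.log_two_lt_d9]
  · obtain ⟨hs1, hs2⟩ := b.small
    have h3 : (3:ℝ) ≤ Real.exp 1.1 := by
      rw [show (1.1:ℝ) = 1 + 0.1 by norm_num, Real.exp_add]
      refine le_trans ?_ (mul_le_mul (le_of_lt Real.exp_one_gt_d9)
        (Real.quadratic_le_exp_of_nonneg (by norm_num : (0:ℝ) ≤ 0.1)) (by norm_num) (Real.exp_pos _).le)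
      norm_num
    calc 6 * EE n * 3 ^ n ≤ Real.exp (2 * Real.log n) * Real.exp 1.1 ^ n :=
          mul_le_mul hE6 (pow_le_pow_left₀ (by norm_num) h3 n) (by positivity) (Real.exp_pos _).le
      _ ≤ _ := by
          rw [← Real.exp_nat_mul, ← Real.exp_add, Real.exp_le_exp]
          linarith
  · calc 6 * EE n * Real.exp (3 - qq n) ≤ Real.exp (2 * Real.log n) * Real.exp (3 - qq n) :=
          mul_le_mul_of_nonneg_right hE6 (Real.exp_pos _).le
      _ ≤ Real.exp (-8) := by rw [← Real.exp_add, Real.exp_le_exp]; linarith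
      _ ≤ _ := by
          rw [Real.exp_neg, one_div]
          exact inv_anti₀ (by norm_num) (by linarith [Real.add_one_le_exp (8:ℝ)])

theorem allBig_eventually : ∀ᶠ n : ℕ in atTop, AllBig n :=
  basic_eventually.mono fun _ b => b.all

end Vale.Agent.P230.Lower
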