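import Mathlib
import Vale.Agent.P230.Lower.Count

/-! A sparse covering has a window whose rounded configuration is typical. -/

namespace Vale.Agent.P230.Lower

open MeasureTheory Finset

/-- Radius of the `j`-th layer, with the rounding allowance. -/
noncomputable def layerR (n : ℕ) (j : ℕ) : ℝ := rad n * (1 - j / n) + 1 / (n:ℝ) ^ 2

open Classical in
lemma layer_vol {n : ℕ} (hn : 16 ≤ n) (j : ℕ) (hj : j ≤ n) :
    volume.real {y : Fin n → ℝ | nrm y ≤ layerR n j + 1 / (n:ℝ) * Real.sqrt n} ≤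
      Real.exp (2 - j) * VB n := by
  have hn0 : (0:ℝ) < n := by exact_mod_cast (show 0 < n by omega)
  have h16 : (16:ℝ) ≤ n := by exact_mod_cast hn
  have hj' : (j:ℝ) ≤ n := by exact_mod_cast hj
  set s := Real.sqrt (n:ℝ) with hs
  have hss : s * s = n := Real.mul_self_sqrt hn0.le
  have hs4 : 4 ≤ s := Real.le_sqrt_of_sq_le (by linarith)
  set a : ℝ := 1 + (2 - (j:ℝ)) / n with ha
  have ha0 : 0 < a := by
    rw [ha, one_add_div hn0.ne']
    exact div_pos (by linarith) hn0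
  have hjn : 0 ≤ (j:ℝ) / n := by positivity
  have h1 : layerR n j + 1 / (n:ℝ) * s ≤ a * s := by
    have e1 : 1 / (n:ℝ) ^ 2 * 2 ≤ s / n := by
      rw [div_mul_eq_mul_div, div_le_div_iff₀ (by positivity) hn0]
      have h2 : 2 * 1 ≤ s * (n:ℝ) := mul_le_mul (by linarith) (by linarith) zero_le_one (by linarith)
      nlinarith [mul_le_mul_of_nonneg_right h2 hn0.le]
    have e2 : layerR n j + 1 / (n:ℝ) * s ≤ s - s * (j / n) + 1 / (n:ℝ) ^ 2 * 2 + s / n := by
      rw [layerR, rad, ← hs, one_div_mul_eq_div]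
      have : 0 ≤ 1 / (n:ℝ) ^ 2 * ((j:ℝ) / n) := by positivity
      nlinarith
    refine e2.trans ?_
    rw [ha]
    have : (1 + (2 - (j:ℝ)) / n) * s = s - s * (j / n) + s / n + s / n := by field_simp; ring
    linarith
  refine (ball_scale_le ha0 h1).trans (mul_le_mul_of_nonneg_right ?_ measureReal_nonneg)
  calc a ^ n ≤ Real.exp ((2 - (j:ℝ)) / n) ^ n :=
        pow_le_pow_left₀ ha0.le (by linarith [Real.add_one_le_exp ((2 - (j:ℝ)) / n)]) n
    _ = Real.exp (2 - j) := by rw [← Real.exp_nat_mul]; congr 1; field_simp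

lemma sum_exp_layers (n : ℕ) : ∑ j ∈ range n, Real.exp (2 - (j:ℝ)) ≤ 16 := by
  have h2 : Real.exp 2 ≤ 8 := by
    rw [show (2:ℝ) = ((2:ℕ):ℝ) * 1 by norm_num, Real.exp_nat_mul]
    exact (pow_le_pow_left₀ (Real.exp_pos _).le (Real.exp_one_lt_d9.le) 2).trans (by norm_num)
  calc ∑ j ∈ range n, Real.exp (2 - (j:ℝ)) ≤ ∑ j ∈ range n, 8 * (1/2:ℝ) ^ j := by
        refine sum_le_sum fun j _ => ?_
        rw [sub_eq_add_neg, Real.exp_add, show -(j:ℝ) = (j:ℝ) * (-1) by ring, Real.exp_nat_mul]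
        refine mul_le_mul h2 (pow_le_pow_left₀ (Real.exp_pos _).le ?_ j) (by positivity) (by norm_num)
        rw [Real.exp_neg, one_div]
        exact inv_anti₀ (by norm_num) (by linarith [Real.add_one_le_exp (1:ℝ)])
    _ ≤ 8 * 2 := by
        rw [← mul_sum]; exact mul_le_mul_of_nonneg_left (sum_geometric_two_le n) (by norm_num)
    _ = 16 := by norm_num

open Classical in
/-- Linear counts averaged over translates. -/
lemma avg_le {n : ℕ} (hn : 0 < n) (Xm : Finset (Fin n → ℝ)) (Z : Finset (Fin n → ℤ))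
    (x : Fin n → ℝ) (d : ℝ) {B U : ℝ} (hU : 0 ≤ U)
    (hB : volume.real {y : Fin n → ℝ | nrm y ≤ d + 1 / (n:ℝ) * Real.sqrt n} ≤ B)
    (hX : (Xm.card : ℝ) * (n:ℝ) ^ n ≤ U * Z.card) :
    ∑ z ∈ Z, ((Xm.filter fun p => nrm (x + latPt (1 / (n:ℝ)) z - p) ≤ d).card : ℝ) ≤
      U * B * Z.card := by
  have hn0 : (0:ℝ) < n := by exact_mod_cast hn
  have e : ∀ (z : Fin n → ℤ) (p : Fin n → ℝ),
      x + latPt (1 / (n:ℝ)) z - p = latPt (1 / (n:ℝ)) z + (x - p) := fun z p => by abel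
  calc ∑ z ∈ Z, ((Xm.filter fun p => nrm (x + latPt (1 / (n:ℝ)) z - p) ≤ d).card : ℝ)
      = ∑ p ∈ Xm, ((Z.filter fun z => nrm (latPt (1 / (n:ℝ)) z + (x - p)) ≤ d).card : ℝ) := by
        simp_rw [natCast_card_filter, e]
        exact sum_comm
    _ ≤ ∑ _p ∈ Xm, B * (n:ℝ) ^ n := by
        refine sum_le_sum fun p _ => ?_
        have h := (count_le (one_div_pos.2 hn0) Z (x - p) d).trans hB
        rwa [one_div, inv_pow, ← div_eq_mul_inv, div_le_iff₀ (by positivity), ← one_div] at h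
    _ = B * ((Xm.card : ℝ) * (n:ℝ) ^ n) := by rw [sum_const, nsmul_eq_mul]; ring
    _ ≤ B * (U * Z.card) := mul_le_mul_of_nonneg_left hX (measureReal_nonneg.trans hB)
    _ = _ := by ring

lemma xpt_abs {n : ℕ} (hn : 0 < n) {k : Fin n → ℤ} (hk : k ∈ Xi n) (i : Fin n) : |xpt k i| ≤ 1 := by
  have hn0 : (0:ℝ) < n := by exact_mod_cast hn
  obtain ⟨h1, h2⟩ := mem_Ico.1 (Fintype.mem_piFinset.1 hk i)
  have h1' : -(n:ℝ) ≤ (k i : ℝ) := by exact_mod_cast h1
  have h2' : (k i : ℝ) ≤ (n:ℝ) := by exact_mod_cast h2.le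
  rw [xpt, latPt, one_div_mul_eq_div, abs_div, abs_of_pos hn0, div_le_one hn0]
  exact abs_le.2 ⟨h1', h2'⟩

lemma nrm_xpt {n : ℕ} (hn : 0 < n) {k : Fin n → ℤ} (hk : k ∈ Xi n) :
    nrm (xpt k) ≤ Real.sqrt n :=
  (nrm_le_of_coord _ zero_le_one (xpt_abs hn hk)).trans (by rw [one_mul])

/-- Rounding to the fine grid. -/
noncomputable def rnd {n : ℕ} (w : Fin n → ℝ) : Fin n → ℤ := fun i => ⌊w i * (n:ℝ) ^ 3⌋

lemma rnd_near {n : ℕ} (hn : 0 < n) (w : Fin n → ℝ) : nrm (w - ppt (rnd w)) ≤ 1 / (n:ℝ) ^ 2 := by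
  have hn0 : (0:ℝ) < n := by exact_mod_cast hn
  refine (nrm_le_of_coord _ (a := 1 / (n:ℝ) ^ 3) (by positivity) fun i => ?_).trans ?_
  · have h1 := Int.floor_le (w i * (n:ℝ) ^ 3)
    have h2 := Int.lt_floor_add_one (w i * (n:ℝ) ^ 3)
    simp only [Pi.sub_apply, ppt, latPt, rnd, one_div_mul_eq_div]
    rw [abs_le]
    have e : w i - (⌊w i * (n:ℝ) ^ 3⌋ : ℝ) / (n:ℝ) ^ 3 =
        (w i * (n:ℝ) ^ 3 - ⌊w i * (n:ℝ) ^ 3⌋) / (n:ℝ) ^ 3 := by field_simp
    rw [e]
    refine ⟨le_trans (by simp) (div_nonneg (by linarith) (by positivity)), ?_⟩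
    exact div_le_div_of_nonneg_right (by linarith) (by positivity)
  · calc 1 / (n:ℝ) ^ 3 * Real.sqrt n ≤ 1 / (n:ℝ) ^ 3 * n := by
          refine mul_le_mul_of_nonneg_left (Real.sqrt_le_iff.2 ⟨hn0.le, ?_⟩) (by positivity)
          have h1n : (1:ℝ) ≤ n := by exact_mod_cast hn
          nlinarith
      _ = 1 / (n:ℝ) ^ 2 := by field_simp

open Classical in
/-- A large box. -/
lemma big_box {n : ℕ} (hn : 16 ≤ n) {D R0 : ℝ} (hD : 0 ≤ D) (X : Set (Fin n → ℝ))
    (hfin : ∀ m : ℝ, (X ∩ Set.Icc (fun _ => -m) (fun _ => m)).Finite)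
    (hcount : ∀ R ≥ R0,
      ((X ∩ Set.Icc (fun _ => -R) (fun _ => R)).ncard : ℝ) ≤ D * (2 * R) ^ n) :
    ∃ (Xm : Finset (Fin n → ℝ)) (Z : Finset (Fin n → ℤ)), Z.Nonempty ∧
      (Xm.card : ℝ) * (n:ℝ) ^ n ≤ 2 * D * Z.card ∧
      ∀ z ∈ Z, ∀ p ∈ X, nrm (0 + latPt (1 / (n:ℝ)) z - p) ≤ 2 * Real.sqrt n + 1 → p ∈ Xm := by
  have hnp : 0 < n := by omega
  have hn0 : (0:ℝ) < n := by exact_mod_cast hnp
  set s := Real.sqrt (n:ℝ) with hs
  have hs0 : 0 ≤ s := Real.sqrt_nonneg _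
  set h : ℝ := 1 / (n:ℝ) with hh
  have hh0 : 0 < h := by positivity
  obtain ⟨m, hm⟩ := exists_nat_ge (max (max (2 * n * ((n:ℝ) * (3 * s + 2))) (n * R0)) 1)
  simp only [max_le_iff] at hm
  obtain ⟨⟨hm1, hm2⟩, hm3⟩ := hm
  have hm0 : (0:ℝ) < m := by linarith
  set Rm : ℝ := h * m + (3 * s + 2) with hRm
  have hR0 : R0 ≤ Rm := by
    have : R0 ≤ h * m := by
      rw [hh, one_div_mul_eq_div, le_div_iff₀ hn0]; linarith
    linarith
  set Xm := (hfin Rm).toFinset with hXm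
  set Z : Finset (Fin n → ℤ) := Fintype.piFinset fun _ : Fin n => Icc (-(m:ℤ)) m with hZ
  have hZc : (Z.card : ℝ) = (2 * m + 1) ^ n := by
    rw [hZ, Fintype.card_piFinset, prod_const, Int.card_Icc, card_univ, Fintype.card_fin]
    have : ((m:ℤ) + 1 - -(m:ℤ)).toNat = 2 * m + 1 := by omega
    rw [this]; push_cast; rfl
  have hXc : (Xm.card : ℝ) * (n:ℝ) ^ n ≤ 2 * D * Z.card := by
    have h1 : (Xm.card : ℝ) ≤ D * (2 * Rm) ^ n := by
      have := hcount Rm hR0
      rwa [Set.ncard_eq_toFinset_card _ (hfin Rm), ← hXm] at this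
    have h2 : (2 * Rm) ^ n * (n:ℝ) ^ n ≤ 2 * Z.card := by
      rw [hZc, ← mul_pow]
      set ε := (n:ℝ) * (3 * s + 2) / m with hε
      have hε0 : 0 ≤ ε := by positivity
      have e : 2 * Rm * n = 2 * m * (1 + ε) := by
        rw [hRm, hh, hε]; field_simp
      rw [e, mul_pow, mul_comm]
      refine mul_le_mul ?_ (pow_le_pow_left₀ (by positivity) (by linarith) n) (by positivity)
        (by norm_num)
      calc (1 + ε) ^ n ≤ Real.exp ε ^ n :=
            pow_le_pow_left₀ (by positivity) (by linarith [Real.add_one_le_exp ε]) n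
        _ = Real.exp (n * ε) := (Real.exp_nat_mul _ _).symm
        _ ≤ Real.exp (1 / 2) := by
            refine Real.exp_le_exp.2 ?_
            rw [hε, ← mul_div_assoc, div_le_iff₀ hm0]
            linarith
        _ ≤ 2 := by
            refine le_of_pow_le_pow_left₀ two_ne_zero (by norm_num) ?_
            rw [← Real.exp_nat_mul]
            refine le_trans (le_of_eq (by norm_num)) ((Real.exp_one_lt_three).le.trans (by norm_num))
    calc (Xm.card : ℝ) * (n:ℝ) ^ n ≤ D * (2 * Rm) ^ n * (n:ℝ) ^ n :=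
          mul_le_mul_of_nonneg_right h1 (by positivity)
      _ = D * ((2 * Rm) ^ n * (n:ℝ) ^ n) := by ring
      _ ≤ D * (2 * Z.card) := mul_le_mul_of_nonneg_left h2 hD
      _ = _ := by ring
  refine ⟨Xm, Z, ?_, hXc, fun z hz p hp hvis => ?_⟩
  · rw [← card_pos]
    exact_mod_cast (show (0:ℝ) < Z.card by rw [hZc]; positivity)
  · have hb : ∀ i, |p i| ≤ Rm := by
      intro i
      have hk := mem_Icc.1 (Fintype.mem_piFinset.1 hz i)
      have hc1 : |latPt h z i| ≤ h * m := by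
        rw [latPt, abs_mul, abs_of_pos hh0]
        exact mul_le_mul_of_nonneg_left
          (abs_le.2 ⟨by exact_mod_cast hk.1, by exact_mod_cast hk.2⟩) hh0.le
      have e2 : p i = -(0 + latPt h z - p) i + latPt h z i := by simp
      rw [e2]
      refine (abs_add_le _ _).trans ?_
      rw [abs_neg, hRm]
      have := (abs_coord_le_nrm _ i).trans hvis
      linarith
    rw [hXm, Set.Finite.mem_toFinset]
    exact ⟨hp, fun i => (abs_le.1 (hb i)).1, fun i => (abs_le.1 (hb i)).2⟩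

open Classical in
/-- A typical translate. -/
lemma good_translate {n : ℕ} (hn : 16 ≤ n) {E D : ℝ} (hE : 0 < E) (hD : 0 ≤ D)
    (hDV : D * VB n ≤ E) (Xm : Finset (Fin n → ℝ)) (Z : Finset (Fin n → ℤ)) (hZ : Z.Nonempty)
    (hX : (Xm.card : ℝ) * (n:ℝ) ^ n ≤ 2 * D * Z.card) :
    ∃ z ∈ Z,
      (∑ k ∈ Xi n, ∑ j ∈ range n, ((Xm.filter fun p =>
        nrm (xpt k + latPt (1 / (n:ℝ)) z - p) ≤ layerR n j).card : ℝ)) ≤
          (Xi n).card * (96 * E) ∧
      (∑ k ∈ Xi n, ((Xm.filter fun p =>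
        nrm (xpt k + latPt (1 / (n:ℝ)) z - p) ≤ layerR n ⌊qq n⌋₊).card : ℝ)) ≤
          (Xi n).card * (6 * E * Real.exp (3 - qq n)) ∧
      ((Xm.filter fun p => nrm (0 + latPt (1 / (n:ℝ)) z - p) ≤ 2 * Real.sqrt n + 1).card : ℝ) ≤
          6 * E * 3 ^ n := by
  have hnp : 0 < n := by omega
  have hn0 : (0:ℝ) < n := by exact_mod_cast hnp
  have h16 : (16:ℝ) ≤ n := by exact_mod_cast hn
  set s := Real.sqrt (n:ℝ) with hs
  have hss : s * s = n := Real.mul_self_sqrt hn0.le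
  have hs4 : 4 ≤ s := Real.le_sqrt_of_sq_le (by linarith)
  set A : ℕ := ⌊qq n⌋₊ with hA
  have hAn : A ≤ n := by
    refine Nat.floor_le_of_le (Real.sqrt_le_iff.2 ⟨hn0.le, ?_⟩)
    rw [← hs]; nlinarith
  set FS : (Fin n → ℤ) → ℝ := fun z => ∑ k ∈ Xi n, ∑ j ∈ range n, ((Xm.filter fun p =>
        nrm (xpt k + latPt (1 / (n:ℝ)) z - p) ≤ layerR n j).card : ℝ) with hFS
  set FD : (Fin n → ℤ) → ℝ := fun z => ∑ k ∈ Xi n, ((Xm.filter fun p =>
        nrm (xpt k + latPt (1 / (n:ℝ)) z - p) ≤ layerR n A).card : ℝ) with hFD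
  set FV : (Fin n → ℤ) → ℝ := fun z =>
    ((Xm.filter fun p => nrm (0 + latPt (1 / (n:ℝ)) z - p) ≤ 2 * s + 1).card : ℝ) with hFV
  set aS : ℝ := (Xi n).card * (32 * E) with haS
  set aD : ℝ := (Xi n).card * (2 * E * Real.exp (3 - qq n)) with haD
  set aV : ℝ := 2 * E * 3 ^ n with haV
  have hXi : 0 < ((Xi n).card : ℝ) := by rw [Xi_card]; push_cast; positivity
  have haS0 : 0 < aS := by positivity
  have haD0 : 0 < aD := by positivity
  have haV0 : 0 < aV := by positivity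
  have hbS : ∑ z ∈ Z, FS z ≤ aS * Z.card := by
    simp only [hFS]
    rw [sum_comm, haS, mul_assoc, ← nsmul_eq_mul, ← sum_const]
    refine sum_le_sum fun k _ => ?_
    rw [sum_comm]
    refine (sum_le_sum fun j hj => avg_le hnp Xm Z (xpt k) (layerR n j) (by positivity)
      (layer_vol hn j (mem_range.1 hj).le) hX).trans ?_
    rw [← sum_mul, ← mul_sum, ← sum_mul]
    refine mul_le_mul_of_nonneg_right ?_ (Nat.cast_nonneg _)
    calc 2 * D * ((∑ j ∈ range n, Real.exp (2 - (j:ℝ))) * VB n) ≤ 2 * D * (16 * VB n) :=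
          mul_le_mul_of_nonneg_left (mul_le_mul_of_nonneg_right (sum_exp_layers n) measureReal_nonneg)
            (by positivity)
      _ ≤ 32 * E := by linarith
  have hbD : ∑ z ∈ Z, FD z ≤ aD * Z.card := by
    simp only [hFD]
    rw [sum_comm, haD, mul_assoc, ← nsmul_eq_mul, ← sum_const]
    refine sum_le_sum fun k _ => ?_
    refine (avg_le hnp Xm Z (xpt k) (layerR n A) (by positivity)
      (layer_vol hn A hAn) hX).trans (mul_le_mul_of_nonneg_right ?_ (Nat.cast_nonneg _))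
    have h1 : Real.exp (2 - (A:ℝ)) ≤ Real.exp (3 - qq n) :=
      Real.exp_le_exp.2 (by linarith [Nat.lt_floor_add_one (qq n)])
    calc 2 * D * (Real.exp (2 - (A:ℝ)) * VB n) = 2 * (D * VB n) * Real.exp (2 - (A:ℝ)) := by ring
      _ ≤ 2 * E * Real.exp (3 - qq n) :=
          mul_le_mul (by linarith) h1 (Real.exp_pos _).le (by linarith)
  have hbV : ∑ z ∈ Z, FV z ≤ aV * Z.card := by
    have hv : volume.real {y : Fin n → ℝ | nrm y ≤ 2 * s + 1 + 1 / (n:ℝ) * s} ≤ 3 ^ n * VB n := by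
      refine ball_scale_le (by norm_num) ?_
      have : 1 / (n:ℝ) * s ≤ 1 := by
        rw [one_div_mul_eq_div, div_le_one hn0]; nlinarith
      rw [← hs]; linarith
    refine (avg_le hnp Xm Z 0 (2 * s + 1) (by positivity) hv hX).trans
      (mul_le_mul_of_nonneg_right ?_ (Nat.cast_nonneg _))
    calc 2 * D * (3 ^ n * VB n) = 2 * (D * VB n) * 3 ^ n := by ring
      _ ≤ aV := by rw [haV]; gcongr
  obtain ⟨z, hzm, hz⟩ := exists_le_of_sum_le hZ
    (f := fun z => FS z / aS + FD z / aD + FV z / aV)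
    (g := fun _ => (3:ℝ)) (by
      rw [sum_add_distrib, sum_add_distrib, ← sum_div, ← sum_div, ← sum_div, sum_const,
        nsmul_eq_mul]
      have e1 := (div_le_iff₀' haS0).2 hbS
      have e2 := (div_le_iff₀' haD0).2 hbD
      have e3 := (div_le_iff₀' haV0).2 hbV
      linarith)
  have d1 : 0 ≤ FS z / aS :=
    div_nonneg (sum_nonneg fun k _ => sum_nonneg fun j _ => Nat.cast_nonneg _) haS0.le
  have d2 : 0 ≤ FD z / aD := div_nonneg (sum_nonneg fun k _ => Nat.cast_nonneg _) haD0.le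
  have d3 : 0 ≤ FV z / aV := div_nonneg (Nat.cast_nonneg _) haV0.le
  have h1 : FS z ≤ 3 * aS := (div_le_iff₀ haS0).1 (by linarith)
  have h2 : FD z ≤ 3 * aD := (div_le_iff₀ haD0).1 (by linarith)
  have h3 : FV z ≤ 3 * aV := (div_le_iff₀ haV0).1 (by linarith)
  exact ⟨z, hzm, h1.trans_eq (by rw [haS]; ring), h2.trans_eq (by rw [haD]; ring),
    h3.trans_eq (by rw [haV]; ring)⟩

open Classical in
/-- Counts certify a usable trial. -/
lemma good_trial {n : ℕ} (hn : 16 ≤ n) {K0 : ℝ} (Xm W : Finset (Fin n → ℝ)) (hW : W ⊆ Xm)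
    (c : Fin n → ℝ) {k : Fin n → ℤ} (hk : k ∈ Xi n)
    (hFSK : (∑ j ∈ range n, ((Xm.filter fun p =>
      nrm (xpt k + c - p) ≤ layerR n j).card : ℝ)) ≤ K0)
    (hFD0 : ((Xm.filter fun p => nrm (xpt k + c - p) ≤ layerR n ⌊qq n⌋₊).card : ℝ) = 0) :
    k ∈ goodX K0 (W.image fun p => rnd (p - c)) := by
  have hnp : 0 < n := by omega
  have hn0 : (0:ℝ) < n := by exact_mod_cast hnp
  set P := W.image fun p => rnd (p - c) with hPdef
  set A : ℕ := ⌊qq n⌋₊ with hA
  have hmemW : ∀ k ∈ Xi n, ∀ p' ∈ Sset P k, ∀ p ∈ W, rnd (p - c) = p' →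
      ∀ d, nrm (vec k p') ≤ d → nrm (xpt k + c - p) ≤ d + 1 / (n:ℝ) ^ 2 := by
    intro k _ p' _ p _ hpe d hd
    have e : xpt k + c - p = vec k p' + -((p - c) - ppt p') := by rw [vec]; abel
    rw [e]
    refine (nrm_add_le _ _).trans (add_le_add hd ?_)
    rw [nrm_neg, ← hpe]
    exact rnd_near hnp _
  simp only [goodX, mem_filter]
  have hSsub : Sset P k = ((W.filter fun p => rnd (p - c) ∈ Sset P k)).image
      fun p => rnd (p - c) := by
    ext p'
    simp only [mem_image, mem_filter]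
    refine ⟨fun hp' => ?_, fun ⟨p, hp, he⟩ => he ▸ hp.2⟩
    obtain ⟨p, hp, he⟩ := mem_image.1 (mem_filter.1 hp').1
    exact ⟨p, ⟨hp, he ▸ hp'⟩, he⟩
  have hdep : ∀ p' ∈ Sset P k, ∀ p ∈ W, rnd (p - c) = p' →
      dep (vec k p') ≤ (((range n).filter fun j : ℕ =>
        nrm (xpt k + c - p) ≤ layerR n j).card : ℝ) := by
    intro p' hp' p hp hpe
    have hr := rad_pos hnp
    have hv := (mem_filter.1 hp').2
    have h0 : 0 ≤ dep (vec k p') := mul_nonneg hn0.le (sub_nonneg.2 ((div_le_one hr).2 hv))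
    have h1 : dep (vec k p') ≤ n := by
      refine mul_le_of_le_one_right hn0.le (sub_le_self _ ?_)
      exact div_nonneg (nrm_nonneg _) hr.le
    calc dep (vec k p') ≤ (⌈dep (vec k p')⌉₊ : ℝ) := Nat.le_ceil _
      _ = ((range ⌈dep (vec k p')⌉₊).card : ℝ) := by rw [card_range]
      _ ≤ _ := by
        refine Nat.cast_le.2 (card_le_card fun j hj => ?_)
        have hj' : (j:ℝ) < dep (vec k p') := Nat.lt_ceil.1 (mem_range.1 hj)
        refine mem_filter.2 ⟨mem_range.2 ?_, ?_⟩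
        · exact_mod_cast hj'.trans_le h1
        · refine hmemW k hk p' hp' p hp hpe _ ?_
          rw [dep, mul_sub, mul_one, ← mul_div_assoc, lt_sub_iff_add_lt, ← lt_sub_iff_add_lt',
            div_lt_iff₀ hr] at hj'
          calc nrm (vec k p') ≤ (n - j) * rad n / n := by
                rw [le_div_iff₀ hn0]; linarith
            _ = _ := by field_simp
  have hXmW : W ⊆ Xm := hW
  refine ⟨hk, ?_, ?_, ?_⟩
  · refine le_trans ?_ hFSK
    refine le_trans ?_ (single_le_sum (f := fun j : ℕ =>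
      ((Xm.filter fun p => nrm (xpt k + c - p) ≤ layerR n j).card : ℝ))
      (fun j _ => Nat.cast_nonneg _) (mem_range.2 hnp))
    refine Nat.cast_le.2 ((le_of_eq (congrArg card hSsub)).trans (card_image_le.trans
      (card_le_card fun p hp => ?_)))
    obtain ⟨hp1, hp2⟩ := mem_filter.1 hp
    refine mem_filter.2 ⟨hXmW hp1, ?_⟩
    have := hmemW k hk _ hp2 p hp1 rfl (rad n) (mem_filter.1 hp2).2
    simpa [layerR] using this
  · refine le_trans ?_ hFSK
    rw [hSsub]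
    refine (sum_image_le_of_nonneg fun p' hp' => ?_).trans ?_
    · rw [← hSsub] at hp'
      exact mul_nonneg hn0.le
        (sub_nonneg.2 ((div_le_one (rad_pos hnp)).2 (mem_filter.1 hp').2))
    · simp_rw [natCast_card_filter]
      rw [sum_comm]
      calc _ ≤ ∑ p ∈ W.filter (fun p => rnd (p - c) ∈ Sset P k), ∑ j ∈ range n,
            (if nrm (xpt k + c - p) ≤ layerR n j then (1:ℝ) else 0) := by
            refine sum_le_sum fun p hp => ?_
            rw [← natCast_card_filter]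
            exact hdep _ (mem_filter.1 hp).2 p (mem_filter.1 hp).1 rfl
        _ ≤ _ := sum_le_sum_of_subset_of_nonneg ((filter_subset _ _).trans hXmW)
            fun p _ _ => sum_nonneg fun j _ => by split_ifs <;> norm_num
  · intro p' hp'
    by_contra hgt
    push Not at hgt
    obtain ⟨p, hp, he⟩ := mem_image.1 (mem_filter.1 hp').1
    have hmem : p ∈ Xm.filter fun p => nrm (xpt k + c - p) ≤ layerR n A := by
      refine mem_filter.2 ⟨hXmW hp, ?_⟩
      refine hmemW k hk p' hp' p hp he _ ?_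
      have hAlt : (A:ℝ) < dep (vec k p') := (Nat.floor_le (qq_nonneg n)).trans_lt hgt
      rw [dep, mul_sub, mul_one, ← mul_div_assoc, lt_sub_iff_add_lt, ← lt_sub_iff_add_lt',
        div_lt_iff₀ (rad_pos hnp)] at hAlt
      calc nrm (vec k p') ≤ (n - A) * rad n / n := by rw [le_div_iff₀ hn0]; linarith
        _ = _ := by field_simp
    rw [Nat.cast_eq_zero, card_eq_zero] at hFD0
    rw [hFD0] at hmem
    exact notMem_empty _ hmem

open Classical in
theorem window {n : ℕ} (hn : 16 ≤ n) {E K0 D R0 : ℝ} (hE : 0 < E) (hD : 0 ≤ D)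
    (hDV : D * VB n ≤ E) (hK : 768 * E ≤ K0) (hP : 6 * E * 3 ^ n ≤ Real.exp (1.2 * n))
    (hdeep : 6 * E * Real.exp (3 - qq n) ≤ 1 / 8) (X : Set (Fin n → ℝ))
    (hfin : ∀ m : ℝ, (X ∩ Set.Icc (fun _ => -m) (fun _ => m)).Finite)
    (hcount : ∀ R ≥ R0,
      ((X ∩ Set.Icc (fun _ => -R) (fun _ => R)).ncard : ℝ) ≤ D * (2 * R) ^ n) :
    ∃ P ∈ cfgs n K0, ∃ z : Fin n → ℝ, ∀ k ∈ Xi n, ∀ p ∈ X,
      nrm (xpt k + z - p) ≤ Real.sqrt n →
        ∃ p' ∈ Sset P k, nrm ((p - z) - ppt p') ≤ 1 / (n:ℝ) ^ 2 := by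
  have hnp : 0 < n := by omega
  have hn0 : (0:ℝ) < n := by exact_mod_cast hnp
  have h16 : (16:ℝ) ≤ n := by exact_mod_cast hn
  obtain ⟨Xm, Z, hZne, hXc, hcov⟩ := big_box hn hD X hfin hcount
  obtain ⟨z, hzm, hzS, hzD, hzV⟩ := good_translate hn hE hD hDV Xm Z hZne hXc
  set s := Real.sqrt (n:ℝ) with hs
  have hs4 : 4 ≤ s := Real.le_sqrt_of_sq_le (by linarith)
  have hsn : 2 * s + 1 ≤ n := by
    have hss : s * s = n := Real.mul_self_sqrt hn0.le
    nlinarith
  set c : Fin n → ℝ := latPt (1 / (n:ℝ)) z with hc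
  set W := Xm.filter fun p => nrm (0 + c - p) ≤ 2 * s + 1 with hW
  set P := W.image fun p => rnd (p - c) with hPdef
  have hK0 : 0 < K0 := by linarith
  refine ⟨P, ?_, c, ?_⟩
  · simp only [cfgs, mem_filter, mem_powerset]
    refine ⟨?_, ?_, ?_⟩
    · intro p' hp'
      obtain ⟨p, hp, rfl⟩ := mem_image.1 hp'
      refine Fintype.mem_piFinset.2 fun i => ?_
      have h1 : |(p - c) i| ≤ n := by
        refine (abs_coord_le_nrm _ i).trans ?_
        have := (mem_filter.1 hp).2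
        rw [zero_add, nrm_sub_comm] at this
        exact this.trans hsn
      have h2 : |(p - c) i * (n:ℝ) ^ 3| ≤ (n:ℝ) ^ 4 := by
        rw [abs_mul, abs_of_pos (pow_pos hn0 3), pow_succ' (n:ℝ) 3]
        exact mul_le_mul_of_nonneg_right h1 (by positivity)
      rw [abs_le] at h2
      rw [rnd, mem_Icc, Int.le_floor]
      refine ⟨by push_cast; linarith [h2.1], ?_⟩
      have := Int.floor_le ((p - c) i * (n:ℝ) ^ 3)
      have h3 : (⌊(p - c) i * (n:ℝ) ^ 3⌋ : ℝ) ≤ (((n:ℤ) ^ 4 : ℤ) : ℝ) := by push_cast; linarith [h2.2]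
      exact_mod_cast h3
    · exact le_trans (Nat.cast_le.2 card_image_le) (hzV.trans hP)
    · set FS : (Fin n → ℤ) → ℝ := fun k => ∑ j ∈ range n,
        ((Xm.filter fun p => nrm (xpt k + c - p) ≤ layerR n j).card : ℝ) with hFS
      set FD : (Fin n → ℤ) → ℝ := fun k =>
        ((Xm.filter fun p => nrm (xpt k + c - p) ≤ layerR n ⌊qq n⌋₊).card : ℝ) with hFD
      have hgood : ∀ k ∈ Xi n, k ∉ goodX K0 P → 1 ≤ FS k / K0 + FD k := by
        intro k hk hkg
        by_contra hlt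
        push Not at hlt
        have h0 : 0 ≤ FS k / K0 := div_nonneg (sum_nonneg fun j _ => Nat.cast_nonneg _) hK0.le
        refine hkg (good_trial hn Xm W (filter_subset _ _) c hk
          ((div_lt_one hK0).1 (lt_of_le_of_lt (le_add_of_nonneg_right (Nat.cast_nonneg _)) hlt)).le
          ?_)
        have h1 : FD k < 1 := by linarith
        rw [Nat.cast_eq_zero]
        exact Nat.lt_one_iff.1 ((Nat.cast_lt (α := ℝ)).1 (by simpa only [hFD, Nat.cast_one] using h1))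
      have hbad : ((Xi n \ goodX K0 P).card : ℝ) ≤ (Xi n).card / 4 := by
        calc ((Xi n \ goodX K0 P).card : ℝ) = ∑ k ∈ Xi n \ goodX K0 P, (1:ℝ) := by simp
          _ ≤ ∑ k ∈ Xi n \ goodX K0 P, (FS k / K0 + FD k) :=
              sum_le_sum fun k hk => hgood k (mem_sdiff.1 hk).1 (mem_sdiff.1 hk).2
          _ ≤ ∑ k ∈ Xi n, (FS k / K0 + FD k) :=
              sum_le_sum_of_subset_of_nonneg sdiff_subset fun k _ _ =>
                add_nonneg (div_nonneg (sum_nonneg fun j _ => Nat.cast_nonneg _) hK0.le)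
                  (Nat.cast_nonneg _)
          _ ≤ (Xi n).card / 8 + (Xi n).card / 8 := by
              rw [sum_add_distrib, ← sum_div]
              refine add_le_add ((div_le_iff₀ hK0).2 (hzS.trans ?_)) (hzD.trans ?_)
              · calc ((Xi n).card : ℝ) * (96 * E) = (Xi n).card / 8 * (768 * E) := by ring
                  _ ≤ _ := mul_le_mul_of_nonneg_left hK (by positivity)
              · calc ((Xi n).card : ℝ) * (6 * E * Real.exp (3 - qq n))
                    ≤ (Xi n).card * (1 / 8) := mul_le_mul_of_nonneg_left hdeep (by positivity)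
                  _ = _ := by ring
          _ = _ := by ring
      have hsub : goodX K0 P ⊆ Xi n := filter_subset _ _
      rw [card_sdiff_of_subset hsub, Nat.cast_sub (card_le_card hsub)] at hbad
      have : ((Xi n).card : ℝ) ≤ 2 * (goodX K0 P).card := by linarith
      rw [Xi_card] at this
      exact_mod_cast this
  · intro k hk p hp hdist
    have hnx := nrm_xpt hnp hk
    have e : c - p = (xpt k + c - p) + -(xpt k) := by abel
    have hvis : nrm (0 + c - p) ≤ 2 * s + 1 := by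
      rw [zero_add, e]
      refine (nrm_add_le _ _).trans ?_
      rw [nrm_neg, ← hs] at *
      linarith
    have hpX : p ∈ Xm := hcov z hzm p hp hvis
    refine ⟨rnd (p - c), ?_, rnd_near hnp _⟩
    refine mem_filter.2 ⟨mem_image_of_mem (fun p => rnd (p - c)) (mem_filter.2 ⟨hpX, hvis⟩), ?_⟩
    have e3 : vec k (rnd (p - c)) = (xpt k + c - p) + ((p - c) - ppt (rnd (p - c))) := by
      rw [vec]; abel
    rw [e3, rad]
    exact (nrm_add_le _ _).trans (add_le_add hdist (rnd_near hnp _))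

end Vale.Agent.P230.Lower
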