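import Mathlib
import Vale.Agent.P230.Lower.Window
import Vale.Agent.P230.Lower.Params

/-! Convex bodies whose translative covering density is of order `n log n`. -/

namespace Vale.Agent.P230.Lower

open MeasureTheory Filter Set
open scoped ENNReal

variable {n Q : ℕ}

lemma bodyK_convex (G : Fin Q → Fin n → ℝ) (T : Finset (Fin Q)) : Convex ℝ (bodyK G T) := by
  have e : bodyK G T = (fun x : Fin n → ℝ => (WithLp.linearEquiv 2 ℝ (Fin n → ℝ)).symm x) ⁻¹'
      Metric.closedBall (0 : EuclideanSpace ℝ (Fin n)) (Real.sqrt n) ∩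
        ⋂ q ∈ T, {x | dotp (G q) x ≤ sg * n} := by
    ext x
    simp only [bodyK, mem_ofPred_eq, mem_inter_iff, mem_preimage, Metric.mem_closedBall,
      dist_zero_right, mem_iInter]
    refine and_congr_left fun _ => ?_
    rw [show ((WithLp.linearEquiv 2 ℝ (Fin n → ℝ)).symm x) = WithLp.toLp 2 x from rfl,
      ← nrm_eq_norm, nrm_le_iff x (Real.sqrt_nonneg _), Real.sq_sqrt (Nat.cast_nonneg _)]
  rw [e]
  refine ((convex_closedBall _ _).linear_preimage
    (WithLp.linearEquiv 2 ℝ (Fin n → ℝ)).symm.toLinearMap).inter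
    (convex_iInter₂ fun q _ => convex_halfSpace_le ⟨fun x y => ?_, fun c x => ?_⟩ _)
  · simp [dotp, mul_add, Finset.sum_add_distrib]
  · simp only [dotp, Pi.smul_apply, smul_eq_mul, Finset.mul_sum]
    exact Finset.sum_congr rfl fun i _ => by ring

lemma bodyK_compact (G : Fin Q → Fin n → ℝ) (T : Finset (Fin Q)) : IsCompact (bodyK G T) := by
  have hc : IsClosed (bodyK G T) := by
    have e : bodyK G T = {x | nsq x ≤ n} ∩ ⋂ q ∈ T, {x | dotp (G q) x ≤ sg * n} := by
      ext x; simp [bodyK]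
    rw [e]
    exact (isClosed_le (by unfold nsq; fun_prop) continuous_const).inter
      (isClosed_biInter fun q _ => isClosed_le (by unfold dotp; fun_prop) continuous_const)
  refine Metric.isCompact_of_isClosed_isBounded hc
    ((Metric.isBounded_closedBall (x := (0 : Fin n → ℝ)) (r := Real.sqrt n)).subset fun x hx => ?_)
  rw [Metric.mem_closedBall, dist_zero_right, pi_norm_le_iff_of_nonneg (Real.sqrt_nonneg _)]
  exact fun i => (abs_coord_le_nrm x i).trans (Real.sqrt_le_sqrt hx.1)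

lemma bodyK_interior (hn : 0 < n) (G : Fin Q → Fin n → ℝ) (T : Finset (Fin Q)) :
    (interior (bodyK G T)).Nonempty := by
  refine ⟨0, mem_interior.2 ⟨{x | nsq x < n} ∩ ⋂ q ∈ T, {x | dotp (G q) x < sg * n}, ?_, ?_, ?_⟩⟩
  · intro x hx
    exact ⟨le_of_lt (show nsq x < n from hx.1), fun q hq =>
      le_of_lt (show dotp (G q) x < sg * n from mem_iInter₂.1 hx.2 q hq)⟩
  · exact (isOpen_lt (by unfold nsq; fun_prop) continuous_const).inter
      (isOpen_biInter_finset fun q _ => isOpen_lt (by unfold dotp; fun_prop) continuous_const)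
  · have hn0 : (0:ℝ) < n := by exact_mod_cast hn
    refine ⟨by simp [nsq, hn], mem_iInter₂.2 fun q _ => ?_⟩
    simp only [mem_ofPred_eq, dotp, Pi.zero_apply, mul_zero, Finset.sum_const_zero]
    exact mul_pos (by norm_num [sg]) hn0

/-- A selected vector that cuts off a rounded centre cuts off the true one. -/
lemma cut_true (hb : 4 * sg < n) {g v e : Fin n → ℝ} (hg : g ∈ Reg v) (he : nrm e ≤ 1 / (n:ℝ) ^ 2) :
    sg * n < dotp g (v + e) := by
  have hs : 0 < sg := by norm_num [sg]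
  have hn0 : (0:ℝ) < n := by linarith
  have h1 : nrm g ≤ 4 * sg * n := (nrm_le_iff g (by positivity)).2 hg.2
  have h2 : |dotp g e| ≤ 4 * sg * n * (1 / (n:ℝ) ^ 2) :=
    (abs_dotp_le g e).trans (mul_le_mul h1 he (nrm_nonneg _) (by positivity))
  have h3 : 4 * sg * n * (1 / (n:ℝ) ^ 2) < 1 := by
    rw [show 4 * sg * (n:ℝ) * (1 / (n:ℝ) ^ 2) = 4 * sg / n by field_simp, div_lt_one hn0]
    exact hb
  have e1 : dotp g (v + e) = dotp g v + dotp g e := by
    simp [dotp, mul_add, Finset.sum_add_distrib]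
  have h4 : tau n < dotp g v := hg.1
  rw [e1, tau] at *
  linarith [neg_abs_le (dotp g e)]

theorem lower_main {n : ℕ} (hA : AllBig n) :
    ∃ K : Set (Fin n → ℝ), Convex ℝ K ∧ IsCompact K ∧ (interior K).Nonempty ∧
      ∀ X : Set (Fin n → ℝ), (∀ B : Set (Fin n → ℝ), Bornology.IsBounded B → (X ∩ B).Finite) →
        (∀ x, ∃ p ∈ X, x - p ∈ K) →
        ENNReal.ofReal (cLow * n * Real.log n) ≤ volume K *
          limsup (fun R : ℝ =>
            ((X ∩ Icc (fun _ => -R) (fun _ => R)).ncard : ℝ≥0∞) / ENNReal.ofReal ((2 * R) ^ n))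
            atTop := by
  have hn : 0 < n := by have := hA.hn; omega
  obtain ⟨Q, G, T, hvol, hdef⟩ := good_body hA.toPairBig hA.hbad
  refine ⟨bodyK G T, bodyK_convex G T, bodyK_compact G T, bodyK_interior hn G T, fun X hX hcov => ?_⟩
  by_contra hlt
  push Not at hlt
  set v := volume.real (bodyK G T) with hv
  have hv0 : 0 < v := (mul_pos kap_pos (VB_pos hn)).trans_le hvol
  have hvE : volume (bodyK G T) = ENNReal.ofReal v := by
    rw [hv, ofReal_measureReal ((bodyK_compact G T).measure_lt_top).ne]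
  set a := cLow * n * Real.log n with ha
  have haE : a = kap * EE n := by rw [ha, cLow, EE]; ring
  have ha0 : 0 < a := haE ▸ mul_pos kap_pos hA.hE
  set L := limsup (fun R : ℝ =>
    ((X ∩ Icc (fun _ => -R) (fun _ => R)).ncard : ℝ≥0∞) / ENNReal.ofReal ((2 * R) ^ n)) atTop
  have hL : L < ENNReal.ofReal (a / v) := by
    rw [ENNReal.ofReal_div_of_pos hv0, ← hvE]
    exact (ENNReal.lt_div_iff_mul_lt (Or.inl (by rw [hvE]; simpa using hv0))
      (Or.inl (by rw [hvE]; simp))).2 (by rwa [mul_comm])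
  obtain ⟨R0, hR0⟩ := eventually_atTop.1 (eventually_lt_of_limsup_lt hL)
  have hfin : ∀ m : ℝ, (X ∩ Icc (fun _ => -m) (fun _ => m)).Finite := fun m =>
    hX _ (Metric.isBounded_Icc _ _)
  have hcount : ∀ R ≥ max R0 1,
      ((X ∩ Icc (fun _ => -R) (fun _ => R)).ncard : ℝ) ≤ a / v * (2 * R) ^ n := by
    intro R hR
    have hR1 : 0 < (2 * R) ^ n := pow_pos (by linarith [le_max_right R0 1]) n
    have h := (hR0 R ((le_max_left _ _).trans hR)).le
    rw [ENNReal.div_le_iff (by simpa using hR1) ENNReal.ofReal_ne_top,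
      ← ENNReal.ofReal_mul (by positivity), ← ENNReal.ofReal_natCast,
      ENNReal.ofReal_le_ofReal_iff (by positivity)] at h
    exact h
  have hDV : a / v * VB n ≤ EE n := by
    rw [div_mul_eq_mul_div, div_le_iff₀ hv0, haE]
    calc kap * EE n * VB n = EE n * (kap * VB n) := by ring
      _ ≤ EE n * v := mul_le_mul_of_nonneg_left hvol hA.hE.le
  obtain ⟨P, hP, z, hz⟩ := window hA.hn hA.hE (div_pos ha0 hv0).le hDV le_rfl hA.hP hA.hdeep X hfin hcount
  obtain ⟨k, hk, hkdef⟩ := defeated (hdef P hP)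
  obtain ⟨p, hp, hpK⟩ := hcov (xpt k + z)
  have hnr : nrm (xpt k + z - p) ≤ Real.sqrt n := Real.sqrt_le_sqrt hpK.1
  obtain ⟨p', hp', herr⟩ := hz k (Finset.mem_filter.1 hk).1 p hp hnr
  obtain ⟨q, hq, hgq⟩ := hkdef p' hp'
  have hcut := cut_true hA.hround hgq (e := -((p - z) - ppt p')) (by rwa [nrm_neg])
  have e : vec k p' + -((p - z) - ppt p') = xpt k + z - p := by rw [vec]; abel
  rw [e] at hcut
  exact absurd (hpK.2 q hq) (not_le.2 hcut)

end Vale.Agent.P230.Lower
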